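import Vale.Agent.P193.W4.A5.Context
import Vale.Agent.P193.W4.Common.SFT

/-!
P193, module W4 (A5): the cells of the common layer as the lowest virtual level.
-/

noncomputable section

namespace Vale.Agent.P193.W4.A5

open BH BH.SFT Finset Common
open scoped Classical

variable {C : Cfg}

/-- The cells of the window with upper corner `v`. -/
def cubeArea (v : Z5) : Finset Lat := univ.image fun d : Dir => cellOf (v - dir d)

lemma mem_cubeArea (v : Z5) (d : Dir) : cellOf (v - dir d) ∈ cubeArea v :=
  mem_image_of_mem _ (mem_univ d)

lemma corner_cell (v : Z5) (g : Guest) :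
    cellOf (v - fun _ => 1) * (corner g).1 = cellOf (v - dir g) := by
  show cellOf (v - fun _ => 1) * cellOf (fun a => if g a then 0 else 1) = _
  rw [← cellOf_add]
  congr 1
  funext a
  simp only [Pi.sub_apply, Pi.add_apply, dir]
  cases g a <;> simp

variable (C) in
lemma ctx_cubeArea (v : Z5) : Ctx (S := sft C) (whole (sft C)) (cubeArea v) := by
  refine ctx_window _ (cellOf (v - fun _ => 1)) fun c hc => ?_
  obtain ⟨d, -, rfl⟩ := mem_image.1 hc
  exact ⟨(corner d).1, (corner d).2, (corner_cell v d).symm⟩

variable (C) in
/-- The lowest level. -/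
def baseLevel : Level (sft C) (Common.St C) (Valid (L₀ C)) where
  Q _ := 1
  Q_pos _ := Nat.one_pos
  area := cubeArea
  area_ctx := ctx_cubeArea C
  rd v a := some fun d => (a (cellOf (v - dir d))).1
  rd_dep v a b h := by
    simp only [Option.some.injEq]
    funext d
    rw [h _ (mem_cubeArea v d)]
  valid v a q ha hq := by
    obtain rfl := Option.some.inj hq
    have h := ha.admissible (sft C) (cellOf (v - fun _ => 1)) fun w hw => by
      obtain ⟨p, -, rfl⟩ := mem_image.1 (show w ∈ cube from hw)
      refine mem_image.2 ⟨fun a => !(![p.2 0, p.2 1, p.1 0, p.1 1, p.1 2] a), mem_univ _, ?_⟩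
      rw [← corner_cell]
      congr 1
      rw [corner, ← cellOf_coords (Multiplicative.ofAdd _)]
      dsimp only
      refine congrArg cellOf (funext fun a => ?_)
      fin_cases a <;> simp [coords] <;> split_ifs <;> simp_all
    change Valid (L₀ C) fun g => (a (cellOf (v - fun _ => 1) * (corner g).1)).1 at h
    simpa only [corner_cell] using h
  cover u o' ho' hc l := by
    refine com_of_determined (ι := Unit)
      (fun _ => readObs cubeArea _ _ (coords u) fun r => ∃ q, r = some q ∧ q d₀ = l.1)
      (ctx_cubeArea C (coords u)) ?_ (Obs.thru_id _ _) (fun _ => subset_rfl)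
      (fun _ => Obs.thru_id _ _) ho' o'.thru_id (fun a b _ _ hab => ?_)
      fun _ => hc _ (fun a => by simp) _
    · intro c hc'
      rw [mem_singleton.1 (show c ∈ ({u} : Finset Lat) from hc'), ← cellOf_coords u]
      have := mem_cubeArea (coords u) d₀
      simp only [dir_d₀, sub_zero, cellOf_coords] at this ⊢
      exact this
    · have e := hab ()
      simp only [readObs, Option.some.injEq, exists_eq_left', dir_d₀, sub_zero, cellOf_coords,
        decide_eq_decide] at e
      show decide (a u = l) = decide (b u = l)
      rw [decide_eq_decide]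
      exact ⟨fun h => Subtype.ext (e.1 (congrArg Subtype.val h)),
        fun h => Subtype.ext (e.2 (congrArg Subtype.val h))⟩
  off := 0
  span _ := 1
  acover v u hu o' ho' hc l := by
    obtain ⟨d, -, rfl⟩ := mem_image.1 hu
    refine com_of_determined (ι := Unit)
      (fun _ => readObs cubeArea _ _ v fun r => ∃ q, r = some q ∧ q d = l.1)
      (ctx_cubeArea C v) (singleton_subset_iff.2 (mem_cubeArea v d)) (Obs.thru_id _ _)
      (fun _ => subset_rfl) (fun _ => Obs.thru_id _ _) ho' o'.thru_id (fun a b _ _ hab => ?_)
      fun _ => hc _ (fun a => by simp) _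
    have e := hab ()
    simp only [readObs, Option.some.injEq, exists_eq_left', decide_eq_decide] at e
    show decide (a (cellOf (v - dir d)) = l) = decide (b (cellOf (v - dir d)) = l)
    rw [decide_eq_decide]
    exact ⟨fun h => Subtype.ext (e.1 (congrArg Subtype.val h)),
      fun h => Subtype.ext (e.2 (congrArg Subtype.val h))⟩
  excl v v' h := absurd (fun a => one_dvd _) h

variable (C) in
/-- Neighbouring cells show their common tiles. -/
theorem baseLevel_linked : (baseLevel C).Linked := by
  intro v d P
  let o : (sft C).Obs :=
    { supp := {cellOf (v - dir d)}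
      val := fun a => decide (P (a (cellOf (v - dir d))).1)
      dep := fun a b h => by rw [h _ (mem_singleton_self _)] }
  have e : ∀ (w : Z5) (d' : Dir), cellOf (w - dir d') = cellOf (v - dir d) →
      Same ((baseLevel C).win w fun q => P (q d')) o := fun w d' he => by
    refine same_of_agree (ctx_cubeArea C w) subset_rfl ((baseLevel C).thru_win _ _)
      (singleton_subset_iff.2 (he ▸ mem_cubeArea w d')) o.thru_id fun a _ => ?_
    simp [Level.win, baseLevel, o, he]
  refine (e v d rfl).trans (e _ d₀ ?_).symm
  have e1 : (baseLevel C).scale (dir d) = dir d := funext fun a => by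
    show ((1 : ℕ) : ℤ) * dir d a = dir d a
    simp
  rw [e1, dir_d₀, sub_zero]

end Vale.Agent.P193.W4.A5
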