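import Vale.Agent.P193.W4.A5.Shell
import Vale.Agent.P193.W4.Common.Desub.Defs

/-!
P193, module W4 (A5): the shown bits are known from the bits at the crossings.

Along an axis a bit is equal wherever it is shown and is off beyond, so it is followed to the
crossing of its row and its column in the same parent.
-/

noncomputable section

namespace Vale.Agent.P193.W4.A5

open BH BH.SFT Finset Common
open scoped Classical

variable {C : Cfg} {L : ℕ} {S : SFT Lat} {Λ : Lv S C L} {o g : Z5}

/-! ### Moves inside a parent -/

lemma moveTo_self {i : Z5} {s : Finset (Fin 5)} {m : Fin 5 → ℕ}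
    (h : ∀ a ∈ s, px C L g i a = m a) : moveTo C L g i s m = i := by
  funext a
  by_cases ha : a ∈ s
  · rw [moveTo, if_pos ha, h a ha, sub_self, add_zero]
  · rw [moveTo, if_neg ha]

lemma moveTo_congr {i : Z5} {s t : Finset (Fin 5)} {m : Fin 5 → ℕ} (hst : s ⊆ t)
    (h : ∀ a ∈ t, a ∉ s → px C L g i a = m a) :
    moveTo C L g i t m = moveTo C L g i s m := by
  funext a
  by_cases ha : a ∈ s
  · rw [moveTo, if_pos (hst ha), moveTo, if_pos ha]
  · by_cases ha' : a ∈ t
    · rw [moveTo, if_pos ha', moveTo, if_neg ha, h a ha' ha, sub_self, add_zero]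
    · rw [moveTo, if_neg ha', moveTo, if_neg ha]

/-- What is kept by the steps inside a parent between positions in given intervals is kept between
positions in them. -/
lemma move_induction {P : Z5 → Prop} (ok : Fin 5 → ℕ → Prop)
    (conv : ∀ a p q r, p ≤ q → q ≤ r → ok a p → ok a r → ok a q) (s : Finset (Fin 5))
    (h : ∀ a ∈ s, ∀ j, 0 < px C L g j a → ok a (px C L g j a) → ok a (px C L g j a - 1) →
      (P j ↔ P (j - dir (axis a)))) {m : Fin 5 → ℕ} (hm : ∀ a ∈ s, m a < sizeOf' C L a ∧ ok a (m a))
    {i : Z5} (hi : ∀ a ∈ s, ok a (px C L g i a)) : P i ↔ P (moveTo C L g i s m) := by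
  induction s using Finset.induction_on generalizing i with
  | empty => rw [moveTo_self (fun a ha => absurd ha (notMem_empty a))]
  | @insert x s hx ih =>
    let at' : ℕ → Z5 := fun p => moveTo C L g i {x} fun _ => p
    have hpx : ∀ p, p < sizeOf' C L x → ∀ a,
        px C L g (at' p) a = if a = x then p else px C L g i a := fun p hp a => by
      rw [px_moveTo (fun b hb => by rw [mem_singleton] at hb; subst hb; exact hp)]
      simp
    have hstep : ∀ p, 0 < p → at' p - dir (axis x) = at' (p - 1) := by
      intro p hp
      funext a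
      by_cases ha : a = x
      · subst ha
        simp only [at', moveTo, mem_singleton, if_true, Pi.sub_apply, dir, axis, decide_true,
          Nat.cast_sub (show 1 ≤ p by omega)]
        push_cast
        ring
      · simp [at', moveTo, dir, axis, ha]
    have line : ∀ n p, p + n < sizeOf' C L x → ok x p → ok x (p + n) →
        (P (at' (p + n)) ↔ P (at' p)) := by
      intro n
      induction n with
      | zero => simp
      | succ n ihn =>
        intro p hlt h1 h2
        have e := hpx (p + (n + 1)) hlt x
        rw [if_pos rfl] at e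
        have hk : ok x (p + n) := conv x p (p + n) (p + (n + 1)) (by omega) (by omega) h1 h2
        have := h x (mem_insert_self x s) (at' (p + (n + 1))) (by omega) (by rw [e]; exact h2)
          (by rw [e]; exact hk)
        rw [this, hstep _ (by omega), show p + (n + 1) - 1 = p + n by omega]
        exact ihn p (by omega) h1 hk
    obtain ⟨hm1, hm2⟩ := hm x (mem_insert_self x s)
    have hix := hi x (mem_insert_self x s)
    have hlt := px_lt (C := C) (L := L) g i x
    have e0 : at' (px C L g i x) = i := moveTo_self fun a ha => by rw [mem_singleton] at ha; rw [ha]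
    have l : P i ↔ P (at' (m x)) := by
      rcases le_total (px C L g i x) (m x) with hle | hle
      · obtain ⟨n, hn⟩ := Nat.exists_eq_add_of_le hle
        have := line n _ (by omega) hix (hn ▸ hm2)
        rw [← hn, e0] at this
        exact this.symm
      · obtain ⟨n, hn⟩ := Nat.exists_eq_add_of_le hle
        have := line n _ (by omega) hm2 (hn ▸ hix)
        rwa [← hn, e0] at this
    rw [l, ih (fun a ha => h a (mem_insert_of_mem ha)) (fun a ha => hm a (mem_insert_of_mem ha))
      (fun a ha => by
        rw [hpx _ hm1, if_neg (show a ≠ x from fun e => hx (e ▸ ha))]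
        exact hi a (mem_insert_of_mem ha))]
    refine iff_of_eq (congrArg P (funext fun a => ?_))
    have := hpx _ hm1 a
    by_cases ha : a = x
    · subst ha
      simp [moveTo, at', hx]
    · by_cases has : a ∈ s
      · simp only [moveTo, if_pos has, if_pos (mem_insert_of_mem has)]
        rw [this, if_neg ha]
        simp [at', moveTo, ha]
      · simp [moveTo, at', has, ha]

/-! ### The rules at known positions -/

lemma claims_at {i : Z5} {t : Common.St C} (h : (pos5 C L).At g i t) :
    (claims L t).cx = (claims L (shell C L g i)).cx ∧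
      (claims L t).cy = (claims L (shell C L g i)).cy ∧
      (claims L t).cm.diag = (claims L (shell C L g i)).cm.diag ∧
      (claims L t).ex.z = (claims L (shell C L g i)).ex.z := by
  obtain ⟨hx, hy, hz⟩ := at_coords h
  obtain ⟨sx, sy, sz⟩ := shell_coords (C := C) (L := L) g i
  simp only [claims, hx, hy, hz, sx, sy, sz, and_self]

lemma posAt_px (g i : Z5) (a : Fin 5) :
    posAt (px C L g i 0) (px C L g i 1) (pz C L g i) a = px C L g i a := by
  fin_cases a <;> rfl

lemma firstAt_at {i : Z5} {t : Common.St C} (h : (pos5 C L).At g i t) (a : Fin 5) :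
    (claims L t).firstAt a = decide (px C L g i a = 0) := by
  obtain ⟨h1, h2, -, h4⟩ := claims_at h
  have e : (claims L t).firstAt a = (claims L (shell C L g i)).firstAt a := by
    simp only [Claims.firstAt, Claims.x0, Claims.isY0, h1, h2, h4]
  rw [e, Bool.eq_iff_iff, decide_eq_true_iff, shell,
    claims_first _ _ _ _ _ (px_lt g i 0) (px_lt g i 1), atFirst_iff, posAt_px]

lemma cutAt_at (hL : L₀ C ≤ L) {i : Z5} {t : Common.St C} (h : (pos5 C L).At g i t)
    (a : Fin 5) : (claims L t).cutAt a = decide (px C L g i a = cutOf C L a) := by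
  obtain ⟨h1, h2, -, h4⟩ := claims_at h
  have e : (claims L t).cutAt a = (claims L (shell C L g i)).cutAt a := by
    simp only [Claims.cutAt, Claims.cut, Claims.halfRow, h1, h2, h4]
  rw [e, Bool.eq_iff_iff, decide_eq_true_iff, shell,
    claims_cutAt hL _ _ _ _ _ (px_lt g i 0) (px_lt g i 1), posAt_px]

lemma shownA_conv {e : Bool} {p q r c : ℕ} (h1 : p ≤ q) (h2 : q ≤ r) (hp : ShownA p c e)
    (hr : ShownA r c e) : ShownA q c e :=
  ⟨fun h => hp.1 (by omega), fun h => hr.2 (by omega)⟩

/-! ### The two kinds of shown bits -/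

/-- What the two kinds of shown bits obey; `e₀` is the axis of their rows or columns. -/
structure BitField (C : Cfg) (B : Fin' C → Bits) (e₀ : Fin 5) : Prop where
  rule : ∀ {a : Fin 5} {t d : Cell C}, EFacts a t d → a ≠ e₀ →
    BitRule (t.2.firstAt a) (d.2.cutAt a) (d.2.firstAt a) a (B t.1) (B d.1)
  first : ∀ {t : Cell C}, PFacts t → ∀ (gu : Guest) (a : Fin 5), a ≠ e₀ →
    t.2.firstAt a = true → gu a = false → B t.1 gu = false

lemma bitField_h : BitField C (fun f => f.h) 1 :=
  ⟨fun h ha => h.h ha, fun h gu a ha hf hg => h.h_first gu a ha hf hg⟩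

lemma bitField_vb : BitField C (fun f => f.vb) 0 :=
  ⟨fun h ha => h.vb ha, fun h gu a ha hf hg => h.vb_first gu a ha hf hg⟩

variable {B : Fin' C → Bits} {e₀ : Fin 5} (hB : BitField C B e₀) (hL : L₀ C ≤ L) (hl : Λ.Linked)

include hB hL hl

/-- A bit is off where it is not shown. -/
lemma fix_hidden {a : Fin 5} (ha : a ≠ e₀) (gu : Guest) (i : Z5)
    (hh : ¬ ShownA (px C L g i a) (cutOf C L a) (gu a)) :
    Fix Λ o g i (fun t => B t.fin gu) false := by
  have first : ∀ i, px C L g i a = 0 → gu a = false → Fix Λ o g i (fun t => B t.fin gu) false := by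
    intro i h0 hg
    have h := Fix.step hl (o := o) (g := g) (i := i) d₀ (fun t => B t.fin gu) false
      (ι := Empty) (δ := fun _ => Bool) Empty.elim (fun m => m.elim) (fun m => m.elim)
      (fun m => m.elim) fun q hq hat _ => by
        refine hB.first ((shape_facts hq.1.2.2.1).p self) gu a ha ?_ hg
        show (claims L (q d₀)).firstAt a = true
        rw [firstAt_at hat, decide_eq_true_iff]
        exact h0
    simpa using h
  have beyond : ∀ n i, px C L g i a = cutOf C L a + 1 + n → gu a = true →
      Fix Λ o g i (fun t => B t.fin gu) false := by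
    intro n
    induction n with
    | zero =>
      intro i hp hg
      have h := Fix.step hl (o := o) (g := g) (i := i) d₀ (fun t => B t.fin gu) false
        (ι := Empty) (δ := fun _ => Bool) Empty.elim (fun m => m.elim) (fun m => m.elim)
        (fun m => m.elim) fun q hq hat _ => by
          have hd := at_all hq hat (axis a)
          have hat' : (pos5 C L).At g i (q self) := hat
          have he := hB.rule ((shape_facts hq.1.2.2.1).e self a rfl) ha
          rw [back_self] at he
          simp only [BitRule, sig, firstAt_at hat', cutAt_at hL hd, px_step, if_pos,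
            decide_eq_true_iff, if_neg (show ¬ px C L g i a = 0 by omega)] at he
          have hlt := px_lt (C := C) (L := L) g i a
          rw [if_pos (show (px C L g i a + sizeOf' C L a - 1) % sizeOf' C L a = cutOf C L a by
            rw [show px C L g i a + sizeOf' C L a - 1 = cutOf C L a + sizeOf' C L a by omega,
              Nat.add_mod_right, Nat.mod_eq_of_lt (by omega)])] at he
          show B (q d₀).fin gu = false
          rw [show (q d₀) = q self from rfl, he gu, hg]
          rfl
      simpa using h
    | succ n ih =>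
      intro i hp hg
      have hlt := px_lt (C := C) (L := L) g i a
      have hp' : px C L g (i - dir (axis a)) a = cutOf C L a + 1 + n := by
        rw [px_step, if_pos rfl, show px C L g i a + sizeOf' C L a - 1 =
          cutOf C L a + 1 + n + sizeOf' C L a by omega, Nat.add_mod_right,
          Nat.mod_eq_of_lt (by omega)]
      have h := Fix.step hl (o := o) (g := g) (i := i) d₀ (fun t => B t.fin gu) false
        (ι := Unit) (δ := fun _ => Bool) (fun _ => axis a) (fun _ t => B t.fin gu)
        (fun _ => false) (fun _ => ih _ hp' hg) fun q hq hat hdv => by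
          have hd := at_all hq hat (axis a)
          have hat' : (pos5 C L).At g i (q self) := hat
          have he := hB.rule ((shape_facts hq.1.2.2.1).e self a rfl) ha
          rw [back_self] at he
          simp only [BitRule, sig, firstAt_at hat', cutAt_at hL hd, firstAt_at hd, hp',
            decide_eq_true_iff, if_neg (show ¬ px C L g i a = 0 by omega),
            if_neg (show ¬ cutOf C L a + 1 + n = cutOf C L a by omega),
            if_neg (show ¬ cutOf C L a + 1 + n = 0 by omega)] at he
          show B (q d₀).fin gu = false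
          rw [show (q d₀) = q self from rfl, he]
          exact hdv ()
      simpa using h
  by_cases h1 : px C L g i a = 0 ∧ gu a = false
  · exact first i h1.1 h1.2
  · have hgt : cutOf C L a < px C L g i a ∧ gu a = true := by
      by_contra hc
      refine hh ⟨fun h0 => ?_, fun hlt => ?_⟩
      · cases hg : gu a
        · exact absurd ⟨h0, hg⟩ h1
        · rfl
      · cases hg : gu a
        · rfl
        · exact absurd ⟨hlt, hg⟩ hc
    exact beyond (px C L g i a - cutOf C L a - 1) i (by omega) hgt.2

omit hl in
/-- A bit is equal on two neighbours where it is shown. -/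
lemma bit_eq {a : Fin 5} (ha : a ≠ e₀) (gu : Guest) {j : Z5} (hp : 0 < px C L g j a)
    (hs : ShownA (px C L g j a) (cutOf C L a) (gu a))
    (hs' : ShownA (px C L g j a - 1) (cutOf C L a) (gu a)) {q : Common.Win (Common.St C)}
    (hq : Valid L q) (hat : (pos5 C L).At g j (q d₀)) :
    B (q d₀).fin gu = B (q (axis a)).fin gu := by
  have hlt := px_lt (C := C) (L := L) g j a
  have hp' : px C L g (j - dir (axis a)) a = px C L g j a - 1 := by
    rw [px_step, if_pos rfl, show px C L g j a + sizeOf' C L a - 1 =
      px C L g j a - 1 + sizeOf' C L a by omega, Nat.add_mod_right, Nat.mod_eq_of_lt (by omega)]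
  have hd := at_all hq hat (axis a)
  have hat' : (pos5 C L).At g j (q self) := hat
  have he := hB.rule ((shape_facts hq.1.2.2.1).e self a rfl) ha
  rw [back_self] at he
  simp only [BitRule, sig, firstAt_at hat', cutAt_at hL hd, firstAt_at hd, hp',
    decide_eq_true_iff, if_neg (show ¬ px C L g j a = 0 by omega)] at he
  show B (q self).fin gu = _
  split_ifs at he with h1 h2
  · have := hs.2 (by omega)
    rw [he gu, this]
    simp
  · exact he gu (hs'.1 h2)
  · rw [he]

/-- A bit is equal along an axis where it is shown. -/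
lemma know_step {o' : S.Obs} (hu : Under Λ o g o') {a : Fin 5} (ha : a ≠ e₀) (gu : Guest)
    (j : Z5) (hp : 0 < px C L g j a) (hs : ShownA (px C L g j a) (cutOf C L a) (gu a))
    (hs' : ShownA (px C L g j a - 1) (cutOf C L a) (gu a)) :
    Know Λ o g o' j (fun t => B t.fin gu) ↔
      Know Λ o g o' (j - dir (axis a)) fun t => B t.fin gu := by
  have hlt := px_lt (C := C) (L := L) g j a
  have hp' : px C L g (j - dir (axis a)) a = px C L g j a - 1 := by
    rw [px_step, if_pos rfl, show px C L g j a + sizeOf' C L a - 1 =
      px C L g j a - 1 + sizeOf' C L a by omega, Nat.add_mod_right, Nat.mod_eq_of_lt (by omega)]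
  have eq := fun q (hq : Valid L q) (hat : (pos5 C L).At g j (q d₀)) =>
    bit_eq hB hL ha gu hp hs hs' hq hat
  constructor
  · intro h
    exact Know.step hl hu (axis a) _ (ι := Unit) (δ := fun _ => Bool) (fun _ => d₀)
      (fun _ t => B t.fin gu) (fun _ => by simpa using h)
      fun q q' hq hq' hat hat' hd => by rw [← eq q hq hat, ← eq q' hq' hat']; exact hd ()
  · intro h
    have h' := Know.step hl hu (i := j) d₀ (fun t => B t.fin gu) (ι := Unit) (δ := fun _ => Bool)
      (fun _ => axis a) (fun _ t => B t.fin gu) (fun _ => h)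
      fun q q' hq hq' hat hat' hd => by rw [eq q hq hat, eq q' hq' hat']; exact hd ()
    simpa using h'

/-- A bit shown at both ends of a move is known at one if it is at the other. -/
lemma know_move {o' : S.Obs} (hu : Under Λ o g o') (gu : Guest) {s : Finset (Fin 5)}
    (hs : e₀ ∉ s) {m : Fin 5 → ℕ} {i : Z5}
    (hm : ∀ a ∈ s, m a < sizeOf' C L a ∧ ShownA (m a) (cutOf C L a) (gu a))
    (hi : ∀ a ∈ s, ShownA (px C L g i a) (cutOf C L a) (gu a)) :
    Know Λ o g o' i (fun t => B t.fin gu) ↔
      Know Λ o g o' (moveTo C L g i s m) fun t => B t.fin gu :=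
  move_induction (fun a p => ShownA p (cutOf C L a) (gu a))
    (fun _ _ _ _ h1 h2 => shownA_conv h1 h2) s
    (fun _ ha j h0 h1 h2 => know_step hB hL hl hu (fun e => hs (by rw [← e]; exact ha)) gu j h0 h1 h2) hm hi

omit hB hL hl

/-! ### Crossings -/

/-- The position of the crossing of the bit `k`. -/
def crossPos (L k : ℕ) : Fin 5 → ℕ := ![crossX L k, crossY L k, 1, 1, 1]

/-- The crossing of the bit `k` in the parent of the cell `i`. -/
def cross (C : Cfg) (L : ℕ) (g i : Z5) (k : ℕ) : Z5 := moveTo C L g i univ (crossPos L k)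

/-- The guest is shown at the position of the cell `i`. -/
def Sees (C : Cfg) (L : ℕ) (g i : Z5) (gu : Guest) : Prop :=
  ∀ e, ShownA (px C L g i e) (cutOf C L e) (gu e)

/-- The bits of one guest at the crossings of the parent of `i` are known. -/
def GuestKnown (Λ : Lv S C L) (o g : Z5) (o' : S.Obs) (i : Z5) (gu : Guest) : Prop :=
  ∀ k ≤ lastK C L, Know Λ o g o' (cross C L g i k) fun t => t.fin.h gu

/-- The bits at the crossings of the parent of `i` shown at `i` are known. -/
def AtomsKnown (Λ : Lv S C L) (o g : Z5) (o' : S.Obs) (i : Z5) : Prop :=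
  ∀ gu, Sees C L g i gu → GuestKnown Λ o g o' i gu

lemma shell_live (g i : Z5) :
    (shell C L g i).fin.live = decide (IsLive C L (px C L g i 1)) :=
  child_live _ _ _ _ _ (px_lt g i 1)

lemma wire_eq {y : ℕ} (h : IsWire L y) : y = crossY L (hi L y) := by
  have := coord_eq L y
  rw [h.1, h.2, mul_one, add_zero] at this
  unfold crossY
  rw [Nat.mul_comm]
  omega

lemma bundle_eq {x : ℕ} (h : IsBundle L x) : x = crossX L (lo L x / 2) := by
  obtain ⟨⟨h1, h2⟩, h3⟩ := h
  have := coord_eq L x
  rw [h1, h2, mul_one, mul_zero, zero_add] at this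
  unfold crossX
  omega

lemma cross_bounds (hL : L₀ C ≤ L) {k : ℕ} (hk : 2 * k < M L) :
    (∀ a, crossPos L k a < sizeOf' C L a ∧ 1 ≤ crossPos L k a ∧ crossPos L k a ≤ cutOf C L a) ∧
      IsBundle L (crossX L k) ∧ lo L (crossX L k) = 2 * k ∧ IsWire L (crossY L k) ∧
      hi L (crossY L k) = k := by
  have hM := two_le_M hL
  obtain ⟨e1, e2, e3⟩ := coord_of (L := L) (a := k) (c := 1) (e := 0) (by omega) (M_pos L)
  rw [show M L ^ 2 * k + M L * 1 + 0 = crossY L k by unfold crossY; ring] at e1 e2 e3
  obtain ⟨f1, f2, f3⟩ := coord_of (L := L) (a := 0) (c := 1) (e := 2 * k) (by omega) hk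
  rw [show M L ^ 2 * 0 + M L * 1 + 2 * k = crossX L k by unfold crossX; ring] at f1 f2 f3
  refine ⟨fun a => ?_, ⟨⟨f1, f2⟩, by omega⟩, f3, ⟨e3, e2⟩, e1⟩
  obtain ⟨c1, c2, c3, c4⟩ := cuts_lt (C := C) hL
  have hb := base_ge C.k
  have hx : crossX L k ≤ cutX L := by
    unfold crossX cutX
    omega
  have hy : crossY L k ≤ halfY L := by
    unfold crossY halfY
    have h := Nat.mul_le_mul_right (M L ^ 2) (show k ≤ M L / 2 by omega)
    omega
  have hx1 : 1 ≤ crossX L k := by unfold crossX; omega
  have hy1 : 1 ≤ crossY L k := by unfold crossY; omega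
  fin_cases a <;> simp [crossPos, sizeOf', cutOf] <;> omega

lemma shown_cross (hL : L₀ C ≤ L) {k : ℕ} (hk : 2 * k < M L) (gu : Guest) (a : Fin 5) :
    ShownA (crossPos L k a) (cutOf C L a) (gu a) := by
  obtain ⟨-, h1, h2⟩ := (cross_bounds (C := C) hL hk).1 a
  exact ⟨fun h => absurd h (by omega), fun h => absurd h (by omega)⟩

/-- The two kinds of bits agree at the crossing of their row and column. -/
lemma diag_eq (hL : L₀ C ≤ L) {j : Z5} {k : ℕ} (hk : 2 * k < M L)
    (hp0 : px C L g j 0 = crossX L k) (hp1 : px C L g j 1 = crossY L k)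
    {q : Common.Win (Common.St C)} (hq : Valid L q) (hat : (pos5 C L).At g j (q d₀)) :
    (q d₀).fin.h = (q d₀).fin.vb := by
  have hc := cross_bounds (C := C) hL hk
  obtain ⟨h1, h2, h3, -⟩ := claims_at hat
  refine ((shape_facts hq.1.2.2.1).p self).diag ?_ ?_ ?_
  · show (claims L (q d₀)).isWire = true
    rw [show (claims L (q d₀)).isWire = (claims L (shell C L g j)).isWire by
      simp only [Claims.isWire, h2]]
    refine (claims_wire _ _ _ _ _ (px_lt g j 1)).2 ?_
    rw [hp1]
    exact hc.2.2.2.1
  · show (claims L (q d₀)).bundle = true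
    rw [show (claims L (q d₀)).bundle = (claims L (shell C L g j)).bundle by
      simp only [Claims.bundle, h1]]
    refine (claims_bundle _ _ _ _ _ (px_lt g j 0)).2 ?_
    rw [hp0]
    exact hc.2.1
  · show (claims L (q d₀)).cm.diag = true
    rw [h3]
    refine (claims_diag _ _ _ _ _ (px_lt g j 0) (px_lt g j 1)).2 ?_
    rw [hp0, hp1, hc.2.2.1, hc.2.2.2.2]

include hL hl

/-- The bits on the wire rows. -/
theorem know_h {o' : S.Obs} (hu : Under Λ o g o') {i : Z5} (gu : Guest)
    (hA : Sees C L g i gu → GuestKnown Λ o g o' i gu) : Know Λ o g o' i fun t => t.fin.h gu := by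
  by_cases hl' : IsLive C L (px C L g i 1)
  swap
  · refine Fix.know hl (c := false) ?_ hu
    have h := Fix.step hl (o := o) (g := g) (i := i) d₀ (fun t => t.fin.h gu) false
      (ι := Unit) (δ := fun _ => Bool) (fun _ => d₀) (fun _ t => t.fin.live) (fun _ => false)
      (fun _ => by
        have := fix_live (o := o) hL hl (g := g) i
        rw [shell_live, decide_eq_false hl'] at this
        simpa using this)
      fun q hq _ hd => ((shape_facts hq.1.2.2.1).p self).h_zero (hd ()) gu
    simpa using h
  by_cases hs : ∀ a, a ≠ 1 → ShownA (px C L g i a) (cutOf C L a) (gu a)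
  swap
  · obtain ⟨a, ha⟩ := not_forall.1 hs
    obtain ⟨ha, hh⟩ := Classical.not_imp.1 ha
    exact Fix.know hl (fix_hidden bitField_h hL hl ha gu i hh) hu
  have hw := wire_eq hl'.1
  have hy := live_lt_halfY hL hl'
  have hk2 : 2 * hi L (px C L g i 1) < M L := by
    have := hl'.2
    obtain ⟨-, h2, -, -⟩ := bounds_M hL
    omega
  have hc := cross_bounds (C := C) hL hk2
  have hy0 := M_le_of_wire hl'.1
  have hM := M_pos L
  have hsees : Sees C L g i gu := fun e => by
    by_cases he : e = 1
    · subst he
      exact ⟨fun h => absurd h (by omega), fun h => absurd h (by simp [cutOf]; omega)⟩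
    · exact hs e he
  refine (know_move bitField_h hL hl hu gu (s := {0, 2, 3, 4}) (m := crossPos L (hi L (px C L g i 1)))
    (by decide) (fun a _ => ⟨(hc.1 a).1, shown_cross hL hk2 gu a⟩) fun a _ => hsees a).2 ?_
  have e : moveTo C L g i univ (crossPos L (hi L (px C L g i 1))) =
      moveTo C L g i {0, 2, 3, 4} (crossPos L (hi L (px C L g i 1))) :=
    moveTo_congr (subset_univ _) fun a _ ha => by
      obtain rfl : a = 1 := by fin_cases a <;> simp at ha ⊢
      exact hw
  rw [← e]
  exact hA hsees _ hl'.2

/-- The bits on the columns of the bundle. -/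
theorem know_vb {o' : S.Obs} (hu : Under Λ o g o') {i : Z5} (gu : Guest)
    (hA : Sees C L g i gu → GuestKnown Λ o g o' i gu) : Know Λ o g o' i fun t => t.fin.vb gu := by
  by_cases hb : IsBundle L (px C L g i 0)
  swap
  · refine Fix.know hl (c := false) ?_ hu
    have h := Fix.step hl (o := o) (g := g) (i := i) d₀ (fun t => t.fin.vb gu) false
      (ι := Empty) (δ := fun _ => Bool) Empty.elim (fun m => m.elim) (fun m => m.elim)
      (fun m => m.elim) fun q hq hat _ => by
        refine ((shape_facts hq.1.2.2.1).p self).vb_zero ?_ gu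
        obtain ⟨h1, -, -, -⟩ := claims_at hat
        show (claims L (q d₀)).bundle = false
        rw [show (claims L (q d₀)).bundle = (claims L (shell C L g i)).bundle by
          simp only [Claims.bundle, h1], Bool.eq_false_iff]
        exact fun h => hb ((claims_bundle _ _ _ _ _ (px_lt g i 0)).1 h)
    simpa using h
  by_cases hs : ∀ a, a ≠ 0 → ShownA (px C L g i a) (cutOf C L a) (gu a)
  swap
  · obtain ⟨a, ha⟩ := not_forall.1 hs
    obtain ⟨ha, hh⟩ := Classical.not_imp.1 ha
    exact Fix.know hl (fix_hidden bitField_vb hL hl ha gu i hh) hu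
  set k := lo L (px C L g i 0) / 2 with hk
  have hx := bundle_eq hb
  rw [← hk] at hx
  have hk2 : 2 * k < M L := by
    have : lo L (px C L g i 0) < M L := Nat.mod_lt _ (M_pos L)
    omega
  have hc := cross_bounds (C := C) hL hk2
  obtain ⟨-, c1, c2⟩ := hc.1 0
  have c0 : crossPos L k 0 = px C L g i 0 := hx.symm
  have hsees : Sees C L g i gu := fun e => by
    by_cases he : e = 0
    · subst he
      exact ⟨fun h => absurd h (by omega), fun h => absurd h (by omega)⟩
    · exact hs e he
  refine (know_move bitField_vb hL hl hu gu (s := {1, 2, 3, 4}) (m := crossPos L k) (by decide)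
    (fun a _ => ⟨(hc.1 a).1, shown_cross hL hk2 gu a⟩) fun a _ => hsees a).2 ?_
  have e : moveTo C L g i univ (crossPos L k) = moveTo C L g i {1, 2, 3, 4} (crossPos L k) :=
    moveTo_congr (subset_univ _) fun a _ ha => by
      obtain rfl : a = 0 := by fin_cases a <;> simp at ha ⊢
      exact hx
  rw [← e]
  set j := cross C L g i k
  have hp : ∀ a, px C L g j a = crossPos L k a := fun a => by
    rw [show j = moveTo C L g i univ (crossPos L k) from rfl,
      px_moveTo fun b _ => (hc.1 b).1, if_pos (mem_univ a)]
  have hp0 : px C L g j 0 = crossX L k := hp 0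
  have hp1 : px C L g j 1 = crossY L k := hp 1
  have hh : Know Λ o g o' j fun t => t.fin.h gu := by
    by_cases hkl : k ≤ lastK C L
    · exact hA hsees k hkl
    · refine Fix.know hl (c := false) ?_ hu
      have h := Fix.step hl (o := o) (g := g) (i := j) d₀ (fun t => t.fin.h gu) false
        (ι := Unit) (δ := fun _ => Bool) (fun _ => d₀) (fun _ t => t.fin.live) (fun _ => false)
        (fun _ => by
          have := fix_live (o := o) hL hl (g := g) j
          rw [shell_live, hp1, decide_eq_false (fun h => hkl (hc.2.2.2.2 ▸ h.2))] at this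
          simpa using this)
        fun q hq _ hd => ((shape_facts hq.1.2.2.1).p self).h_zero (hd ()) gu
      simpa using h
  have h := Know.step hl hu (i := j) d₀ (fun t => t.fin.vb gu) (ι := Unit) (δ := fun _ => Bool)
    (fun _ => d₀) (fun _ t => t.fin.h gu) (fun _ => by simpa using hh)
    fun q q' hq hq' hat hat' hd => by
      have diag := fun q (hq : Valid L q) (hat : (pos5 C L).At g j (q d₀)) =>
        diag_eq hL hk2 hp0 hp1 hq hat
      show (q d₀).fin.vb gu = (q' d₀).fin.vb gu
      rw [← diag q hq hat, ← diag q' hq' hat']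
      exact hd ()
  have e' : j = moveTo C L g i univ (crossPos L k) := rfl
  rw [← e']
  simpa using h

end Vale.Agent.P193.W4.A5
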