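import Vale.Agent.P193.W4.A5.Virtual

/-!
P193, module W4 (A5): contexts from meeting tiles.

If tiles of one lattice commute within some distance, so do the windows read there, hence the
ground cells near them; as the distances grow with the levels, all cells commute.
-/

noncomputable section

namespace Vale.Agent.P193.W4.A5

open BH BH.SFT Finset
open scoped Classical

/-- A distance on each axis. -/
abbrev Rad : Type := Fin 5 → ℕ

/-- Two indices within `r`. -/
def Close (r : Rad) (i i' : Z5) : Prop := ∀ a, (i' a - i a).natAbs ≤ r a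

/-- Cells within `r` commute. -/
def Within (S : SFT Lat) (r : Rad) : Prop :=
  ∀ v v' : Z5, Close r v v' → ∀ l l' : S.A,
    Com (S.cellObs (cellOf v) l) (S.cellObs (cellOf v') l')

lemma Within.ctx {S : SFT Lat} {r : Rad} (h : Within S r) {U : Finset Lat}
    (hU : ∀ a ∈ U, ∀ b ∈ U, Close r (coords a) (coords b)) : Ctx (whole S) U := by
  intro a ha b hb l l'
  have := h _ _ (hU a ha b hb) l l'
  rwa [cellOf_coords, cellOf_coords] at this

/-- Cells commute within every distance, so all cells commute. -/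
lemma rigid_of_within {S : SFT Lat} (h : ∀ n, ∃ r : Rad, (∀ a, n ≤ r a) ∧ Within S r) :
    S.Rigid := by
  intro x y l l'
  obtain ⟨r, hr, hw⟩ := h (univ.sup fun a => (coords y a - coords x a).natAbs)
  have := hw _ _ (fun a => le_trans
    (le_sup (f := fun a => (coords y a - coords x a).natAbs) (mem_univ a)) (hr a)) l l'
  rwa [cellOf_coords, cellOf_coords] at this

namespace Level

variable {S : SFT Lat} {τ : Type} {ok : Win τ → Prop} {Λ : Level S τ ok}

/-- Tiles of one lattice within `D` commute. -/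
def Meets (Λ : Level S τ ok) (D : Rad) : Prop :=
  ∀ o i i' : Z5, Close D i i' → ∀ P P' : τ → Prop, Com (Λ.T o i P) (Λ.T o i' P')

/-- An event read at a cell commutes once the events of the tiles of its window do. -/
lemma com_qev_of_tiles (hl : Λ.Linked) (o i : Z5) (P : Option (Win τ) → Prop) {o' : S.Obs}
    {h : Lat → S.A → S.A} (ho' : Ctx h o'.supp) (hto' : o'.Thru S h)
    (hc : ∀ (d : Dir) (R : τ → Prop), Com (Λ.T o (i - dir d) R) o') :
    Com (Λ.qev (Λ.cell o i) P) o' := by
  let vals : Dir → Set τ := fun d =>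
    {t | ∃ q, some q ∈ Set.range (Λ.rd (Λ.cell o i)) ∧ q d = t}
  have hfin : ∀ d, (vals d).Finite := fun d => by
    refine ((Λ.finite_range (Λ.cell o i)).biUnion fun r _ =>
      Set.Finite.image (fun q : Win τ => q d) (s := {q | r = some q}) ?_).subset ?_
    · exact Set.Subsingleton.finite fun a ha b hb => Option.some.inj (ha.symm.trans hb)
    · rintro t ⟨q, hq, rfl⟩
      simp only [Set.mem_iUnion, Set.mem_image]
      exact ⟨some q, hq, q, rfl, rfl⟩
  have : ∀ d, Fintype (vals d) := fun d => (hfin d).fintype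
  refine com_of_determined
    (fun m : Option (Σ d, vals d) => Λ.win (Λ.cell o i) fun q => m.elim True fun p => q p.1 = p.2.1)
    (Λ.area_ctx _) subset_rfl (Λ.thru_qev _ _) (fun _ => subset_rfl) (fun _ => Λ.thru_win _ _)
    ho' hto' (fun a b _ _ hab => ?_) fun m => ?_
  · simp only [qev_val]
    have h0 := hab none
    cases ha : Λ.rd (Λ.cell o i) a with
    | none =>
      cases hb : Λ.rd (Λ.cell o i) b with
      | none => rfl
      | some q' =>
        rw [win_val_none Λ ha, (win_val_some Λ hb).2 (by simp)] at h0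
        cases h0
    | some q =>
      cases hb : Λ.rd (Λ.cell o i) b with
      | none =>
        rw [win_val_none Λ hb, (win_val_some Λ ha).2 (by simp)] at h0
        cases h0
      | some q' =>
        suffices q = q' by rw [this]
        refine funext fun d => ?_
        have hd := hab (some ⟨d, q d, q, ⟨a, ha⟩, rfl⟩)
        rw [(win_val_some Λ ha).2 (by simp)] at hd
        have := (win_val_some Λ hb).1 hd.symm
        simpa using this.symm
  · cases m with
    | none => exact Same.com (hl.tile o i d₀ fun _ => True) (by simpa using hc d₀ fun _ => True)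
    | some p => exact Same.com (hl.tile o i p.1 fun t => t = p.2.1) (hc _ _)

/-- Virtual cells off one lattice commute. -/
lemma com_off {v v' : Z5}
    (h : ¬ ∀ a, (Λ.Q a : ℤ) ∣ v' a - v a)
    (P P' : Option (Win τ) → Prop) : Com (Λ.qev v P) (Λ.qev v' P') := by
  obtain ⟨c, c', hc, hc', hs, h1, h2⟩ := Λ.excl v v' h
  have key : ∀ F F' : Option (Win τ) → Prop, (∀ r, F r → r.isSome = true) →
      (∀ r, F' r → r.isSome = true) → Com (Λ.qev v F) (Λ.qev v' F') :=
    fun F F' hF hF' => com_exclusive (Λ.area_ctx v) (Λ.area_ctx v') subset_rfl (Λ.thru_qev _ _)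
      hc c.thru_id subset_rfl (Λ.thru_qev _ _) hc' c'.thru_id hs
      (fun a ha hv => h1 a ha (hF _ (of_decide_eq_true hv)))
      (fun a ha hv => h2 a ha (hF' _ (of_decide_eq_true hv)))
  have split : ∀ (w : Z5) (F : Option (Win τ) → Prop) (o' : S.Obs), Ctx (whole S) o'.supp →
      (∀ G : Option (Win τ) → Prop, (∀ r, G r → r.isSome = true) → Com (Λ.qev w G) o') →
      Com (Λ.qev w F) o' := by
    intro w F o' ho' hG
    refine com_of_determined (ι := Bool)
      (fun i => Λ.qev w fun r => if i then r.isSome = true else F r ∧ r.isSome = true)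
      (Λ.area_ctx w) subset_rfl (Λ.thru_qev _ _) (fun _ => subset_rfl) (fun _ => Λ.thru_qev _ _)
      ho' o'.thru_id (fun a b _ _ hab => ?_) fun i => hG _ fun r => by cases i <;> simp
    have e1 := hab true
    have e2 := hab false
    simp only [qev_val, decide_eq_decide, if_true, Bool.false_eq_true, if_false] at e1 e2 ⊢
    cases ha : Λ.rd w a <;> cases hb : Λ.rd w b <;> simp_all
  refine split v P _ (Λ.area_ctx v') fun F hF => ?_
  exact (split v' P' _ (Λ.area_ctx v) fun F' hF' => (key F F' hF hF').symm).symm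

/-- Windows of virtual cells close to each other commute. -/
lemma com_near (hl : Λ.Linked) {D : Rad} (hM : Λ.Meets D) {v w : Z5}
    (h1 : ∀ a, (w a - v a).natAbs < D a * Λ.Q a) (P P' : Option (Win τ) → Prop) :
    Com (Λ.qev v P) (Λ.qev w P') := by
  by_cases hQ : ∀ a, (Λ.Q a : ℤ) ∣ w a - v a
  swap
  · exact com_off hQ P P'
  choose x hx using hQ
  have hx' : ∀ a, (x a).natAbs < D a := fun a => by
    have := hx a ▸ h1 a
    rw [Int.natAbs_mul, Int.natAbs_natCast, Nat.mul_comm (Λ.Q a)] at this
    exact Nat.lt_of_mul_lt_mul_right this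
  have hw : w = Λ.cell v x := by
    ext a; simp [cell, scale, ← hx a]
  rw [← cell_zero (Λ := Λ) v, hw]
  refine com_qev_of_tiles hl v 0 P (Λ.area_ctx _) (Λ.thru_qev _ _) fun d R => Com.symm ?_
  refine com_qev_of_tiles hl v x P' (Λ.ctx_T v _) (Λ.thru_T _ _ _) fun d' R' => ?_
  refine (hM v _ _ (fun a => ?_) R R').symm
  have := hx' a
  simp only [dir, Pi.sub_apply, Pi.zero_apply]
  split_ifs <;> omega

/-- Ground cells close to each other commute. -/
lemma within (hl : Λ.Linked) {D : Rad} (hM : Λ.Meets D) (hD : ∀ a, 0 < D a) :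
    Within S fun a => (D a - 1) * Λ.Q a := by
  intro v v' hv l l'
  refine Λ.cover _ _ (ctx_singleton _ _) (fun w hw P => Com.symm ?_) l
  refine Λ.cover _ _ (Λ.area_ctx _) (fun w' hw' P' => ?_) l'
  rw [coords_cellOf] at hw hw'
  refine (com_near hl hM (v := w) (w := w') (fun a => ?_) P P').symm
  obtain ⟨n1, n2⟩ := hw a
  obtain ⟨m1, m2⟩ := hw' a
  have h3 := hv a
  have : Λ.Q a ≤ D a * Λ.Q a := Nat.le_mul_of_pos_left _ (hD a)
  simp only [Nat.sub_mul, one_mul] at h3
  omega

/-- The areas of the cells `C` of one lattice. -/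
def areaU (Λ : Level S τ ok) (o : Z5) (C : Finset Z5) : Finset Lat :=
  C.biUnion fun i => Λ.area (Λ.cell o i)

lemma area_sub {o i : Z5} {C : Finset Z5} (hi : i ∈ C) :
    Λ.area (Λ.cell o i) ⊆ Λ.areaU o C :=
  subset_biUnion_of_mem (fun i => Λ.area (Λ.cell o i)) hi

/-- The areas of cells of small span form a context. -/
lemma ctx_areaU (hl : Λ.Linked) {D : Rad} (hM : Λ.Meets D) (o : Z5) {C : Finset Z5} {s : Rad}
    (hC : ∀ i ∈ C, ∀ i' ∈ C, ∀ a, (i' a - i a).natAbs ≤ s a)
    (hs : ∀ a, Λ.span a + s a * Λ.Q a ≤ D a * Λ.Q a) : Ctx (whole S) (Λ.areaU o C) := by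
  intro x hx y hy l l'
  obtain ⟨i, hi, hx⟩ := mem_biUnion.1 hx
  obtain ⟨i', hi', hy⟩ := mem_biUnion.1 hy
  refine Λ.acover _ x hx _ (ctx_singleton _ _) (fun w hw P => Com.symm ?_) l
  refine Λ.acover _ y hy _ (Λ.area_ctx _) (fun w' hw' P' => ?_) l'
  refine (com_near hl hM (v := w) (w := w') (fun a => ?_) P P').symm
  obtain ⟨n1, n2⟩ := hw a
  obtain ⟨m1, m2⟩ := hw' a
  have h : (((Λ.Q a : ℕ) : ℤ) * (i' a - i a)).natAbs ≤ s a * Λ.Q a := by
    rw [Int.natAbs_mul, Int.natAbs_natCast, Nat.mul_comm (Λ.Q a)]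
    exact Nat.mul_le_mul_right _ (hC i hi i' hi' a)
  have := hs a
  simp only [cell, scale, Pi.add_apply, mul_sub] at h n1 n2 m1 m2
  omega

end Level

end Vale.Agent.P193.W4.A5
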