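import Vale.Agent.P193.W4.Common.Spec

/-!
P193, module W4 (A5): below a dead digit on an axis the fold does not see what differs along it.
-/

noncomputable section

namespace Vale.Agent.P193.W4.A5

open Common

variable {C : Cfg} {a : Fin 3} {p p' : PF C} {z : Fin 3 → Option (Mid C.k)}

/-- Flags of two neighbours give the same flags below a dead digit on their axis. -/
lemma flags_dead (hz : z a = none) (h : p.Beside a p') : p.flags.step z = p'.flags.step z := by
  have pair : ∀ i, (z i = none ∨ z (i + 1) = none) ∨ (a ≠ i ∧ a ≠ i + 1) := fun i => by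
    by_cases h1 : a = i
    · exact Or.inl (Or.inl (h1 ▸ hz))
    by_cases h2 : a = i + 1
    · exact Or.inl (Or.inr (h2 ▸ hz))
    exact Or.inr ⟨h1, h2⟩
  simp only [Flags.step, Flags.mk.injEq, true_and]
  refine ⟨funext fun i => ?_, funext fun i => ?_, funext fun s => ?_, funext fun i => ?_,
    funext fun i => ?_⟩
  · rcases pair i with (e | e) | ⟨h1, h2⟩
    · simp [e]
    · rcases hm : z i with _ | m <;> [skip; cases m] <;> simp [e]
    · simp only [h.eq i h1 h2]
  · rcases pair i with (e | e) | ⟨h1, h2⟩
    · simp [e]
    · rcases hm : z i with _ | m <;> [skip; cases m] <;> simp [e]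
    · simp only [h.peq i h1 h2]
  · by_cases h0 : z 0 = none
    · simp [h0]
    by_cases h1 : z 1 = none
    · rcases hm : z 0 with _ | m <;> [skip; cases m] <;> simp [h1]
    have ha : a = 2 := by
      fin_cases a
      · exact absurd hz h0
      · exact absurd hz h1
      · rfl
    simp only [h.br ha]
  · rcases pair i with (e | e) | ⟨h1, h2⟩
    · simp [e]
    · rcases hm : z i with _ | m <;> [skip; cases m] <;> simp [e]
    · simp only [h.eq i h1 h2, h.rel i h1 h2, h.wasH _ h2]
  · rcases pair i with (e | e) | ⟨h1, h2⟩
    · simp [e]
    · rcases hm : z i with _ | m <;> [skip; cases m] <;> simp [e]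
    · simp only [h.peq i h1 h2, h.prel i h1 h2, h.wasP _ h2]

/-- Match bits of two neighbours give the same match bit below a dead digit on their axis. -/
lemma match_dead (hz : z a = none) (h : p.Beside a p') (top : Option (Full C.k)) :
    matchStep p.hit z top p.top = matchStep p'.hit z top p'.top := by
  by_cases h2 : z 2 = none
  · simp [matchStep, h2]
  by_cases h0 : z 0 = none
  · rcases hm : z 2 with _ | m <;> [skip; cases m] <;> simp [matchStep, hm, h0]
  have ha : a = 1 := by
    fin_cases a
    · exact absurd hz h0
    · rfl
    · exact absurd hz h2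
  rw [h.hit ha, h.top (by rw [ha]; decide)]

end Vale.Agent.P193.W4.A5
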