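import Vale.Agent.P193.W4.A5.Bits

/-!
P193, module W4 (A5): a tile is known from the bits shown at it and the bits of its own parent.

The columns are followed from below, the data handed down are read at the top of the scanning
column, and the word at the scanning tile whose counter is at the wanted index.
-/

noncomputable section

namespace Vale.Agent.P193.W4.A5

open BH BH.SFT Finset Common
open scoped Classical

variable {C : Cfg} {L : ℕ} {S : SFT Lat} {Λ : Lv S C L} {o g : Z5} {o' : S.Obs}

/-! ### Fields determined by others -/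

lemma dir_zero (i : Z5) : i - dir (d₀ : Dir) = i := by simp

lemma self_dir (i : Z5) : i - dir (self : Dir) = i := dir_zero i

lemma below_axis (i : Z5) : i - dir (axis 1) = below i := rfl

section
variable (hl : Λ.Linked)

include hl

/-- A field of a tile fixed by fixed fields of it. -/
lemma Fix.det {β : Type} {ι : Type} [Fintype ι] {δ : ι → Type} {i : Z5} (f : Common.St C → β)
    (c : β) (fs : ∀ m, Common.St C → δ m) (cs : ∀ m, δ m) (hf : ∀ m, Fix Λ o g i (fs m) (cs m))
    (h : ∀ q, Valid L q → (pos5 C L).At g i (q d₀) → (∀ m, fs m (q d₀) = cs m) → f (q d₀) = c) :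
    Fix Λ o g i f c := by
  have h' := Fix.step hl (o := o) (g := g) (i := i) d₀ f c (fun _ : ι => d₀) fs cs
    (fun m => by rw [dir_zero]; exact hf m) h
  rwa [dir_zero] at h'

/-- A field of a tile forced by the rules. -/
lemma Fix.rule {β : Type} {i : Z5} (f : Common.St C → β) (c : β)
    (h : ∀ q, Valid L q → (pos5 C L).At g i (q d₀) → f (q d₀) = c) : Fix Λ o g i f c :=
  Fix.det hl f c (ι := Empty) (δ := fun _ => Unit) (fun m => m.elim) (fun m => m.elim)
    (fun m => m.elim) fun q hq hat _ => h q hq hat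

variable (hu : Under Λ o g o')

include hu

/-- A field of a tile known from known fields of it. -/
lemma Know.det {β : Type} {ι : Type} [Fintype ι] {δ : ι → Type} [∀ m, Fintype (δ m)] {i : Z5}
    (f : Common.St C → β) (fs : ∀ m, Common.St C → δ m) (hk : ∀ m, Know Λ o g o' i (fs m))
    (h : ∀ q q', Valid L q → Valid L q' → (pos5 C L).At g i (q d₀) → (pos5 C L).At g i (q' d₀) →
      (∀ m, fs m (q d₀) = fs m (q' d₀)) → f (q d₀) = f (q' d₀)) : Know Λ o g o' i f := by
  have h' := Know.step hl hu (i := i) d₀ f (fun _ : ι => d₀) fs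
    (fun m => by rw [dir_zero]; exact hk m) h
  rwa [dir_zero] at h'

/-- A field of a tile known from one known field of it. -/
lemma Know.map {β δ : Type} [Fintype δ] {i : Z5} {fs : Common.St C → δ}
    (hk : Know Λ o g o' i fs) (f : Common.St C → β)
    (h : ∀ q q', Valid L q → Valid L q' → (pos5 C L).At g i (q d₀) → (pos5 C L).At g i (q' d₀) →
      fs (q d₀) = fs (q' d₀) → f (q d₀) = f (q' d₀)) : Know Λ o g o' i f :=
  Know.det hl hu f (ι := Unit) (δ := fun _ => δ) (fun _ => fs) (fun _ => hk)
    fun q q' hq hq' hat hat' e => h q q' hq hq' hat hat' (e ())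

omit hu in
/-- Outside null events the fixed fields of a window have their values. -/
lemma good_window {ι' : Type} [Fintype ι'] {δ' : ι' → Type} (i : Z5) (d : Dir) (ds : ι' → Dir)
    (fs : ∀ m, Common.St C → δ' m) (cs : ∀ m, δ' m)
    (hf : ∀ m, Fix Λ o g (i - dir (ds m)) (fs m) (cs m)) :
    Null (Λ.win (Λ.cell o i) fun q =>
      (pos5 C L).At g (i - dir d) (q d) ∧ ¬ ∀ m, fs m (q (ds m)) = cs m) := by
  refine null_of_le (fun m => Λ.win (Λ.cell o i) fun q =>
      (pos5 C L).At g (i - dir (ds m)) (q (ds m)) ∧ fs m (q (ds m)) ≠ cs m)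
    (Λ.area_ctx _) subset_rfl (Λ.thru_win _ _) (fun _ => subset_rfl) (fun _ => Λ.thru_win _ _)
    (fun m => (hl.tile o i (ds m) _).trans (hf m)) fun a ha hv => ?_
  obtain ⟨q, hq, hat, hne⟩ := (Λ.win_val_iff _ _ a).1 hv
  obtain ⟨m, hm⟩ := not_forall.1 hne
  exact ⟨m, (Λ.win_val_iff _ _ a).2
    ⟨q, hq, at_all (Λ.valid _ a q ha hq) (at_corner (Λ.valid _ a q ha hq) hat) _, hm⟩⟩

/-- A field known from known ones, given the values of fixed ones. -/
lemma Know.stepFix {β ι ι' : Type} [Fintype ι] [Fintype ι'] {δ : ι → Type}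
    [∀ m, Fintype (δ m)] {δ' : ι' → Type} {i : Z5} (d : Dir) (f : Common.St C → β)
    (ds : ι → Dir) (fs : ∀ m, Common.St C → δ m)
    (hk : ∀ m, Know Λ o g o' (i - dir (ds m)) (fs m))
    (ds' : ι' → Dir) (fs' : ∀ m, Common.St C → δ' m) (cs' : ∀ m, δ' m)
    (hf : ∀ m, Fix Λ o g (i - dir (ds' m)) (fs' m) (cs' m))
    (h : ∀ q q', Valid L q → Valid L q' → (pos5 C L).At g i (q d₀) → (pos5 C L).At g i (q' d₀) →
      (∀ m, fs' m (q (ds' m)) = cs' m) → (∀ m, fs' m (q' (ds' m)) = cs' m) →
      (∀ m, fs m (q (ds m)) = fs m (q' (ds m))) → f (q d) = f (q' d)) :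
    Know Λ o g o' (i - dir d) f := by
  intro c
  have hN := good_window hl i d ds' fs' cs' hf
  let good : Common.Win (Common.St C) → Prop := fun q => ∀ m, fs' m (q (ds' m)) = cs' m
  let v := Λ.cell o i
  let W : (Common.St C → Prop) → S.Obs := fun P =>
    Λ.win v fun q => ((pos5 C L).At g (i - dir d) (q d) ∧ good q) ∧ P (q d)
  have hgood : ∀ P, Same (Λ.win v fun q => (pos5 C L).At g (i - dir d) (q d) ∧ P (q d)) (W P) :=
    fun P => hN.same_of_eq (Λ.area_ctx _) subset_rfl (Λ.thru_win _ _) subset_rfl
      (Λ.thru_win _ _) subset_rfl (Λ.thru_win _ _) fun a _ hn => by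
        rw [Bool.eq_iff_iff, Level.win_val_iff, Level.win_val_iff]
        refine exists_congr fun q => and_congr_right fun hq =>
          ⟨fun hp => ⟨⟨hp.1, by_contra fun hc => ?_⟩, hp.2⟩, fun hp => ⟨hp.1.1, hp.2⟩⟩
        exact Bool.false_ne_true (hn.symm.trans ((Λ.win_val_iff _ _ a).2 ⟨q, hq, hp.1, hc⟩))
  refine Same.com (((hl.tile o i d _).symm).trans (hgood fun t => f t = c)) ?_
  refine com_of_determined
    (fun m : Option (Σ m, δ m) => m.elim (W fun _ => True) fun p => Λ.win v fun q =>
      (pos5 C L).At g (i - dir (ds p.1)) (q (ds p.1)) ∧ fs p.1 (q (ds p.1)) = p.2)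
    (Λ.area_ctx _) subset_rfl (Λ.thru_win _ _)
    (fun m => by cases m <;> exact subset_rfl) (fun m => by cases m <;> exact Λ.thru_win _ _)
    hu.ctx o'.thru_id (fun a b ha hb hab => ?_) fun m => ?_
  · have h0 : (W fun _ => True).val a = (W fun _ => True).val b := hab none
    simp only [W] at h0
    rw [Bool.eq_iff_iff, Level.win_val_iff, Level.win_val_iff] at h0
    rw [Bool.eq_iff_iff, Level.win_val_iff, Level.win_val_iff]
    have key : ∀ x y, S.AdmissibleClass (whole S) (Λ.area v) x →
        S.AdmissibleClass (whole S) (Λ.area v) y →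
        (∀ p : Σ m, δ m, (Λ.win v fun q => (pos5 C L).At g (i - dir (ds p.1)) (q (ds p.1)) ∧
            fs p.1 (q (ds p.1)) = p.2).val x =
          (Λ.win v fun q => (pos5 C L).At g (i - dir (ds p.1)) (q (ds p.1)) ∧
            fs p.1 (q (ds p.1)) = p.2).val y) →
        ∀ q q', Λ.rd v x = some q → Λ.rd v y = some q' →
          (pos5 C L).At g (i - dir d) (q d) → good q →
          (pos5 C L).At g (i - dir d) (q' d) → good q' → f (q d) = f (q' d) := by
      intro x y hx hy hxy q q' hq hq' hat hg hat' hg'
      have vq := Λ.valid _ x q hx hq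
      have vq' := Λ.valid _ y q' hy hq'
      refine h q q' vq vq' (at_corner vq hat) (at_corner vq' hat') hg hg' fun m => ?_
      have e := hxy ⟨m, fs m (q (ds m))⟩
      rw [Bool.eq_iff_iff, Level.win_val_some Λ hq, Level.win_val_some Λ hq'] at e
      exact (e.1 ⟨at_all vq (at_corner vq hat) _, rfl⟩).2.symm
    constructor
    · rintro ⟨q, hq, ⟨hat, hg⟩, hc⟩
      obtain ⟨q', hq', ⟨hat', hg'⟩, -⟩ := h0.1 ⟨q, hq, ⟨hat, hg⟩, trivial⟩
      exact ⟨q', hq', ⟨hat', hg'⟩, (key a b ha hb (fun p => hab (some p)) q q' hq hq' hat hg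
        hat' hg').symm.trans hc⟩
    · rintro ⟨q', hq', ⟨hat', hg'⟩, hc⟩
      obtain ⟨q, hq, ⟨hat, hg⟩, -⟩ := h0.2 ⟨q', hq', ⟨hat', hg'⟩, trivial⟩
      exact ⟨q, hq, ⟨hat, hg⟩, (key a b ha hb (fun p => hab (some p)) q q' hq hq' hat hg
        hat' hg').trans hc⟩
  · cases m with
    | none =>
      exact Same.com ((hgood fun _ => True).symm.trans
        (hl.tile o i d fun t => (pos5 C L).At g (i - dir d) t ∧ True)) (com_here_true hl hu _)
    | some p =>
      exact Same.com (hl.tile o i (ds p.1) fun t =>
        (pos5 C L).At g (i - dir (ds p.1)) t ∧ fs p.1 t = p.2) (hk p.1 p.2)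

/-- The same with two known fields. -/
lemma Know.step₂ {β δ₁ δ₂ ι' : Type} [Fintype δ₁] [Fintype δ₂] [Fintype ι'] {δ' : ι' → Type}
    {i : Z5} (d : Dir) (f : Common.St C → β) (d₁ d₂ : Dir) {f₁ : Common.St C → δ₁}
    {f₂ : Common.St C → δ₂} (k₁ : Know Λ o g o' (i - dir d₁) f₁)
    (k₂ : Know Λ o g o' (i - dir d₂) f₂)
    (ds' : ι' → Dir) (fs' : ∀ m, Common.St C → δ' m) (cs' : ∀ m, δ' m)
    (hf : ∀ m, Fix Λ o g (i - dir (ds' m)) (fs' m) (cs' m))
    (h : ∀ q q', Valid L q → Valid L q' → (pos5 C L).At g i (q d₀) → (pos5 C L).At g i (q' d₀) →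
      (∀ m, fs' m (q (ds' m)) = cs' m) → (∀ m, fs' m (q' (ds' m)) = cs' m) →
      f₁ (q d₁) = f₁ (q' d₁) → f₂ (q d₂) = f₂ (q' d₂) → f (q d) = f (q' d)) :
    Know Λ o g o' (i - dir d) f := by
  let δ : Bool → Type := fun b => cond b δ₁ δ₂
  have : ∀ b, Fintype (δ b) := fun b => by cases b <;> assumption
  exact Know.stepFix hl hu d f (ι := Bool) (δ := δ) (fun b => cond b d₁ d₂)
    (fun b => match b with | true => f₁ | false => f₂)
    (fun b => match b with | true => k₁ | false => k₂)
    ds' fs' cs' hf fun q q' hq hq' hat hat' hg hg' e =>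
      h q q' hq hq' hat hat' hg hg' (e true) (e false)

/-- A field equal on a tile and the one behind it is known at one if it is at the other. -/
lemma know_same {β : Type} [Fintype β] (f : Common.St C → β) (j : Z5) (a : Fin 5)
    (h : ∀ q, Valid L q → (pos5 C L).At g j (q d₀) → f (q d₀) = f (q (axis a))) :
    Know Λ o g o' j f ↔ Know Λ o g o' (j - dir (axis a)) f := by
  constructor
  · intro hk
    exact Know.step hl hu (axis a) f (ι := Unit) (δ := fun _ => β) (fun _ => d₀) (fun _ => f)
      (fun _ => by rw [dir_zero]; exact hk)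
      fun q q' hq hq' hat hat' e => by rw [← h q hq hat, ← h q' hq' hat']; exact e ()
  · intro hk
    have h' := Know.step hl hu (i := j) d₀ f (ι := Unit) (δ := fun _ => β) (fun _ => axis a)
      (fun _ => f) (fun _ => hk)
      fun q q' hq hq' hat hat' e => by rw [h q hq hat, h q' hq' hat']; exact e ()
    rwa [dir_zero] at h'

/-- A field kept inside parents along some axes is known in the parent's cells differing there. -/
lemma know_within {β : Type} [Fintype β] (f : Common.St C → β) (s : Finset (Fin 5))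
    (h : ∀ a ∈ s, ∀ j, 0 < px C L g j a → ∀ q, Valid L q → (pos5 C L).At g j (q d₀) →
      f (q d₀) = f (q (axis a)))
    {m : Fin 5 → ℕ} (hm : ∀ a ∈ s, m a < sizeOf' C L a) (i : Z5) :
    Know Λ o g o' i f ↔ Know Λ o g o' (moveTo C L g i s m) f :=
  move_induction (fun _ _ => True) (fun _ _ _ _ _ _ _ _ => trivial) s
    (fun a ha j h0 _ _ => know_same hl hu f j a fun q hq hat => h a ha j h0 q hq hat)
    (fun a ha => ⟨hm a ha, trivial⟩) fun _ _ => trivial

end

/-! ### Parents -/

lemma origin_step {j : Z5} {a : Fin 5} (hp : 0 < px C L g j a) (c : Fin 5) :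
    (j - dir (axis a)) c - (px C L g (j - dir (axis a)) c : ℤ) = j c - (px C L g j c : ℤ) := by
  have hlt := px_lt (C := C) (L := L) g j a
  rw [px_step]
  by_cases hc : c = a
  · subst hc
    rw [if_pos rfl, show px C L g j c + sizeOf' C L c - 1 = px C L g j c - 1 + sizeOf' C L c by omega,
      Nat.add_mod_right, Nat.mod_eq_of_lt (by omega)]
    simp only [Pi.sub_apply, dir, axis, decide_true, if_true]
    push_cast [Nat.cast_sub (show 1 ≤ px C L g j c by omega)]
    ring
  · simp [dir, axis, hc]

/-- Cells of one parent have the same crossings. -/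
lemma cross_congr {i j : Z5}
    (h : ∀ a, i a - (px C L g i a : ℤ) = j a - (px C L g j a : ℤ)) (k : ℕ) :
    cross C L g i k = cross C L g j k := by
  funext a
  simp only [cross, moveTo, mem_univ, if_true]
  have := h a
  omega

lemma cross_step {j : Z5} {a : Fin 5} (hp : 0 < px C L g j a) (k : ℕ) :
    cross C L g (j - dir (axis a)) k = cross C L g j k :=
  cross_congr (origin_step hp) k

lemma GuestKnown.congr {i j : Z5} {gu : Guest} (hA : GuestKnown Λ o g o' i gu)
    (h : ∀ a, i a - (px C L g i a : ℤ) = j a - (px C L g j a : ℤ)) :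
    GuestKnown Λ o g o' j gu := fun k hk => by rw [← cross_congr h]; exact hA k hk

lemma GuestKnown.moveTo {i : Z5} {gu : Guest} (hA : GuestKnown Λ o g o' i gu)
    {s : Finset (Fin 5)} {m : Fin 5 → ℕ} (hm : ∀ a ∈ s, m a < sizeOf' C L a) :
    GuestKnown Λ o g o' (A5.moveTo C L g i s m) gu :=
  hA.congr fun a => by
    rw [px_moveTo hm]
    by_cases ha : a ∈ s
    · simp [A5.moveTo, ha]; ring
    · simp [A5.moveTo, ha]

lemma below_sees {i : Z5} (h0 : 0 < px C L g i 1) (hy : px C L g i 1 ≤ halfY L) {gu : Guest}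
    (h : Sees C L g (below i) gu) : Sees C L g i gu := fun e => by
  have := h e
  rw [below_px] at this
  by_cases he : e = 1
  · subst he
    exact ⟨fun hh => absurd hh (by omega), fun hh => absurd hh (by simp [cutOf]; omega)⟩
  · rwa [if_neg he] at this

lemma AtomsKnown.below {i : Z5} (hA : AtomsKnown Λ o g o' i) (h0 : 0 < px C L g i 1)
    (hy : px C L g i 1 ≤ halfY L) : AtomsKnown Λ o g o' (A5.below i) := fun gu hg k hk => by
  rw [show A5.below i = i - dir (axis 1) from rfl, cross_step h0]
  exact hA gu (below_sees h0 hy hg) k hk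

lemma GuestKnown.below {i : Z5} {gu : Guest} (hA : GuestKnown Λ o g o' i gu)
    (h0 : 0 < px C L g i 1) : GuestKnown Λ o g o' (A5.below i) gu := fun k hk => by
  rw [show A5.below i = i - dir (axis 1) from rfl, cross_step h0]
  exact hA k hk

/-! ### The columns -/

lemma carryNext_congr {β : Type} (F : Carry C → β) {t t' d d' : Claims C} (h1 : t.cx = t'.cx)
    (h2 : t.cy = t'.cy) (h3 : t.cm = t'.cm) (h4 : t.ex.z = t'.ex.z) (h5 : t.ex.mach = t'.ex.mach)
    (k3 : d.cm = d'.cm) {dc dc' : Option (Carry C)} (hd : dc.map F = dc'.map F) {q q' : Bits}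
    (hq : ∀ (c c' : Carry C) (k m : ℕ) (x : Option (Mach C)), F c = F c' →
      F (c.stepRow k m q x) = F (c'.stepRow k m q' x)) :
    (carryNext t d dc q).map F = (carryNext t' d' dc' q').map F := by
  have e1 : t.isScan = t'.isScan := by rw [Claims.isScan, Claims.isScan, h1]
  have e2 : t.middle = t'.middle := by simp only [Claims.middle, h4]
  have e3 : t.isWire = t'.isWire := by rw [Claims.isWire, Claims.isWire, h2]
  have e4 : t.isY0 = t'.isY0 := by rw [Claims.isY0, Claims.isY0, h2]
  have e5 : endPhase t d = endPhase t' d' := by rw [endPhase, endPhase, h2, h3, k3]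
  simp only [carryNext, e1, e2, e3, e4, e5, h2, h5]
  split_ifs <;> try simp only [Option.map_none, Option.map_some, hd]
  · exact congrArg some (hq _ _ _ _ _ rfl)
  · rcases dc with _ | c <;> rcases dc' with _ | c' <;> simp_all <;>
      exact hq _ _ _ _ _ hd

lemma readNum_copy (c : Carry C) (τ : ℕ) (b : Bits) (x : Option (Mach C)) :
    (c.readNum τ b x).copy = c.copy := by
  unfold Carry.readNum
  dsimp only [Carry.compare]
  split <;> first | rfl | (split_ifs <;> rfl)

lemma stepRow_copy (c c' : Carry C) (k m : ℕ) (x : Option (Mach C)) {q q' : Bits}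
    (hq : q self = q' self) (hc : c.copy = c'.copy) :
    (c.stepRow k m q x).copy = (c'.stepRow k m q' x).copy := by
  unfold Carry.stepRow
  split_ifs <;> simp [readNum_copy, Carry.readClaim, hq, hc]

lemma eqNext_congr {t t' d d' : Claims C} (h1 : t.cx = t'.cx) (h2 : t.cy = t'.cy)
    (h4 : t.ex.z = t'.ex.z) (k2 : d.cy = d'.cy) (k3 : d.cm = d'.cm) (de : Option Bool)
    (dh : Bits) : eqNext t d de dh = eqNext t' d' de dh := by
  have e1 : t.zoneAt 4 = t'.zoneAt 4 := by simp only [Claims.zoneAt, h1]
  have e2 : t.middle = t'.middle := by simp only [Claims.middle, h4]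
  have e3 : t.isWire = t'.isWire := by rw [Claims.isWire, Claims.isWire, h2]
  have e4 : t.isY0 = t'.isY0 := by rw [Claims.isY0, Claims.isY0, h2]
  have e5 : d.isWire = d'.isWire := by rw [Claims.isWire, Claims.isWire, k2]
  simp only [eqNext, e1, e2, e3, e4, e5, h2, k2, k3]

lemma lookNext_congr {t t' d d' : Claims C} (h1 : t.cx = t'.cx) (h2 : t.cy = t'.cy)
    (h4 : t.ex.z = t'.ex.z) (k2 : d.cy = d'.cy) (k3 : d.cm = d'.cm) (dl : Option (Look C))
    (dh : Bits) : lookNext t d dl dh = lookNext t' d' dl dh := by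
  have e1 : t.zoneAt 6 = t'.zoneAt 6 := by simp only [Claims.zoneAt, h1]
  have e2 : t.middle = t'.middle := by simp only [Claims.middle, h4]
  have e3 : t.isWire = t'.isWire := by rw [Claims.isWire, Claims.isWire, h2]
  have e4 : t.isY0 = t'.isY0 := by rw [Claims.isY0, Claims.isY0, h2]
  have e5 : d.isWire = d'.isWire := by rw [Claims.isWire, Claims.isWire, k2]
  simp only [lookNext, e1, e2, e3, e4, e5, h2, k2, k3]

lemma height_bound (hL : L₀ C ≤ L) : cornerH C L ≤ halfY L ∧ M L < cornerH C L := by
  obtain ⟨-, h2, -, -⟩ := bounds_M hL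
  have hp : 0 < M L ^ 2 := pow_pos (M_pos L) 2
  have h3 : (lastK C L + 1) * M L ^ 2 ≤ M L / 2 * M L ^ 2 := Nat.mul_le_mul_right _ (by omega)
  have h4 : 1 * M L ^ 2 ≤ (lastK C L + 1) * M L ^ 2 := Nat.mul_le_mul_right _ (by omega)
  unfold cornerH halfY
  omega

lemma below_corner {y : ℕ} (hy : M L ≤ y) (hr : rowIdx L y ≤ lastK C L) : y < cornerH C L := by
  have hp : 0 < M L ^ 2 := pow_pos (M_pos L) 2
  have h : rowIdx L y < lastK C L + 1 := Nat.lt_add_one_iff.2 hr
  rw [rowIdx, Nat.div_lt_iff_lt_mul hp] at h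
  unfold cornerH
  omega

lemma rowIdx_le_rowsBelow {L y : ℕ} (hy : M L ≤ y) : rowIdx L y ≤ rowsBelow L y := by
  unfold rowsBelow
  rw [if_neg (by omega)]
  split_ifs <;> omega

lemma carry_bound (hL : L₀ C ≤ L) (i : Z5) (h : (shell C L g i).fin.carry.isSome = true) :
    px C L g i 1 ≤ halfY L := by
  simp only [shell, child_carry _ _ _ _ _ (px_lt g i 0) (px_lt g i 1)] at h
  split_ifs at h with hc
  · exact (below_corner hc.2.2.1 hc.2.2.2.2.1).le.trans (height_bound hL).1
  · simp at h

lemma eq_bound (hL : L₀ C ≤ L) (i : Z5) (h : (shell C L g i).fin.eq.isSome = true) :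
    px C L g i 1 ≤ halfY L := by
  simp only [shell, child_eqf _ _ _ _ _ (px_lt g i 0) (px_lt g i 1)] at h
  split_ifs at h with hc
  · refine (below_corner hc.2.1 ((rowIdx_le_rowsBelow hc.2.1).trans (hc.2.2.1.trans ?_))).le.trans
      (height_bound hL).1
    unfold lastK
    omega
  · simp at h

lemma look_bound (hL : L₀ C ≤ L) (i : Z5) (h : (shell C L g i).fin.look.isSome = true) :
    px C L g i 1 ≤ halfY L := by
  simp only [shell, child_look _ _ _ _ _ (px_lt g i 0) (px_lt g i 1)] at h
  split_ifs at h with hc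
  · refine (below_corner hc.2.1 ((rowIdx_le_rowsBelow hc.2.1).trans (hc.2.2.1.trans ?_))).le.trans
      (height_bound hL).1
    have hB : B C - 1 ≤ L := by
      have := (le_L₀ C).trans hL
      omega
    have := Nat.mul_le_mul_left (T C) hB
    unfold lastK xlRow
    omega
  · simp at h

/-- The claims which the columns read besides the state below and the bits. -/
def posClaims (L : ℕ) (t : Common.St C) :
    XClaims × YClaims C × MixClaims × Digits C × Option (Mach C) :=
  ((claims L t).cx, (claims L t).cy, (claims L t).cm, (claims L t).ex.z, (claims L t).ex.mach)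

variable (hL : L₀ C ≤ L) (hl : Λ.Linked)

include hL hl

lemma fix_claims (i : Z5) :
    Fix Λ o g i (posClaims L) (posClaims L (shell C L g i)) :=
  Fix.det hl _ _ (ι := Unit) (δ := fun _ => ℕ) (fun _ t => t.u)
    (fun _ => (shell C L g i).u) (fun _ => fix_u hL hl i) fun q _ hat e => by
      obtain ⟨a1, a2, a3, a4, a5⟩ := claims_shell hat (e ())
      simp only [posClaims, a1, a2, a3, a4, a5]

/-- The claims of the tile and of the one below. -/
lemma fix_pair (i : Z5) : ∀ b : Bool, Fix Λ o g (i - dir (cond b (d₀ : Dir) (axis 1)))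
    (posClaims L) (posClaims L (shell C L g (i - dir (cond b (d₀ : Dir) (axis 1))))) :=
  fun _ => fix_claims hL hl _

/-- The table values. -/
theorem fix_v (i : Z5) : Fix Λ o g i (fun t => t.fin.v)
    (if (claims L (shell C L g i)).zone then table C (lo L (px C L g i 0)) else false) :=
  Fix.det hl _ _ (ι := Unit)
    (δ := fun _ => XClaims × YClaims C × MixClaims × Digits C × Option (Mach C))
    (fun _ => posClaims L) (fun _ => posClaims L (shell C L g i)) (fun _ => fix_claims hL hl i)
    fun q hq hat e => by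
      have e' := e ()
      simp only [posClaims, Prod.ext_iff] at e'
      obtain ⟨k1, k2, -⟩ := e'
      have hz : (claims L (q d₀)).zone = (claims L (shell C L g i)).zone := by
        simp only [Claims.zone, Claims.zoneAt, k1, k2]
      by_cases h : (claims L (shell C L g i)).zone = true
      · rw [if_pos h]
        have h' := hq.2 self (show (claims L (q d₀)).zone = true from hz.trans h)
        rw [← (at_coords hat).1]
        exact h'
      · rw [if_neg h]
        exact ((shape_facts hq.1.2.2.1).p self).v_zone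
          (show (claims L (q d₀)).zone = false by rwa [hz, ← Bool.not_eq_true])

variable (hu : Under Λ o g o')

include hu

lemma Know.none {β : Type} {i : Z5} {f : Common.St C → Option β}
    (hf : Fix Λ o g i (fun t => (f t).isSome) false) : Know Λ o g o' i f :=
  Fix.know hl (Fix.det hl f (Option.none : Option β) (ι := Unit) (δ := fun _ => Bool)
    (fun _ t => (f t).isSome) (fun _ => false) (fun _ => hf)
    fun q _ _ e => by simpa using e ()) hu

/-- The scanning column up to what a map keeps. -/
lemma know_column {β : Type} [Fintype β] (F : Carry C → β) {δ : Type} [Fintype δ]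
    (φ : Common.St C → δ)
    (hφ : ∀ t t' : Common.St C, φ t = φ t' → ∀ (c c' : Carry C) (k m : ℕ)
      (x : Option (Mach C)), F c = F c' →
      F (c.stepRow k m t.fin.h x) = F (c'.stepRow k m t'.fin.h x))
    (P : Z5 → Prop) (hP : ∀ i, P i → Know Λ o g o' i φ)
    (hP' : ∀ i, P i → 0 < px C L g i 1 → px C L g i 1 ≤ halfY L → P (below i))
    (i : Z5) (hi : P i) : Know Λ o g o' i fun t => t.fin.carry.map F := by
  refine column_induction (C := C) (L := L) (g := g)
    (P := fun i => P i → Know Λ o g o' i fun t => t.fin.carry.map F) (fun i ih hi => ?_) i hi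
  by_cases hs : (shell C L g i).fin.carry.isSome = true
  swap
  · refine Know.none hL hl hu ?_
    rw [Bool.not_eq_true] at hs
    have h := fix_carry (o := o) hL hl (g := g) i
    rw [hs] at h
    exact Fix.det hl _ false (ι := Unit) (δ := fun _ => Bool) (fun _ t => t.fin.carry.isSome)
      (fun _ => false) (fun _ => h) fun q _ _ e => by simpa using e ()
  have hy := carry_bound hL i hs
  rcases Nat.eq_zero_or_pos (px C L g i 1) with h0 | h0
  · refine absurd hs (Bool.eq_false_iff.1 ?_)
    rw [shell, child_carry _ _ _ _ _ (px_lt g i 0) (px_lt g i 1), h0, if_neg fun h => absurd h.2.2.1 (by have := M_pos L; omega)]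
    rfl
  have h := Know.step₂ hl hu (i := i) d₀ (fun t => t.fin.carry.map F) d₀ (axis 1)
    (by rw [dir_zero]; exact hP i hi) (by rw [below_axis]; exact ih h0 (hP' i hi h0 hy))
    (fun b => cond b (d₀ : Dir) (axis 1)) (fun _ => posClaims L)
    (fun b => posClaims L (shell C L g (i - dir (cond b (d₀ : Dir) (axis 1)))))
    (fix_pair hL hl i) fun q q' hq hq' _ _ hg hg' e₁ e₂ => by
      have ht := (hg true).trans (hg' true).symm
      have hd := (hg false).trans (hg' false).symm
      simp only [posClaims, Prod.ext_iff, cond_true, cond_false] at ht hd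
      obtain ⟨a1, a2, a3, a4, a5⟩ := ht
      obtain ⟨-, -, b3, -, -⟩ := hd
      have r : ∀ q : Common.Win (Common.St C), Valid L q → (q d₀).fin.carry =
          carryNext (claims L (q d₀)) (claims L (q (axis 1))) (q (axis 1)).fin.carry
            (q d₀).fin.h := fun q hq => by
        have h := ((shape_facts hq.1.2.2.1).e self 1 rfl).carry rfl
        rw [back_self] at h
        exact h
      show (q d₀).fin.carry.map F = (q' d₀).fin.carry.map F
      rw [r q hq, r q' hq']
      exact carryNext_congr F a1 a2 a3 a4 a5 b3 e₂ (hφ _ _ e₁)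
  rwa [dir_zero] at h

/-- All the bits of the wire rows at a tile. -/
lemma know_bits {i : Z5} (hA : AtomsKnown Λ o g o' i) : Know Λ o g o' i fun t => t.fin.h :=
  Know.det hl hu (fun t => t.fin.h) (ι := Guest) (δ := fun _ => Bool) (fun gu t => t.fin.h gu)
    (fun gu => know_h hL hl hu gu (hA gu)) fun _ _ _ _ _ _ e => funext e

/-- The scanning column. -/
theorem know_carry {i : Z5} (hA : AtomsKnown Λ o g o' i) :
    Know Λ o g o' i fun t => t.fin.carry := by
  have h := know_column hL hl hu (fun c : Carry C => c) (fun t => t.fin.h)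
    (fun t t' e c c' k m x hc => by rw [e, hc]) (AtomsKnown Λ o g o')
    (fun i h => know_bits hL hl hu h) (fun i h h0 hy => h.below h0 hy) i hA
  simpa using h

/-- The copy in the scanning column. -/
theorem know_copy {i : Z5} (hA : GuestKnown Λ o g o' i self) :
    Know Λ o g o' i fun t => t.fin.carry.map fun c => c.copy :=
  know_column hL hl hu (fun c : Carry C => c.copy) (fun t => t.fin.h self)
    (fun _ _ e _ _ k m x hc => stepRow_copy _ _ k m x e hc)
    (fun i => GuestKnown Λ o g o' i self) (fun i h => know_h hL hl hu self fun _ => h)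
    (fun i h h0 _ => h.below h0) i hA

/-- A table column from the bits below. -/
lemma know_zone {β : Type} [Fintype β] (f : Fin' C → Option β)
    (nx : Claims C → Claims C → Option β → Bits → Option β)
    (hnx : ∀ {t d : Cell C}, EFacts 1 t d → f t.1 = nx t.2 d.2 (f d.1) d.1.h)
    (hcongr : ∀ {t t' d d' : Claims C}, t.cx = t'.cx → t.cy = t'.cy → t.ex.z = t'.ex.z →
      d.cy = d'.cy → d.cm = d'.cm → ∀ (dc : Option β) (dh : Bits),
        nx t d dc dh = nx t' d' dc dh)
    (hfix : ∀ i, Fix Λ o g i (fun t => (f t.fin).isSome) (f (shell C L g i).fin).isSome)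
    (hbound : ∀ i, (f (shell C L g i).fin).isSome = true →
      0 < px C L g i 1 ∧ px C L g i 1 ≤ halfY L) {i : Z5} (hA : AtomsKnown Λ o g o' i) :
    Know Λ o g o' i fun t => f t.fin := by
  refine column_induction (C := C) (L := L) (g := g)
    (P := fun i => AtomsKnown Λ o g o' i → Know Λ o g o' i fun t => f t.fin)
    (fun i ih hA => ?_) i hA
  by_cases hs : (f (shell C L g i).fin).isSome = true
  swap
  · refine Know.none hL hl hu ?_
    rw [Bool.not_eq_true] at hs
    simpa only [hs] using hfix i
  obtain ⟨h0, hy⟩ := hbound i hs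
  have hA' := hA.below h0 hy
  have h := Know.step₂ hl hu (i := i) d₀ (fun t => f t.fin) (axis 1) (axis 1)
    (f₁ := fun t => t.fin.h) (f₂ := fun t => f t.fin)
    (by rw [below_axis]; exact know_bits hL hl hu hA') (by rw [below_axis]; exact ih h0 hA')
    (fun b => cond b (d₀ : Dir) (axis 1)) (fun _ => posClaims L)
    (fun b => posClaims L (shell C L g (i - dir (cond b (d₀ : Dir) (axis 1)))))
    (fix_pair hL hl i) fun q q' hq hq' _ _ hg hg' e₁ e₂ => by
      have ht := (hg true).trans (hg' true).symm
      have hd := (hg false).trans (hg' false).symm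
      simp only [posClaims, Prod.ext_iff, cond_true, cond_false] at ht hd
      obtain ⟨a1, a2, -, a4, -⟩ := ht
      obtain ⟨-, b2, b3, -, -⟩ := hd
      have r : ∀ q : Common.Win (Common.St C), Valid L q → f (q d₀).fin =
          nx (claims L (q d₀)) (claims L (q (axis 1))) (f (q (axis 1)).fin)
            (q (axis 1)).fin.h := fun q hq => by
        have h := hnx ((shape_facts hq.1.2.2.1).e self 1 rfl)
        rw [back_self] at h
        exact h
      show f (q d₀).fin = f (q' d₀).fin
      rw [r q hq, r q' hq', e₁, e₂]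
      exact hcongr a1 a2 a4 b2 b3 _ _
  rwa [dir_zero] at h

/-- The equality column. -/
theorem know_eq {i : Z5} (hA : AtomsKnown Λ o g o' i) : Know Λ o g o' i fun t => t.fin.eq :=
  know_zone hL hl hu (fun f => f.eq) eqNext (fun h => h.eq rfl)
    (fun h1 h2 h4 k2 k3 => eqNext_congr h1 h2 h4 k2 k3) (fix_eq hL hl)
    (fun i h => ⟨by
      simp only [shell, child_eqf _ _ _ _ _ (px_lt g i 0) (px_lt g i 1)] at h
      split_ifs at h with hc
      · have := hc.2.1; have := M_pos L; omega
      · simp at h, eq_bound hL i h⟩) hA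

/-- The lookup column. -/
theorem know_look {i : Z5} (hA : AtomsKnown Λ o g o' i) : Know Λ o g o' i fun t => t.fin.look :=
  know_zone hL hl hu (fun f => f.look) lookNext (fun h => h.look rfl)
    (fun h1 h2 h4 k2 k3 => lookNext_congr h1 h2 h4 k2 k3) (fix_look hL hl)
    (fun i h => ⟨by
      simp only [shell, child_look _ _ _ _ _ (px_lt g i 0) (px_lt g i 1)] at h
      split_ifs at h with hc
      · have := hc.2.1; have := M_pos L; omega
      · simp at h, look_bound hL i h⟩) hA

omit hL hl hu

/-! ### What is handed down -/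

/-- A position in the slice of middle digits. -/
def posA (x y : ℕ) : Fin 5 → ℕ := ![x, y, 1, 1, 1]

lemma posA_zero (x y : ℕ) : posA x y 0 = x := rfl

lemma posA_one (x y : ℕ) : posA x y 1 = y := rfl

lemma posA_ne (x y y' : ℕ) {a : Fin 5} (ha : a ≠ 1) : posA x y a = posA x y' a := by
  fin_cases a <;> first | rfl | exact absurd rfl ha

lemma posA_lt (hL : L₀ C ≤ L) {x y : ℕ} (hx : x < H L) (hy : y < H L) (a : Fin 5) :
    posA x y a < sizeOf' C L a := by
  have := base_ge C.k
  fin_cases a <;> simp [posA, sizeOf'] <;> omega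

lemma scan_col (hL : L₀ C ≤ L) :
    M L * 3 < H L ∧ IsCol L (M L * 3) 3 ∧ lo L (M L * 3) = 0 := by
  have hM := nine_le_M hL
  obtain ⟨e1, e2, e3⟩ := coord_of (L := L) (a := 0) (c := 3) (e := 0) (by omega) (M_pos L)
  simp only [mul_zero, Nat.zero_add, Nat.add_zero] at e1 e2 e3
  refine ⟨?_, ⟨e1, e2⟩, e3⟩
  have := (cuts_lt (C := C) hL).2.1
  unfold cutX at this
  omega

lemma rowIdx_below_corner (hL : L₀ C ≤ L) :
    rowIdx L (cornerH C L - 1) = lastK C L ∧ rowIdx L (cornerH C L) = lastK C L + 1 := by
  have hp2 : 0 < M L ^ 2 := pow_pos (M_pos L) 2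
  constructor
  · unfold rowIdx cornerH
    rw [show M L + (lastK C L + 1) * M L ^ 2 - 1 - M L = (M L ^ 2 - 1) + M L ^ 2 * lastK C L by
        rw [Nat.add_mul, one_mul, Nat.mul_comm (M L ^ 2)]; omega,
      Nat.add_mul_div_left _ _ hp2, Nat.div_eq_of_lt (by omega), Nat.zero_add]
  · unfold rowIdx cornerH
    rw [Nat.add_sub_cancel_left, Nat.mul_div_cancel _ hp2]

include hL hl hu in
/-- What is handed down. -/
theorem know_pf {i : Z5} (hA : GuestKnown Λ o g o' i self) :
    Know Λ o g o' i fun t => t.fin.pf := by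
  obtain ⟨hc1, hc2⟩ := height_bound (C := C) hL
  obtain ⟨hx, hcol, hlo⟩ := scan_col (C := C) hL
  obtain ⟨-, -, -, hy⟩ := cuts_lt (C := C) hL
  obtain ⟨hr1, hr2⟩ := rowIdx_below_corner (C := C) hL
  have hM := M_pos L
  have step : ∀ a ∈ (univ : Finset (Fin 5)), ∀ j, 0 < px C L g j a → ∀ q, Valid L q →
      (pos5 C L).At g j (q d₀) → (q d₀).fin.pf = (q (axis a)).fin.pf := fun a _ j h0 q hq hat => by
    have hat' : (pos5 C L).At g j (q self) := hat
    have h := ((shape_facts hq.1.2.2.1).e self a rfl).pf (by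
      show (claims L (q self)).firstAt a = false
      rw [firstAt_at hat', decide_eq_false_iff_not]
      omega)
    rw [back_self] at h
    exact h
  have hlt : ∀ y, y ≤ cornerH C L → ∀ a ∈ (univ : Finset (Fin 5)),
      posA (M L * 3) y a < sizeOf' C L a := fun y h a _ => posA_lt hL hx (by omega) a
  refine (know_within hl hu (fun t => t.fin.pf) univ step
    (m := posA (M L * 3) (cornerH C L - 1)) (hlt _ (by omega)) i).2 ?_
  let top := A5.moveTo C L g i univ (posA (M L * 3) (cornerH C L))
  have hp : ∀ a, px C L g top a = posA (M L * 3) (cornerH C L) a := fun a => by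
    rw [px_moveTo (hlt _ le_rfl), if_pos (mem_univ a)]
  have ed : A5.moveTo C L g i univ (posA (M L * 3) (cornerH C L - 1)) = below top := by
    have e1 : ((cornerH C L - 1 : ℕ) : ℤ) = (cornerH C L : ℤ) - 1 :=
      Int.ofNat_sub (show 1 ≤ cornerH C L by omega)
    funext a
    simp only [below, top, A5.moveTo, mem_univ, if_true, Pi.sub_apply, dir, axis]
    by_cases ha : a = 1
    · subst ha
      rw [posA_one, posA_one, e1]
      simp only [decide_true, if_true]
      ring
    · rw [posA_ne _ (cornerH C L - 1) (cornerH C L) ha]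
      simp only [ha, decide_false, Bool.false_eq_true, if_false, sub_zero]
  have hpd : ∀ a, px C L g (below top) a = posA (M L * 3) (cornerH C L - 1) a := fun a => by
    rw [← ed, px_moveTo (hlt _ (by omega)), if_pos (mem_univ a)]
  have hown : GuestKnown Λ o g o' (below top) self := by
    rw [← ed]
    exact hA.moveTo (hlt _ (by omega))
  have htop : (shell C L g top).fin.carry.isSome = false := by
    rw [shell, child_carry _ _ _ _ _ (px_lt g top 0) (px_lt g top 1), hp 1,
      posA_one, hr2, if_neg fun h => absurd h.2.2.2.2.1 (by omega)]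
    rfl
  have hbelow : (shell C L g (below top)).fin.carry.isSome = true := by
    have hmd : MidDigits (pz C L g (below top)) := fun c => by
      have := base_ge C.k
      show 0 < px C L g (below top) (zAx c) ∧ px C L g (below top) (zAx c) + 1 < base C.k
      rw [hpd]
      fin_cases c <;> simp [posA, zAx] <;> omega
    rw [shell, child_carry _ _ _ _ _ (px_lt g _ 0) (px_lt g _ 1), hpd 0, hpd 1,
      posA_zero, posA_one, hr1, if_pos ⟨hcol, hlo, by omega, by unfold lastK; have := AF_lt C; omega, le_rfl, hmd⟩]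
    rfl
  rw [ed, ← below_axis]
  refine Know.step₂ hl hu (i := top) (axis 1) _ (axis 1) (axis 1)
    (f₁ := fun t => t.fin.carry.map fun c => c.copy) (f₂ := fun t => t.fin.carry.map fun c => c.copy)
    (by rw [below_axis]; exact know_copy hL hl hu hown)
    (by rw [below_axis]; exact know_copy hL hl hu hown)
    (fun b => cond b (d₀ : Dir) (axis 1)) (fun _ t => t.fin.carry.isSome) (fun b => !b)
    (fun b => ?_) fun q q' hq hq' _ _ hg hg' e _ => ?_
  · cases b
    · simpa [below_axis, hbelow] using fix_carry (o := o) hL hl (g := g) (below top)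
    · simpa [htop] using fix_carry (o := o) hL hl (g := g) top
  have acc : ∀ q : Common.Win (Common.St C), Valid L q → ∀ c, (q (axis 1)).fin.carry = some c →
      (q d₀).fin.carry = Option.none → ∃ m, claimsOfCopy (C := C) c.copy.val = some m ∧
        (q (axis 1)).fin.pf = readout m := fun q hq c hc hn => by
    have h := hq.1.2.2.2.1.1 self rfl
    rw [back_self] at h
    obtain ⟨h1, h2⟩ := h.1 c hc hn
    obtain ⟨m, hm, -⟩ := h1
    exact ⟨m, hm, h2 m hm⟩
  have g0 := hg true
  have g1 := hg false
  have g0' := hg' true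
  have g1' := hg' false
  simp only [cond_true, cond_false, Bool.not_true, Bool.not_false, Option.isSome_iff_exists,
    Option.isSome_eq_false_iff, Option.isNone_iff_eq_none] at g0 g1 g0' g1'
  obtain ⟨c, hc⟩ := g1
  obtain ⟨c', hc'⟩ := g1'
  obtain ⟨m, hm, hq1⟩ := acc q hq c hc g0
  obtain ⟨m', hm', hq1'⟩ := acc q' hq' c' hc' g0'
  rw [hc, hc'] at e
  rw [show c.copy = c'.copy by simpa using e, hm'] at hm
  rw [hq1, hq1', Option.some.inj hm]

/-- The tile of the scanning column at a row with the given digits in the plane. -/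
def scanTile (C : Cfg) (L : ℕ) (g i : Z5) (k : ℕ) : Z5 :=
  A5.moveTo C L g i {0, 1, 2, 3} (posA (M L * 3) (crossY L k))

lemma scanTile_spec (hL : L₀ C ≤ L) (g i : Z5) {k : ℕ} (hk : k ≤ lastK C L) :
    (∀ a ∈ ({0, 1, 2, 3} : Finset (Fin 5)),
      posA (M L * 3) (crossY L k) a < sizeOf' C L a) ∧
    px C L g (scanTile C L g i k) 0 = M L * 3 ∧ px C L g (scanTile C L g i k) 1 = crossY L k ∧
    pz C L g (scanTile C L g i k) 2 = pz C L g i 2 ∧
    (∀ c : Fin 3, c ≠ 2 → (pz C L g (scanTile C L g i k) c).val = 1) ∧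
    IsWire L (crossY L k) ∧ hi L (crossY L k) = k ∧ M L ≤ crossY L k ∧
    rowIdx L (crossY L k) = k := by
  obtain ⟨-, h2, -, -⟩ := bounds_M hL
  obtain ⟨hc, -, -, hw, hh⟩ := cross_bounds (C := C) hL (k := k) (by omega)
  obtain ⟨hx, -, -⟩ := scan_col (C := C) hL
  have hy : crossY L k < H L := (hc 1).1
  have hlt : ∀ a ∈ ({0, 1, 2, 3} : Finset (Fin 5)),
      posA (M L * 3) (crossY L k) a < sizeOf' C L a := fun a _ => posA_lt hL hx hy a
  have hp := px_moveTo (g := g) (i := i) hlt
  refine ⟨hlt, by rw [scanTile, hp]; simp [posA], by rw [scanTile, hp]; simp [posA],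
    Fin.ext ?_, fun c hc => ?_, hw, hh, M_le_of_wire hw, by rw [rowIdx_wire hw, hh]⟩
  · show px C L g (scanTile C L g i k) (zAx 2) = px C L g i (zAx 2)
    rw [scanTile, hp]
    simp [zAx]
  · show px C L g (scanTile C L g i k) (zAx c) = 1
    rw [scanTile, hp]
    fin_cases c <;> simp [zAx, posA] at hc ⊢

include hL hl hu in
/-- Whether a word is carried. -/
theorem know_on {i : Z5} (hA : GuestKnown Λ o g o' i self) :
    Know Λ o g o' i fun t => t.fin.wOn := by
  have hkL : A C ≤ lastK C L := by unfold lastK; omega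
  obtain ⟨hm, p0, p1, hz2, -, hw, hh, hM, hr⟩ := scanTile_spec hL g i hkL
  obtain ⟨-, hcol, hlo⟩ := scan_col (C := C) hL
  refine (know_within hl hu (fun t => t.fin.wOn) {0, 1, 2, 3}
    (fun a ha j _ q hq _ => ?_) hm i).2 ?_
  · have h := hq.1.2.2.2.2.on self a rfl (by rintro rfl; simp at ha)
    rw [back_self] at h
    exact h
  have hbad : scanMach C L 0 = some (machAt C L 0) :=
    if_pos (lt_of_lt_of_le (by have := (le_L₀ C); omega) hL)
  have h := Know.step₂ hl hu (i := scanTile C L g i (A C)) d₀ (fun t => t.fin.wOn) d₀ d₀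
    (f₁ := fun t => t.fin.pf) (f₂ := fun t => t.fin.pf)
    (by rw [dir_zero]; exact know_pf hL hl hu (hA.moveTo hm))
    (by rw [dir_zero]; exact know_pf hL hl hu (hA.moveTo hm))
    (ι' := Unit) (fun _ => d₀) (fun _ => posClaims L)
    (fun _ => posClaims L (shell C L g (scanTile C L g i (A C))))
    (fun _ => by rw [dir_zero]; exact fix_claims hL hl _) fun q q' hq hq' _ _ hg hg' e _ => ?_
  · rwa [dir_zero] at h
  set j := scanTile C L g i (A C)
  have rules : ∀ q : Common.Win (Common.St C), Valid L q → posClaims L (q d₀) =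
      posClaims L (shell C L g j) → (q d₀).fin.wOn =
        (match (generalizing := false) sym (pz C L g j 2) with
          | some .reset => (machAt C L 0).em
          | some .pass => (q d₀).fin.pf.wOn
          | _ => false) := fun q hq he => by
    simp only [posClaims, Prod.ext_iff] at he
    obtain ⟨-, -, -, e4, e5⟩ := he
    have hP := (shape_facts hq.1.2.2.1).p self
    have ez : (claims L (q d₀)).ex.z 2 = pz C L g j 2 := by
      rw [e4]; rfl
    have em : (claims L (q d₀)).ex.mach = some (machAt C L 0) := by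
      rw [e5, shell, claims_mach _ _ _ _ _ (px_lt g j 0) (px_lt g j 1) (by rw [p0]; exact ⟨hcol, hlo⟩)
        (by rw [p1]; exact hM) (by rw [p1, hr]), p1, hr, Nat.sub_self, Nat.zero_div, hbad]
    cases hs : sym (pz C L g j 2) with
    | none =>
      exact hP.on_none (by rw [show (sig L q self).2.ex.z 2 = _ from ez, hs]; simp)
        (by rw [show (sig L q self).2.ex.z 2 = _ from ez, hs]; simp)
    | some v =>
      cases v with
      | reset =>
        exact hP.on_reset (by rw [show (sig L q self).2.ex.z 2 = _ from ez, hs]) _ em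
      | pass => exact hP.on_pass (by rw [show (sig L q self).2.ex.z 2 = _ from ez, hs])
      | _ =>
        exact hP.on_none (by rw [show (sig L q self).2.ex.z 2 = _ from ez, hs]; simp)
          (by rw [show (sig L q self).2.ex.z 2 = _ from ez, hs]; simp)
  rw [rules q hq (hg ()), rules q' hq' (hg' ()), show (q d₀).fin.pf = (q' d₀).fin.pf from e]

include hL hl hu in
/-- The bits of the word. -/
theorem know_word {i : Z5} (hA : GuestKnown Λ o g o' i self) (r : Track C) (n : ℕ) :
    Know Λ o g o' i fun t => (t.w r).testBit n := by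
  by_cases hn : n < L
  swap
  · refine Fix.know hl (Fix.rule hl _ false fun q hq _ => ?_) hu
    exact Nat.testBit_lt_two_pow (((hq.1.1 d₀).1.2.2.2 r).trans_le
      (Nat.pow_le_pow_right two_pos (by omega)))
  by_cases hn0 : L₀ C ≤ n
  swap
  · exact Fix.know hl (Fix.rule hl _ false fun q hq _ => (hq.1.1 d₀).2.low r n (by omega)) hu
  have hT := T_ge C
  set k := A C + T C * n + (7 + r.val) with hk
  have hrT : 7 + r.val < T C := by have := r.isLt; omega
  have hkL : k ≤ lastK C L := by
    have := Nat.mul_le_mul_left (T C) (show n + 1 ≤ L by omega)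
    rw [Nat.mul_add, mul_one] at this
    unfold lastK
    omega
  obtain ⟨hm, p0, p1, hz2, hz1, hw, hh, hM, hr⟩ := scanTile_spec hL g i hkL
  obtain ⟨-, hcol, hlo⟩ := scan_col (C := C) hL
  refine (know_within hl hu (fun t => (t.w r).testBit n) {0, 1, 2, 3}
    (fun a ha j _ q hq _ => ?_) hm i).2 ?_
  · have h := (hq.1.2.1 self a rfl).2.2.2.1 (by rintro rfl; simp at ha)
    rw [back_self] at h
    exact congrArg (fun w : Track C → ℕ => (w r).testBit n) h
  set j := scanTile C L g i k with hj
  have hown : GuestKnown Λ o g o' j self := hA.moveTo hm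
  have h := Know.step₂ hl hu (i := j) d₀ (fun t => (t.w r).testBit n) d₀ d₀
    (f₁ := fun t => t.fin.wOn) (f₂ := fun t => t.fin.h self)
    (by rw [dir_zero]; exact know_on hL hl hu hown)
    (by rw [dir_zero]; exact know_h hL hl hu self fun _ => hown)
    (ι' := Bool) (fun _ => d₀)
    (δ' := fun b => cond b (XClaims × YClaims C × MixClaims × Digits C × Option (Mach C)) ℕ)
    (fun b => match b with | true => posClaims L | false => fun t => t.u)
    (fun b => match b with | true => posClaims L (shell C L g j) | false => (shell C L g j).u)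
    (fun b => by
      rw [dir_zero]
      cases b
      · exact fix_u hL hl j
      · exact fix_claims hL hl j) fun q q' hq hq' _ _ hg hg' e e' => ?_
  · rwa [dir_zero] at h
  have hdiv : (k - A C) / T C = n := by
    rw [hk, show A C + T C * n + (7 + r.val) - A C = (7 + r.val) + T C * n by omega,
      Nat.add_mul_div_left _ _ (T_pos C), Nat.div_eq_of_lt hrT, Nat.zero_add]
  have hu' : (shell C L g j).u = 2 ^ n := by
    rw [shell, child_u_scan _ _ _ _ _ (px_lt g j 0) (px_lt g j 1) (by rw [p0]; exact ⟨hcol, hlo⟩)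
      (by rw [p1]; exact hM) (by rw [p1, hr]; omega), p1, hr, hdiv,
      Nat.mod_eq_of_lt (show 2 ^ n < M L from Nat.pow_lt_pow_right (by norm_num) hn)]
  have rules : ∀ q : Common.Win (Common.St C), Valid L q → posClaims L (q d₀) =
      posClaims L (shell C L g j) → (q d₀).u = (shell C L g j).u →
      ((q d₀).w r).testBit n = ((q d₀).fin.wOn &&
        (match (generalizing := false) sym (pz C L g j 2) with
          | some .reset => resetBits (machAt C L n) r
          | some .pass => (q d₀).fin.h self
          | _ => false)) := fun q hq he heu => by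
    simp only [posClaims, Prod.ext_iff] at he
    obtain ⟨e1, e2, e3, e4, e5⟩ := he
    have hP := (shape_facts hq.1.2.2.1).p self
    cases hon : (q d₀).fin.wOn
    · rw [(hq.1.1 d₀).2.off hon r, Nat.zero_testBit, Bool.false_and]
    rw [Bool.true_and]
    have ewd : (claims L (q d₀)).ex.wd r = ((q d₀).w r).testBit n := by
      simp only [claims, heu, hu', Nat.log_pow (show 1 < 2 by norm_num)]
      simp
    rw [← ewd]
    have ez : (claims L (q d₀)).ex.z 2 = pz C L g j 2 := by rw [e4]; rfl
    cases hs : sym (pz C L g j 2) with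
    | none =>
      have := hP.on_none (by rw [show (sig L q self).2.ex.z 2 = _ from ez, hs]; simp)
        (by rw [show (sig L q self).2.ex.z 2 = _ from ez, hs]; simp)
      exact absurd (hon.symm.trans this) (by simp)
    | some v =>
      cases v with
      | reset =>
        refine hP.wd_reset (by rw [show (sig L q self).2.ex.z 2 = _ from ez, hs]) hon _ ?_ r
        show (claims L (q d₀)).ex.mach = _
        rw [e5, shell, claims_mach _ _ _ _ _ (px_lt g j 0) (px_lt g j 1)
          (by rw [p0]; exact ⟨hcol, hlo⟩) (by rw [p1]; exact hM) (by rw [p1, hr]; omega), p1, hr,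
          hdiv, scanMach, if_pos hn]
      | pass =>
        have hyC : (claims L (q d₀)).cy.yhC.val = min k (YB C) := by
          rw [e2, shell, claims_yhC _ _ _ _ _ (px_lt g j 1), p1, hh]
        refine hP.wd_pass (by rw [show (sig L q self).2.ex.z 2 = _ from ez, hs]) hon ?_ ?_ ?_ ?_ ?_ r ?_
        · show (claims L (q d₀)).isScan = true
          rw [show (claims L (q d₀)).isScan = (claims L (shell C L g j)).isScan by
            simp only [Claims.isScan, e1], shell, claims_scan _ _ _ _ _ (px_lt g j 0), p0]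
          exact ⟨hcol, hlo⟩
        · show (claims L (q d₀)).middle = true
          simp only [Claims.middle, e4, decide_eq_true_iff]
          intro c
          show 0 < (pz C L g j c).val ∧ _
          by_cases hc : c = 2
          · subst hc
            have hb := (Fintype.equivFin (Mid C.k) Mid.pass).isLt
            rw [show (claims L (shell C L g j)).ex.z 2 = pz C L g j 2 from rfl, ← sym_eq_some.1 hs]
            simp only [pos, base]
            omega
          · have := base_ge C.k
            rw [show (claims L (shell C L g j)).ex.z c = pz C L g j c from rfl, hz1 c hc]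
            omega
        · show (claims L (q d₀)).isWire = true
          rw [show (claims L (q d₀)).isWire = (claims L (shell C L g j)).isWire by
            simp only [Claims.isWire, e2], shell, claims_wire _ _ _ _ _ (px_lt g j 1), p1]
          exact hw
        · show A C ≤ (claims L (q d₀)).cy.yhC.val
          rw [hyC]
          exact le_min ((Nat.le_add_right _ _).trans (Nat.le_add_right _ _)) (A_lt_YB C).le
        · show (claims L (q d₀)).cm.u0 = false
          simp only [claims, heu, hu', decide_eq_false_iff_not]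
          exact (Nat.two_pow_pos n).ne'
        · show (claims L (q d₀)).cy.yhMod.val = r.val + 7
          obtain ⟨cA, hcA⟩ := T_dvd_A C
          rw [e2, shell, claims_yhMod _ _ _ _ _ (px_lt g j 1), p1, hh, hk,
            show A C + T C * n + (7 + r.val) = (7 + r.val) + T C * (cA + n) by
              rw [Nat.mul_add, ← hcA]; omega,
            Nat.add_mul_mod_self_left, Nat.mod_eq_of_lt hrT, Nat.add_comm]
      | _ =>
        have := hP.on_none (by rw [show (sig L q self).2.ex.z 2 = _ from ez, hs]; simp)
          (by rw [show (sig L q self).2.ex.z 2 = _ from ez, hs]; simp)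
        exact absurd (hon.symm.trans this) (by simp)
  rw [rules q hq (hg true) (hg false), rules q' hq' (hg' true) (hg' false),
    show (q d₀).fin.wOn = (q' d₀).fin.wOn from e,
    show (q d₀).fin.h self = (q' d₀).fin.h self from e']

include hL hl hu in
/-- A tile is known from the bits shown at it and those of its own parent. -/
theorem know_tile {i : Z5} (hA : AtomsKnown Λ o g o' i) (hown : GuestKnown Λ o g o' i self) :
    Know Λ o g o' i fun t => t := by
  have hfin : Know Λ o g o' i fun t => t.fin := by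
    have hvb : Know Λ o g o' i fun t => t.fin.vb :=
      Know.det hl hu (fun t => t.fin.vb) (ι := Guest) (δ := fun _ => Bool)
        (fun gu t => t.fin.vb gu) (fun gu => know_vb hL hl hu gu (hA gu))
        fun _ _ _ _ _ _ e => funext e
    have pair : ∀ {α β : Type} [Fintype α] [Fintype β] {f : Common.St C → α}
        {f' : Common.St C → β}, Know Λ o g o' i f → Know Λ o g o' i f' →
        Know Λ o g o' i fun t => (f t, f' t) := fun {α β _ _ f f'} k k' => by
      have h := Know.step₂ hl hu (i := i) d₀ (fun t => (f t, f' t)) d₀ d₀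
        (by rw [dir_zero]; exact k) (by rw [dir_zero]; exact k')
        (ι' := Empty) (δ' := fun _ => Unit) Empty.elim (fun m => m.elim) (fun m => m.elim)
        (fun m => m.elim) fun q q' _ _ _ _ _ _ e e' => Prod.ext e e'
      rwa [dir_zero] at h
    refine Know.map hl hu (pair (pair (pair (know_bits hL hl hu hA) hvb)
      (pair (know_carry hL hl hu hA) (know_eq hL hl hu hA)))
      (pair (pair (Fix.know hl (fix_v hL hl i) hu) (know_look hL hl hu hA))
        (pair (Fix.know hl (fix_live hL hl i) hu)
          (pair (know_pf hL hl hu hown) (know_on hL hl hu hown)))))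
      _ fun q q' _ _ _ _ e => ?_
    simp only [Prod.ext_iff] at e
    obtain ⟨⟨⟨e1, e2⟩, e3, e4⟩, ⟨e5, e6⟩, e7, e8, e9⟩ := e
    show (q d₀).fin = (q' d₀).fin
    calc (q d₀).fin = ⟨(q d₀).fin.h, (q d₀).fin.vb, (q d₀).fin.carry, (q d₀).fin.eq,
          (q d₀).fin.v, (q d₀).fin.look, (q d₀).fin.live, (q d₀).fin.pf, (q d₀).fin.wOn⟩ := rfl
      _ = ⟨(q' d₀).fin.h, (q' d₀).fin.vb, (q' d₀).fin.carry, (q' d₀).fin.eq,
          (q' d₀).fin.v, (q' d₀).fin.look, (q' d₀).fin.live, (q' d₀).fin.pf,
          (q' d₀).fin.wOn⟩ := by rw [e1, e2, e3, e4, e5, e6, e7, e8, e9]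
  have hword : Know Λ o g o' i fun t => fun (r : Track C) (n : Fin L) => (t.w r).testBit n.val :=
    Know.det hl hu _ (ι := Track C × Fin L) (δ := fun _ => Bool)
      (fun p t => (t.w p.1).testBit p.2.val) (fun p => know_word hL hl hu hown p.1 p.2.val)
      fun _ _ _ _ _ _ e => funext fun r => funext fun n => e (r, n)
  have h := Know.step₂ hl hu (i := i) d₀ (fun t => t) d₀ d₀
    (by rw [dir_zero]; exact hfin) (by rw [dir_zero]; exact hword)
    (ι' := Unit) (δ' := fun _ => ℕ) (fun _ => d₀) (fun _ t => t.u)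
    (fun _ => (shell C L g i).u) (fun _ => by rw [dir_zero]; exact fix_u hL hl i)
    fun q q' hq hq' hat hat' hg hg' e e' => ?_
  · rwa [dir_zero] at h
  obtain ⟨a1, a2, a3⟩ := at_coords hat
  obtain ⟨b1, b2, b3⟩ := at_coords hat'
  have hw : (q d₀).w = (q' d₀).w := funext fun r => Nat.eq_of_testBit_eq fun n => by
    by_cases hn : n < L
    · exact congrFun (congrFun e' r) ⟨n, hn⟩
    · rw [Nat.testBit_lt_two_pow (((hq.1.1 d₀).1.2.2.2 r).trans_le
        (Nat.pow_le_pow_right two_pos (by omega))), Nat.testBit_lt_two_pow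
        (((hq'.1.1 d₀).1.2.2.2 r).trans_le (Nat.pow_le_pow_right two_pos (by omega)))]
  calc q d₀ = ⟨(q d₀).x, (q d₀).y, (q d₀).u, (q d₀).w, (q d₀).z, (q d₀).fin⟩ := rfl
    _ = ⟨(q' d₀).x, (q' d₀).y, (q' d₀).u, (q' d₀).w, (q' d₀).z, (q' d₀).fin⟩ := by
      rw [a1, a2, a3, b1, b2, b3, hw, hg (), hg' (), show (q d₀).fin = (q' d₀).fin from e]

end Vale.Agent.P193.W4.A5
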