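import Vale.Agent.P193.W4.A5.Spec
import Vale.Agent.P193.W4.A5.Tile

/-!
P193, module W4 (A5): what is handed down is known from the parent, and a tile from the bits shown
at it, what is handed down to it and its word.
-/

noncomputable section

namespace Vale.Agent.P193.W4.A5

open BH BH.SFT Finset Common
open scoped Classical

variable {C : Cfg} {L : ℕ}

/-- What is handed down to a tile is known from the own bits of its parent. -/
theorem pfStatement (C : Cfg) (L : ℕ) : PfStatement C L :=
  fun _ hL hl _ _ _ hu _ hi => know_pf hL hl hu fun k hk => by rw [cross_eq]; exact hi k hk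

/-- A tile is known from the bits shown at it, what was handed down to it and its word. -/
theorem allStatement (C : Cfg) (L : ℕ) : AllStatement C L := by
  intro S Λ hL hl o g o' hu i hA hpf hword P
  have pair : ∀ {α β : Type} [Fintype α] [Fintype β] {f : Common.St C → α}
      {f' : Common.St C → β}, Know Λ o g o' i f → Know Λ o g o' i f' →
      Know Λ o g o' i fun t => (f t, f' t) := fun {α β _ _ f f'} k k' => by
    have h := Know.step₂ hl hu (i := i) d₀ (fun t => (f t, f' t)) d₀ d₀
      (by rw [dir_zero]; exact k) (by rw [dir_zero]; exact k')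
      (ι' := Empty) (δ' := fun _ => Unit) Empty.elim (fun m => m.elim) (fun m => m.elim)
      (fun m => m.elim) fun q q' _ _ _ _ _ _ e e' => Prod.ext e e'
    rwa [dir_zero] at h
  have hvb : Know Λ o g o' i fun t => t.fin.vb :=
    Know.det hl hu (fun t => t.fin.vb) (ι := Guest) (δ := fun _ => Bool)
      (fun gu t => t.fin.vb gu) (fun gu => know_vb hL hl hu gu (hA gu))
      fun _ _ _ _ _ _ e => funext e
  have hfin : Know Λ o g o' i fun t => (t.fin, wordBits L t) := by
    refine Know.map hl hu (pair (pair (pair (know_bits hL hl hu hA) hvb)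
      (pair (know_carry hL hl hu hA) (know_eq hL hl hu hA)))
      (pair (pair (Fix.know hl (fix_v hL hl i) hu) (know_look hL hl hu hA))
        (pair (Fix.know hl (fix_live hL hl i) hu) (pair hpf hword))))
      _ fun q q' _ _ _ _ e => ?_
    simp only [Prod.ext_iff] at e
    obtain ⟨⟨⟨e1, e2⟩, e3, e4⟩, ⟨e5, e6⟩, e7, e8, e9, e10⟩ := e
    refine Prod.ext ?_ (Prod.ext e9 e10)
    calc (q d₀).fin = ⟨(q d₀).fin.h, (q d₀).fin.vb, (q d₀).fin.carry, (q d₀).fin.eq,
          (q d₀).fin.v, (q d₀).fin.look, (q d₀).fin.live, (q d₀).fin.pf, (q d₀).fin.wOn⟩ := rfl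
      _ = ⟨(q' d₀).fin.h, (q' d₀).fin.vb, (q' d₀).fin.carry, (q' d₀).fin.eq,
          (q' d₀).fin.v, (q' d₀).fin.look, (q' d₀).fin.live, (q' d₀).fin.pf,
          (q' d₀).fin.wOn⟩ := by
        rw [e1, e2, e3, e4, e5, e6, e7, e8, show (q d₀).fin.wOn = (q' d₀).fin.wOn from e9]
  have h := Know.step₂ hl hu (i := i) d₀ (fun t => decide (P t)) d₀ d₀
    (by rw [dir_zero]; exact hfin) (by rw [dir_zero]; exact hfin)
    (ι' := Unit) (δ' := fun _ => ℕ) (fun _ => d₀) (fun _ t => t.u)
    (fun _ => (shell C L g i).u) (fun _ => by rw [dir_zero]; exact fix_u hL hl i)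
    fun q q' hq hq' hat hat' hg hg' e _ => ?_
  · rw [dir_zero] at h
    have h' := h true
    rwa [here_congr (P' := P) i fun t _ => decide_eq_true_iff] at h'
  simp only [wordBits, Prod.ext_iff] at e
  obtain ⟨ef, -, ew⟩ := e
  obtain ⟨a1, a2, a3⟩ := at_coords hat
  obtain ⟨b1, b2, b3⟩ := at_coords hat'
  have hw : (q d₀).w = (q' d₀).w := funext fun r => Nat.eq_of_testBit_eq fun n => by
    by_cases hn : n < L
    · exact congrFun (congrFun ew r) ⟨n, hn⟩
    · rw [Nat.testBit_lt_two_pow (((hq.1.1 d₀).1.2.2.2 r).trans_le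
        (Nat.pow_le_pow_right two_pos (by omega))), Nat.testBit_lt_two_pow
        (((hq'.1.1 d₀).1.2.2.2 r).trans_le (Nat.pow_le_pow_right two_pos (by omega)))]
  have ext : q d₀ = q' d₀ :=
    calc q d₀ = ⟨(q d₀).x, (q d₀).y, (q d₀).u, (q d₀).w, (q d₀).z, (q d₀).fin⟩ := rfl
      _ = ⟨(q' d₀).x, (q' d₀).y, (q' d₀).u, (q' d₀).w, (q' d₀).z, (q' d₀).fin⟩ := by
        rw [a1, a2, a3, b1, b2, b3, hw, hg (), hg' (), ef]
  rw [ext]

end Vale.Agent.P193.W4.A5
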