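import Vale.Agent.P193.W4.A5.Pos
import Vale.Agent.P193.W4.Common.Facts.Bits

/-!
P193, module W4 (A5): the positions of the tiles of a level in their parents, and two ways of
knowing a field of the tile at a known position.

`Fix` says that the field has one value outside null events. `Know` says that the events of its
values commute with a given observable. Both pass through the rules of a window.
-/

noncomputable section

namespace Vale.Agent.P193.W4.A5

open BH BH.SFT Finset Common
open scoped Classical

variable {C : Cfg} {L : ℕ}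

/-- A virtual level of the tile system. -/
abbrev Lv (S : SFT Lat) (C : Cfg) (L : ℕ) : Type _ := Level S (Common.St C) (Valid L)

/-- The position of a tile in its parent. -/
def posOf (t : Common.St C) : Z5 := fun a => (posAt t.x t.y t.z a : ℕ)

lemma sizeOf_pos (a : Fin 5) : 0 < sizeOf' C L a := by
  have := H_pos L
  have := base_ge C.k
  fin_cases a <;> simp [sizeOf'] <;> omega

lemma posOf_range {t : Common.St C} (h : InBounds L t) (a : Fin 5) :
    0 ≤ posOf t a ∧ posOf t a < sizeOf' C L a := by
  refine ⟨Int.natCast_nonneg _, Int.ofNat_lt.2 ?_⟩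
  fin_cases a <;> simp [posAt, sizeOf', h.1, h.2.1]

lemma posOf_edge {a : Fin 5} {t d : Common.St C} (h : EdgeNum L a t d) (c : Fin 5) :
    (sizeOf' C L c : ℤ) ∣ posOf t c - (if c = a then 1 else 0) - posOf d c := by
  obtain ⟨hx, hy, -, -, hz⟩ := h
  have key : ∀ (N p p' : ℕ) (Q : Prop) [Decidable Q], (if Q then p = (p' + 1) % N else p = p') →
      (N : ℤ) ∣ (p : ℤ) - (if Q then 1 else 0) - p' := by
    intro N p p' Q _ hp
    split_ifs at hp ⊢ with hQ
    · subst hp
      push_cast
      rw [sub_sub, add_comm (1 : ℤ)]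
      exact dvd_sub_comm.1 (by simpa using (Int.dvd_self_sub_emod (x := (p' : ℤ) + 1) : (N : ℤ) ∣ _))
    · simp [hp]
  have zc : ∀ i : Fin 3, (base C.k : ℤ) ∣
      ((t.z i).val : ℤ) - (if a = zAx i then 1 else 0) - (d.z i).val := fun i => by
    refine key _ _ _ _ ?_
    have := hz i
    split_ifs at this ⊢
    · exact this
    · rw [this]
  by_cases h0 : c = 0
  · subst h0
    simpa [posOf, posAt, sizeOf', eq_comm] using key (H L) t.x d.x (a = 0) hx
  by_cases h1 : c = 1
  · subst h1
    have hy' : if a = 1 then t.y = (d.y + 1) % H L else t.y = d.y := by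
      split_ifs at hy ⊢
      · exact hy.1
      · exact hy
    simpa [posOf, posAt, sizeOf', eq_comm] using key (H L) t.y d.y (a = 1) hy'
  obtain ⟨i, rfl⟩ : ∃ i : Fin 3, c = zAx i :=
    ⟨⟨c.val - 2, by omega⟩, Fin.ext (by simp [zAx]; omega)⟩
  have e : ∀ t : Common.St C, posOf t (zAx i) = ((t.z i).val : ℤ) := fun t => by
    fin_cases i <;> rfl
  have e' : sizeOf' C L (zAx i) = base C.k := by fin_cases i <;> rfl
  rw [e, e, e']
  convert zc i using 3
  exact if_congr eq_comm rfl rfl

variable (C L)

/-- Positions, as shown by the tiles of a valid window. -/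
def pos5 : Pos (Common.St C) (Valid L) where
  side := sizeOf' C L
  side_pos := sizeOf_pos
  pos := posOf
  pos_range q hq d a := posOf_range (hq.1.1 d).1 a
  pos_step q hq d a := by
    suffices H : ∀ s : Finset (Fin 5), ∀ a, (sizeOf' C L a : ℤ) ∣
        posOf (q d₀) a - (if a ∈ s then 1 else 0) - posOf (q fun c => decide (c ∈ s)) a by
      have h := H (univ.filter fun c => d c = true) a
      simpa [dir] using h
    intro s
    induction s using Finset.induction_on with
    | empty =>
      intro a
      simp [show (fun _ : Fin 5 => false) = d₀ from rfl]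
    | @insert b s hb ih =>
      intro a
      have he := posOf_edge (hq.1.2.1 (fun c => decide (c ∈ s)) b (by simp [hb])) a
      have e : back (fun c => decide (c ∈ s)) b = fun c => decide (c ∈ insert b s) := by
        funext c; simp [back, Bool.or_comm]
      rw [e] at he
      refine (Int.dvd_add (ih a) he).trans (dvd_of_eq ?_)
      by_cases hab : a = b
      · subst hab
        rw [if_neg hb, if_pos (mem_insert_self a s), if_pos rfl]
        ring
      · rw [if_neg hab, if_congr (show a ∈ insert b s ↔ a ∈ s by simp [hab]) rfl rfl]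
        ring

variable {C L}

/-- The position of the cell `i` in the grid `g`. -/
def px (C : Cfg) (L : ℕ) (g i : Z5) (a : Fin 5) : ℕ := (((pos5 C L).red (g + i)) a).toNat

lemma px_lt (g i : Z5) (a : Fin 5) : px C L g i a < sizeOf' C L a := by
  have h : (0 : ℤ) < sizeOf' C L a := by exact_mod_cast (sizeOf_pos (C := C) (L := L) a)
  have h1 := Int.emod_lt_of_pos ((g + i) a) h
  have h2 := Int.emod_nonneg ((g + i) a) h.ne'
  simp only [px, Pos.red, pos5]
  omega

lemma at_iff (g i : Z5) (t : Common.St C) :
    (pos5 C L).At g i t ↔ ∀ a, posAt t.x t.y t.z a = px C L g i a := by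
  have h : ∀ a, (0 : ℤ) < sizeOf' C L a := fun a => by
    exact_mod_cast (sizeOf_pos (C := C) (L := L) a)
  simp only [Pos.At, funext_iff, px, Pos.red, pos5, posOf]
  refine forall_congr' fun a => ?_
  have := Int.emod_nonneg ((g + i) a) (h a).ne'
  omega

/-- Inside a parent, one step along an axis. -/
lemma px_step (g i : Z5) (a c : Fin 5) :
    px C L g (i - dir (axis a)) c =
      if c = a then (px C L g i a + sizeOf' C L a - 1) % sizeOf' C L a else px C L g i c := by
  by_cases hc : c = a
  · subst hc
    rw [if_pos rfl]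
    have h : (0 : ℤ) < sizeOf' C L c := by exact_mod_cast (sizeOf_pos (C := C) (L := L) c)
    have h1 := Int.emod_nonneg ((g + i) c) h.ne'
    have h2 := Int.emod_lt_of_pos ((g + i) c) h
    simp only [px, Pos.red, pos5, Pi.add_apply, Pi.sub_apply, dir, axis, decide_true, if_true] at *
    apply Int.ofNat_inj.1
    rw [Int.toNat_of_nonneg (Int.emod_nonneg _ h.ne'), Int.natCast_mod,
      Nat.cast_sub (by omega), Nat.cast_add, Int.toNat_of_nonneg h1]
    push_cast
    rw [add_sub_assoc, Int.emod_add_emod, show g c + i c + ((sizeOf' C L c : ℤ) - 1) =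
      g c + (i c - 1) + (sizeOf' C L c : ℤ) by ring, Int.add_emod_right]
  · rw [if_neg hc]
    simp [px, Pos.red, pos5, dir, axis, hc]

variable {S : SFT Lat} (Λ : Lv S C L) (o g : Z5)

/-- The event that the tile at `i` is where the grid puts it and has the property `P`. -/
def here (i : Z5) (P : Common.St C → Prop) : S.Obs := Λ.T o i fun t => (pos5 C L).At g i t ∧ P t

/-- A field has one value outside null events. -/
def Fix {β : Type} (i : Z5) (f : Common.St C → β) (c : β) : Prop :=
  Null (here Λ o g i fun t => f t ≠ c)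

/-- The values of a field commute with the observable. -/
def Know {β : Type} (o' : S.Obs) (i : Z5) (f : Common.St C → β) : Prop :=
  ∀ c, Com (here Λ o g i fun t => f t = c) o'

variable {Λ o g}

/-- The whole window is at its place. -/
lemma at_all {q : Win (Common.St C)} (hq : Valid L q) {i : Z5} (h : (pos5 C L).At g i (q d₀))
    (d : Dir) : (pos5 C L).At g (i - dir d) (q d) :=
  ((pos5 C L).at_step hq g i d).1 h

lemma at_corner {q : Win (Common.St C)} (hq : Valid L q) {i : Z5} {d : Dir}
    (h : (pos5 C L).At g (i - dir d) (q d)) : (pos5 C L).At g i (q d₀) :=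
  ((pos5 C L).at_step hq g i d).2 h

variable (hl : Λ.Linked)

include hl

/-- A field is fixed if the fixed fields of the other tiles of a window force its value. -/
lemma Fix.step {β : Type} {ι : Type} [Fintype ι] {δ : ι → Type} {i : Z5} (d : Dir)
    (f : Common.St C → β) (c : β) (ds : ι → Dir) (fs : ∀ m, Common.St C → δ m) (cs : ∀ m, δ m)
    (hf : ∀ m, Fix Λ o g (i - dir (ds m)) (fs m) (cs m))
    (h : ∀ q, Valid L q → (pos5 C L).At g i (q d₀) →
      (∀ m, fs m (q (ds m)) = cs m) → f (q d) = c) :
    Fix Λ o g (i - dir d) f c := by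
  let P : Option ι → Common.St C → Prop := fun m => m.elim
    (fun t => (pos5 C L).At g (i - dir d) t ∧ f t ≠ c)
    fun m t => (pos5 C L).At g (i - dir (ds m)) t ∧ fs m t ≠ cs m
  refine (hl.tile o i d (P none)).symm.trans ?_
  refine null_of_le (fun m => Λ.win (Λ.cell o i) fun q => P (some m) (q (ds m)))
    (Λ.area_ctx _) subset_rfl (Λ.thru_win _ _) (fun _ => subset_rfl) (fun _ => Λ.thru_win _ _)
    (fun m => (hl.tile o i (ds m) (P (some m))).trans (hf m)) fun a ha hv => ?_
  obtain ⟨q, hq, hat, hne⟩ := (Λ.win_val_iff _ _ a).1 hv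
  have hok := Λ.valid _ a q ha hq
  by_contra hc
  refine hne (h q hok (at_corner hok hat) fun m => ?_)
  by_contra hm
  exact hc ⟨m, (Λ.win_val_iff _ _ a).2 ⟨q, hq, at_all hok (at_corner hok hat) _, hm⟩⟩

omit hl

/-- An observable commuting with the grid and with the lattice. -/
structure Under (Λ : Lv S C L) (o g : Z5) (o' : S.Obs) : Prop where
  ctx : Ctx (whole S) o'.supp
  grid : Com (Level.gridObs (pos5 C L) Λ o g) o'
  top : ∀ i, Λ.Ok o o' i fun _ => True

/-- Changing a property on null events only. -/
lemma same_here_of_null {i : Z5} {P P' : Common.St C → Prop}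
    (h : Null (here Λ o g i fun t => ¬ (P t ↔ P' t))) :
    Same (here Λ o g i P) (here Λ o g i P') :=
  h.same_of_eq (Λ.area_ctx _) subset_rfl (Λ.thru_T _ _ _) subset_rfl (Λ.thru_T _ _ _) subset_rfl
    (Λ.thru_T _ _ _) fun a _ hn => by
      rw [Bool.eq_iff_iff]
      simp only [here, Level.T, Level.win_val_iff] at hn ⊢
      refine exists_congr fun q => and_congr_right fun hq => and_congr_right fun hat => ?_
      by_contra hne
      exact Bool.false_ne_true (hn.symm.trans ((Λ.win_val_iff _ _ a).2 ⟨q, hq, hat, hne⟩))

lemma here_congr (i : Z5) {P P' : Common.St C → Prop}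
    (h : ∀ t, (pos5 C L).At g i t → (P t ↔ P' t)) : here Λ o g i P = here Λ o g i P' :=
  Λ.T_congr o i fun t => and_congr_right (h t)

section
include hl

lemma com_here_true {o' : S.Obs} (hu : Under Λ o g o') (i : Z5) :
    Com (here Λ o g i fun _ => True) o' := by
  rw [here, Λ.T_congr o i (P' := (pos5 C L).At g i) fun t => and_iff_left trivial]
  exact Same.com (Level.same_at (pos5 C L) hl o g i) hu.grid

/-- A property that never holds at the place commutes. -/
lemma com_here_never {o' : S.Obs} (hu : Under Λ o g o') {i : Z5} {P : Common.St C → Prop}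
    (h : Null (here Λ o g i P)) : Com (here Λ o g i P) o' :=
  Null.com h hu.ctx o'.thru_id

/-- A fixed field is known. -/
lemma Fix.know {β : Type} {i : Z5} {f : Common.St C → β} {c : β} (hf : Fix Λ o g i f c)
    {o' : S.Obs} (hu : Under Λ o g o') : Know Λ o g o' i f := by
  intro c'
  by_cases hc : c = c'
  · subst hc
    refine Same.com (same_here_of_null (P' := fun _ => True) ?_) (com_here_true hl hu i)
    rw [here_congr (P' := fun t => f t ≠ c) i fun t _ => by simp]
    exact hf
  · refine Same.com (same_here_of_null (P' := fun _ => False) ?_) (com_here_never hl hu ?_)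
    · refine null_of_le (ι := Unit) (fun _ => here Λ o g i fun t => f t ≠ c) (Λ.area_ctx _)
        subset_rfl (Λ.thru_T _ _ _) (fun _ => subset_rfl) (fun _ => Λ.thru_T _ _ _) (fun _ => hf)
        fun a _ hv => ⟨(), ?_⟩
      simp only [here, Level.T, Level.win_val_iff] at hv ⊢
      obtain ⟨q, hq, hat, hne⟩ := hv
      exact ⟨q, hq, hat, fun he => hne (by simp [he, hc])⟩
    · exact null_of_false (Λ.ctx_T o i) subset_rfl (Λ.thru_T _ _ _) fun a _ => by
        rw [Bool.eq_false_iff]
        simp [here, Level.T, Level.win_val_iff]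

/-- A field is known if known fields of the tiles of a window determine it. -/
lemma Know.step {β : Type} {ι : Type} [Fintype ι] {δ : ι → Type} [∀ m, Fintype (δ m)] {i : Z5}
    {o' : S.Obs} (hu : Under Λ o g o') (d : Dir) (f : Common.St C → β) (ds : ι → Dir)
    (fs : ∀ m, Common.St C → δ m) (hk : ∀ m, Know Λ o g o' (i - dir (ds m)) (fs m))
    (h : ∀ q q', Valid L q → Valid L q' → (pos5 C L).At g i (q d₀) → (pos5 C L).At g i (q' d₀) →
      (∀ m, fs m (q (ds m)) = fs m (q' (ds m))) → f (q d) = f (q' d)) :
    Know Λ o g o' (i - dir d) f := by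
  intro c
  refine Level.com_step_at (pos5 C L) hl hu.ctx o'.thru_id (ι := Σ m, δ m) i d (fun t => f t = c)
    (fun p => ds p.1) (fun p t => fs p.1 t = p.2) ?_ (hu.top i) hu.grid fun p => hk p.1 p.2
  intro q q' hq hq' hat hat' he
  rw [h q q' hq hq' (at_corner hq hat) (at_corner hq' hat') fun m =>
    ((he ⟨m, fs m (q (ds m))⟩).1 rfl).symm]

end

end Vale.Agent.P193.W4.A5
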