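import Vale.Agent.P193.W4.A5.Spec
import Vale.Agent.P193.W4.Common.Desub.Final

/-!
P193, module W4 (A5): the window of the parents read from a corner.

A family of bits shows at most one bounded state, the decoded one. A corner shows that its own
family is that of a good state, correctly related to the five behind it, and its scanning column
carries what that state hands down. If this holds of all families, the decoded window is valid.
-/

noncomputable section

namespace Vale.Agent.P193.W4.A5

open Common
open scoped Classical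

variable {C : Cfg} {L : ℕ}

/-! ### Decoding one family of bits -/

lemma lastK_ge : A C ≤ lastK C L + 1 := by
  unfold lastK
  omega

/-- The number rows are rows in use. -/
lemma numRow_le {i τ : ℕ} (hi : i ≤ L) (hτ : τ < T C) : A C + T C * i + τ ≤ lastK C L := by
  have h := Nat.mul_le_mul_left (T C) hi
  unfold lastK
  omega

/-- The finite data shown are those with these rows. -/
lemma finOf_eq {β : ℕ → Bool} {s : Cell C} (h : ∀ k < A C, finBits s k = β k) : finOf β = s :=
  Common.finBits_inj fun k hk =>
    (Classical.epsilon_spec (p := fun s : Cell C => ∀ k < A C, finBits s k = β k) ⟨s, h⟩ k hk).trans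
      (h k hk).symm

lemma finOf_congr {β β' : ℕ → Bool} (h : ∀ k < A C, β k = β' k) :
    (finOf β : Cell C) = finOf β' := by
  have e : (fun s : Cell C => ∀ k < A C, finBits s k = β k) = fun s => ∀ k < A C,
      finBits s k = β' k := funext fun s => propext
    ⟨fun hs k hk => (hs k hk).trans (h k hk), fun hs k hk => (hs k hk).trans (h k hk).symm⟩
  unfold finOf
  rw [e]

/-- The decoded state only reads the rows in use. -/
theorem decT_congr {β β' : ℕ → Bool} (h : ∀ k ≤ lastK C L, β k = β' k) :
    decT (C := C) L β = decT L β' := by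
  have hf : (finOf β : Cell C) = finOf β' :=
    finOf_congr fun k hk => h k (by have := lastK_ge (C := C) (L := L); omega)
  have hn : ∀ τ < T C, numOf C L (fun k _ => β k) Common.self τ =
      numOf C L (fun k _ => β' k) Common.self τ := fun τ hτ =>
    congrArg Nat.ofBits (funext fun i => h _ (numRow_le (Nat.le_of_lt_succ i.isLt) hτ))
  have hT := T_ge (C := C)
  have hw : (fun r : Track C => numOf C L (fun k _ => β k) Common.self (7 + r.val)) =
      fun r => numOf C L (fun k _ => β' k) Common.self (7 + r.val) :=
    funext fun r => hn _ (by have := r.isLt; omega)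
  simp only [decT, decodeSt]
  rw [hf, hn 0 (by omega), hn 1 (by omega), hn 2 (by omega), hn 3 (by omega), hn 4 (by omega),
    hn 5 (by omega), hn 6 (by omega), hw]

/-- A component of shown bits is decoded from its rows. -/
lemma decT_eq {b : ℕ → Bits} {g : Guest} {s : Cell C} (h : ∀ k < A C, finBits s k = b k g) :
    decT L (fun k => b k g) = decodeSt L b g s := by
  have e : finOf (fun k => b k g) = s := finOf_eq h
  rw [decT, e]
  rfl

/-- Only one bounded state is shown. -/
theorem decT_unique {t : Common.St C} {β : ℕ → Bool} (ht : InBounds (L + 1) t)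
    (he : ∀ k ≤ lastK C L, enc (L + 1) t k = β k) : t = decT L β := by
  have hfo : finOf β = cell (L + 1) t := finOf_eq fun k hk => by
    have := he k (by have := lastK_ge (C := C) (L := L); omega)
    rwa [enc, if_pos hk] at this
  have hT := T_ge (C := C)
  have hnum : ∀ τ < C.k + 9, num (L + 1) t τ = num (L + 1) (decT L β) τ := fun τ hτ => by
    rw [decT, Decode.num_decode, if_pos hτ]
    refine Nat.eq_of_testBit_eq fun i => ?_
    rcases Nat.lt_or_ge i (L + 1) with hi | hi
    · have e := he _ (numRow_le (show i ≤ L by omega) (show τ < T C by omega))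
      rw [Desub.enc_num _ _ (show τ < T C by omega), decide_eq_true hi, Bool.true_and] at e
      rw [e, numOf, Nat.testBit_ofBits, dif_pos hi]
    · have hle := Nat.pow_le_pow_right (show 0 < 2 by norm_num) hi
      rw [Nat.testBit_lt_two_pow ((Scanning.num_lt ht τ).trans_le hle),
        Nat.testBit_lt_two_pow ((Decode.numOf_lt L _ _ τ).trans_le hle)]
  have hx : t.x = (decT L β).x := (Num.eq_iff_parts (L + 1) _ _).2
    ⟨hnum 0 (by omega), hnum 1 (by omega), hnum 2 (by omega)⟩
  have hy : t.y = (decT L β).y := (Num.eq_iff_parts (L + 1) _ _).2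
    ⟨hnum 3 (by omega), hnum 4 (by omega), hnum 5 (by omega)⟩
  have hu : t.u = (decT L β).u := hnum 6 (by omega)
  have hw : t.w = (decT L β).w := funext fun r => by
    have := r.isLt
    have e := hnum (7 + r.val) (by omega)
    rwa [Scanning.num_track, Scanning.num_track] at e
  have hz : t.z = (decT L β).z := by
    show t.z = (finOf β).2.ex.z
    rw [hfo]
    rfl
  have hfin : t.fin = (decT L β).fin := by
    show t.fin = (finOf β).1
    rw [hfo]
  generalize decT L β = d at hx hy hu hw hz hfin ⊢
  obtain ⟨x, y, u, w, z, f⟩ := t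
  obtain ⟨x', y', u', w', z', f'⟩ := d
  simp only at hx hy hu hw hz hfin
  subst hx hy hu hw hz hfin
  rfl

/-- A good family of bits shows only the decoded state. -/
theorem Single.unique {β : ℕ → Bool} (h : Single (C := C) L β) {t : Common.St C} :
    (InBounds (L + 1) t ∧ ∀ k ≤ lastK C L, enc (L + 1) t k = β k) ↔ t = decT L β :=
  ⟨fun ht => decT_unique ht.1 ht.2, fun e => e ▸ ⟨h.bounds, h.enc_eq⟩⟩

/-! ### Windows -/

/-- The conditions on all guests make the decoded window valid. -/
theorem decodeValidStatement : DecodeValidStatement C L := by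
  intro b hs h1 h2
  refine ⟨⟨fun gu => ⟨(h1 gu).bounds, (h1 gu).word⟩, h2, ?_⟩, fun gu => (h1 gu).table⟩
  rw [show sig (L + 1) (decW L b) = fun gu => finOf fun k => b k gu from
    funext fun gu => (h1 gu).cell_eq]
  exact hs

/-- What one corner shows of its parents. -/
theorem cornerParentStatement : CornerParentStatement C L := by
  intro hL c o hc
  obtain ⟨s, hs, hfin, hs0, hbd, hnum, hword, hedge, htab⟩ :=
    Common.cornerStatement C L hL c o hc
  set b := cornerBits L c o
  have hfo : ∀ g, finOf (fun k => b k g) = s g := fun g => finOf_eq fun k hk => hfin k hk g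
  have hdec : ∀ g, decT L (fun k => b k g) = decodeSt L b g (s g) := fun g =>
    decT_eq fun k hk => hfin k hk g
  refine ⟨?_, ⟨?_, ?_, fun k hk => ?_, ?_, fun hz => ?_⟩, fun a => ?_, ?_⟩
  · rw [show (fun gu => finOf fun k => b k gu) = s from funext hfo]
    exact hs
  · rw [hdec]
    exact hbd _
  · rw [hdec, hfo]
    exact hs0.symm
  · rw [hdec]
    by_cases hA : k < A C
    · rw [enc, if_pos hA]
      exact (congrArg (finBits · k) hs0.symm).trans (hfin k hA _)
    have hT := T_pos C
    have e : k = A C + T C * ((k - A C) / T C) + (k - A C) % T C := by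
      rw [Nat.add_assoc, Nat.div_add_mod]
      omega
    have hi : (k - A C) / T C ≤ L := by
      refine Nat.le_of_lt_succ ((Nat.div_lt_iff_lt_mul hT).2 ?_)
      rw [Nat.mul_comm, Nat.mul_succ]
      unfold lastK at hk
      omega
    rw [e, Desub.enc_num _ _ (Nat.mod_lt _ hT), decide_eq_true (Nat.lt_succ_of_le hi),
      Bool.true_and]
    exact (hnum _ hi _ (Nat.mod_lt _ hT) _).symm
  · rw [hdec]
    exact hword
  · rw [hdec] at hz ⊢
    exact htab hz
  · show EdgeNum (L + 1) a _ _
    rw [hdec, hdec]
    exact hedge a
  -- the scanning column carries what is handed down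
  obtain ⟨-, hbK, -, -⟩ := bounds_M hL
  have hM := nine_le_M hL
  have h30 : 1 ≤ 3 * M L := by omega
  have h37 : 3 * M L ≤ 7 * M L := by omega
  have hcH := (cornerH_lt (C := C) hL).1
  have hX3 := (slice_lt hL h37).1
  have hsl := slice_of_column (columnStatement C) L hL c o hc (3 * M L) h30 h37
  -- constant along the column
  have hconst : ∀ j, 1 ≤ j → j ≤ cornerH C L →
      (c (cornerAt o (3 * M L) j)).fin.pf = (c (cornerAt o (3 * M L) 1)).fin.pf := by
    intro j hj
    induction j, hj using Nat.le_induction with
    | base => exact fun _ => rfl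
    | succ j hj ih =>
      intro hle
      refine Eq.trans ((hc.y_step h30 h37 hle).2.pf ?_) (ih (by omega))
      have hsh := (columnStatement C L hL _ _ _ _ hsl.1 (j + 1) (by omega) hle).1.of_shell
        (table C) b hX3 (hle.trans_lt hcH)
      obtain ⟨-, hy, -, -, -⟩ := hsh.claims_eq (L := L)
      show (claims L (c (cornerAt o (3 * M L) (j + 1)))).isY0 = false
      rw [show (claims L (c (cornerAt o (3 * M L) (j + 1)))).isY0 =
        (claims L (child L (table C) b (3 * M L) (j + 1) (midZ C))).isY0 by
          simp only [Claims.isY0, hy], Bool.eq_false_iff]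
      exact fun h => Nat.succ_ne_zero j ((claims_y0 _ _ _ _ _ (hle.trans_lt hcH)).1 h)
  -- below the first wire row above those in use
  set yT := crossY L (lastK C L + 1) with hyT
  obtain ⟨hwT, hkT⟩ := crossY_spec hL (lastK C L + 1)
  rw [← hyT] at hwT hkT
  have hyTle : yT ≤ cornerH C L := crossY_le le_rfl
  obtain ⟨yD, hyD⟩ : ∃ yD, yT = yD + 1 :=
    ⟨yT - 1, by have := one_le_crossY L (lastK C L + 1); omega⟩
  obtain ⟨-, -, hr, -⟩ := rows_succ hL yD
  rw [← hyD] at hr
  obtain ⟨-, erT, -, hrD⟩ := hr hwT
  obtain ⟨hMD, ekD⟩ := hrD (by omega)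
  rw [hkT] at erT ekD
  have hYD : yD < H L := by omega
  have hYT : yD + 1 < H L := by omega
  have hcol3 : IsCol L (3 * M L) 3 ∧ lo L (3 * M L) = 0 :=
    (col0_iff (by omega)).2 (Nat.mul_comm _ _)
  have hAK := lastK_ge (C := C) (L := L)
  have hAF := AF_lt C
  obtain ⟨hacc, -, -⟩ := hc.above (j := yD) h30 h37 (by omega)
  have cols := fun j (h1 : M L ≤ j) (h2 : j ≤ cornerH C L) =>
    columnsStatement C L hL _ _ _ _ hsl.1 (table C) b hsl.2 j h2 (Or.inl h1)
  obtain ⟨eD, -, -⟩ := cols yD hMD (by omega)
  obtain ⟨eT, -, -⟩ := cols (yD + 1) (by omega) (by omega)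
  have hreads : Scanning.Reads C L b
      (Scanning.numsOf (L + 1) fun g => decodeSt L b g (s g)) (code (s Common.self).2) :=
    ⟨fun n hn => by rw [← hfin _ (by omega) _, finBits_claim _ hn], hnum⟩
  have hpf : (c (cornerAt o (3 * M L) yD)).fin.pf = readout (s Common.self).2 := by
    refine (hacc.1 (scan C L b (lastK C L)) ?_ ?_).2 _ (Scanning.copy_lastK hL hreads)
    · show (c (cornerAt o (3 * M L) yD)).fin.carry = _
      rw [eD, child_carry _ _ _ _ _ hX3 hYD,
        if_pos ⟨hcol3.1, hcol3.2, hMD, by omega, by omega, middle_midZ⟩,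
        show rowIdx L yD = lastK C L by omega]
    · show (c (cornerAt o (3 * M L) (yD + 1))).fin.carry = none
      rw [eT, child_carry _ _ _ _ _ hX3 hYT, ← hyD, if_neg fun h => by rw [erT] at h; omega]
  intro j hj hj'
  rw [hconst j hj hj', ← hconst yD (by omega) (by omega), hpf, handed, decW, hdec]
  exact congrArg readout (congrArg Prod.snd hs0)

end Vale.Agent.P193.W4.A5
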