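import Vale.Agent.P193.W4.A5.Spec

/-!
P193, module W4 (A5): patches.

On a finite set of cells of one lattice whose areas form a context, either nothing is read or, up to
a null event, one coherent patch of tiles all whose windows are valid. The patch reaches one step
back of the cells. So statements about patches give equal and commuting events.
-/

noncomputable section

namespace Vale.Agent.P193.W4.A5

open BH BH.SFT Finset Common
open scoped Classical

/-- What is left of an event outside an equal one is null. -/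
lemma null_diff {S : SFT Lat} {A B : S.Obs} {h : Lat → S.A → S.A} {U : Finset Lat}
    (hAB : Same A B) (hU : Ctx h U) (hA : A.supp ⊆ U) (tA : A.Thru S h) (hB : B.supp ⊆ U)
    (tB : B.Thru S h) : Null (Obs.diff A B) :=
  same_of_fun (ι := Bool) (fun i => if i then A else B) (fun _ => B) (fun v => v true && !v false)
    hU hU (by simpa [union_subset_iff] using ⟨hA, hB⟩) (tA.diff tB) (by simp) (thru_bot h)
    (fun i => by cases i <;> simpa) (fun i => by cases i <;> simpa) (fun _ => hB) (fun _ => tB)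
    (fun p _ => by simp) (fun p _ => by simp)
    (fun i => by cases i; exacts [same_refl (hU.mono hB) tB, hAB])

variable {C : Cfg} {L : ℕ}

/-- A patch: the windows at the cells are valid. -/
def Patch (L : ℕ) (Cc : Finset Z5) (c : Z5 → Common.St C) : Prop :=
  ∀ i ∈ Cc, Valid L (quadAt c i)

/-- The places seen from a set of cells. -/
def places (Cc : Finset Z5) : Finset Z5 :=
  Cc.biUnion fun i => univ.image fun d : Dir => i - A5.dir d

lemma mem_places {Cc : Finset Z5} {x : Z5} :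
    x ∈ places Cc ↔ ∃ i ∈ Cc, ∃ d : Dir, i - A5.dir d = x := by
  simp [places]

lemma place_mem {Cc : Finset Z5} {i : Z5} (hi : i ∈ Cc) (d : Dir) :
    i - A5.dir d ∈ places Cc :=
  mem_places.2 ⟨i, hi, d, rfl⟩

lemma places_mono {Cc Cc' : Finset Z5} (h : Cc' ⊆ Cc) : places Cc' ⊆ places Cc :=
  biUnion_subset_biUnion_of_subset_left _ h

lemma sub_places (Cc : Finset Z5) : Cc ⊆ places Cc := fun i hi => by
  simpa using place_mem hi d₀

/-- A property of patches that looks only at the places seen from `Cc`. -/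
def LocalOn (Cc : Finset Z5) (P : (Z5 → Common.St C) → Prop) : Prop :=
  ∀ c c' : Z5 → Common.St C, (∀ x ∈ places Cc, c x = c' x) → (P c ↔ P c')

variable {S : SFT Lat}

section Defs

variable (Λ : Lv S C L)

/-- A state standing where nothing is read. -/
def junk (C : Cfg) (L : ℕ) : Common.St C := Common.shell C L 0 0 (midZ C)

/-- The tile at a place, read from one fixed window containing it. -/
def pat (o : Z5) (Cc : Finset Z5) (a : Lat → S.A) (x : Z5) : Common.St C :=
  if h : x ∈ places Cc then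
    (Λ.rd (Λ.cell o (mem_places.1 h).choose) a).elim (junk C L)
      fun q => q (mem_places.1 h).choose_spec.2.choose
  else junk C L

/-- All cells are origins. -/
def AllSome (o : Z5) (Cc : Finset Z5) (a : Lat → S.A) : Prop :=
  ∀ i ∈ Cc, (Λ.rd (Λ.cell o i) a).isSome = true

lemma rd_congr {o : Z5} {Cc : Finset Z5} {a b : Lat → S.A}
    (h : ∀ u ∈ Λ.areaU o Cc, a u = b u) {i : Z5} (hi : i ∈ Cc) :
    Λ.rd (Λ.cell o i) a = Λ.rd (Λ.cell o i) b :=
  Λ.rd_dep _ _ _ fun u hu => h u (Level.area_sub hi hu)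

lemma pat_congr {o : Z5} {Cc : Finset Z5} {a b : Lat → S.A}
    (h : ∀ u ∈ Λ.areaU o Cc, a u = b u) : pat Λ o Cc a = pat Λ o Cc b := by
  funext x
  unfold pat
  split_ifs with hx
  · rw [rd_congr Λ h (mem_places.1 hx).choose_spec.1]
  · rfl

/-- The event that all cells are origins and their patch has the property `P`. -/
def obsP (o : Z5) (Cc : Finset Z5) (P : (Z5 → Common.St C) → Prop) : S.Obs where
  supp := Λ.areaU o Cc
  val a := decide (AllSome Λ o Cc a ∧ P (pat Λ o Cc a))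
  dep a b h := by
    refine decide_eq_decide.2 (and_congr ?_ (by rw [pat_congr Λ h]))
    exact forall₂_congr fun i hi => by rw [rd_congr Λ h hi]

@[simp] lemma obsP_supp (o : Z5) (Cc : Finset Z5) (P : (Z5 → Common.St C) → Prop) :
    (obsP Λ o Cc P).supp = Λ.areaU o Cc := rfl

lemma obsP_val_iff (o : Z5) (Cc : Finset Z5) (P : (Z5 → Common.St C) → Prop) (a : Lat → S.A) :
    (obsP Λ o Cc P).val a = true ↔ AllSome Λ o Cc a ∧ P (pat Λ o Cc a) :=
  decide_eq_true_iff

lemma thru_obsP (o : Z5) (Cc : Finset Z5) (P : (Z5 → Common.St C) → Prop) :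
    (obsP Λ o Cc P).Thru S (whole S) :=
  (obsP Λ o Cc P).thru_id

/-- The failures of coherence on `Cc`. -/
def bad (o : Z5) (Cc : Finset Z5) : S.Obs where
  supp := Λ.areaU o Cc
  val a := decide (∃ i ∈ Cc, ∃ q, Λ.rd (Λ.cell o i) a = some q ∧
    ((∃ i' ∈ Cc, Λ.rd (Λ.cell o i') a = none) ∨
      ∃ i' ∈ Cc, ∃ q', Λ.rd (Λ.cell o i') a = some q' ∧
        ∃ d d' : Dir, i - A5.dir d = i' - A5.dir d' ∧ q d ≠ q' d'))
  dep a b h := by
    refine decide_eq_decide.2 (exists_congr fun i => and_congr_right fun hi => ?_)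
    rw [rd_congr Λ h hi]
    refine exists_congr fun q => and_congr_right fun _ => or_congr ?_ ?_
    · exact exists_congr fun i' => and_congr_right fun hi' => by rw [rd_congr Λ h hi']
    · exact exists_congr fun i' => and_congr_right fun hi' => by rw [rd_congr Λ h hi']

@[simp] lemma bad_supp (o : Z5) (Cc : Finset Z5) : (bad Λ o Cc).supp = Λ.areaU o Cc := rfl

lemma thru_bad (o : Z5) (Cc : Finset Z5) : (bad Λ o Cc).Thru S (whole S) :=
  (bad Λ o Cc).thru_id

end Defs

variable {Λ : Lv S C L} {o : Z5} {Cc : Finset Z5}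

/-- Outside a null event the windows read are coherent. -/
lemma bad_null (hl : Λ.Linked) (hU : Ctx (whole S) (Λ.areaU o Cc)) : Null (bad Λ o Cc) := by
  -- origins of one lattice come together
  have hex : ∀ p : Cc × Cc,
      Null (Obs.diff (Λ.T o p.1.1 fun _ => True) (Λ.T o p.2.1 fun _ => True)) :=
    fun p => null_diff (Level.same_lattice hl (fun _ _ => True) (fun _ _ _ _ => Iff.rfl) _ _) hU
      (Level.area_sub p.1.2) (Λ.thru_T _ _ _) (Level.area_sub p.2.2) (Λ.thru_T _ _ _)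
  -- two windows show one tile at one place
  let idx := {p : (Cc × Dir) × (Cc × Dir) // p.1.1.1 - A5.dir p.1.2 = p.2.1.1 - A5.dir p.2.2}
  let vals : idx → Finset (Common.St C) := fun p =>
    ((Λ.finite_range (Λ.cell o p.1.1.1.1)).toFinset).image fun r =>
      r.elim (junk C L) fun q => q p.1.1.2
  have hsh : ∀ p : Σ p : idx, {t // t ∈ vals p},
      Null (Obs.diff (Λ.win (Λ.cell o p.1.1.1.1.1) fun q => q p.1.1.1.2 = p.2.1)
        (Λ.win (Λ.cell o p.1.1.2.1.1) fun q => q p.1.1.2.2 = p.2.1)) := fun p => by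
    refine null_diff ?_ hU (Level.area_sub p.1.1.1.1.2) (Λ.thru_win _ _)
      (Level.area_sub p.1.1.2.1.2) (Λ.thru_win _ _)
    refine (hl.tile o p.1.1.1.1.1 p.1.1.1.2 fun t => t = p.2.1).trans ?_
    rw [p.1.2]
    exact (hl.tile o p.1.1.2.1.1 p.1.1.2.2 fun t => t = p.2.1).symm
  refine null_of_le (ι := (Cc × Cc) ⊕ (Σ p : idx, {t // t ∈ vals p}))
    (Sum.elim (fun p => Obs.diff (Λ.T o p.1.1 fun _ => True) (Λ.T o p.2.1 fun _ => True))
      (fun p => Obs.diff (Λ.win (Λ.cell o p.1.1.1.1.1) fun q => q p.1.1.1.2 = p.2.1)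
        (Λ.win (Λ.cell o p.1.1.2.1.1) fun q => q p.1.1.2.2 = p.2.1)))
    hU subset_rfl (thru_bad Λ o Cc) ?_ ?_
    (fun m => by rcases m with m | m; exacts [hex m, hsh m]) ?_
  · rintro (m | m)
    · simpa [union_subset_iff] using And.intro (Level.area_sub (Λ := Λ) (o := o) m.1.2)
        (Level.area_sub (Λ := Λ) (o := o) m.2.2)
    · simpa [union_subset_iff] using And.intro (Level.area_sub (Λ := Λ) (o := o) m.1.1.1.1.2)
        (Level.area_sub (Λ := Λ) (o := o) m.1.1.2.1.2)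
  · rintro (m | m)
    · exact (Λ.thru_T _ _ _).diff (Λ.thru_T _ _ _)
    · exact (Λ.thru_win _ _).diff (Λ.thru_win _ _)
  intro a _ hv
  obtain ⟨i, hi, q, hq, hc⟩ := of_decide_eq_true hv
  rcases hc with ⟨i', hi', hn⟩ | ⟨i', hi', q', hq', d, d', hd, hne⟩
  · refine ⟨Sum.inl (⟨i, hi⟩, ⟨i', hi'⟩), ?_⟩
    simp [Level.T, Level.win, hq, hn]
  · refine ⟨Sum.inr ⟨⟨((⟨i, hi⟩, d), (⟨i', hi'⟩, d')), hd⟩, q d, mem_image.2
      ⟨some q, (Set.Finite.mem_toFinset _).2 ⟨a, hq⟩, rfl⟩⟩, ?_⟩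
    simp [Level.win, hq, hq', Ne.symm hne]

/-- Outside the bad event the patch shows the tiles of every window. -/
lemma pat_of_good {a : Lat → S.A} (hb : (bad Λ o Cc).val a = false) (hs : AllSome Λ o Cc a)
    {i : Z5} (hi : i ∈ Cc) {q : A5.Win (Common.St C)} (hq : Λ.rd (Λ.cell o i) a = some q)
    (d : Dir) : pat Λ o Cc a (i - A5.dir d) = q d := by
  have hx := place_mem hi d
  rw [pat, dif_pos hx]
  obtain ⟨hi', hd'⟩ := (mem_places.1 hx).choose_spec
  obtain ⟨q', hq'⟩ := Option.isSome_iff_exists.1 (hs _ hi')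
  rw [hq', Option.elim_some]
  by_contra hne
  refine (of_decide_eq_false hb) ⟨i, hi, q, hq, Or.inr ⟨_, hi', q', hq', d,
    hd'.choose, hd'.choose_spec.symm, Ne.symm hne⟩⟩

/-- Outside the bad event all cells show one patch of valid windows. -/
lemma patch_of_good {a : Lat → S.A} (ha : S.AdmissibleClass (whole S) (Λ.areaU o Cc) a)
    (hb : (bad Λ o Cc).val a = false) (hs : AllSome Λ o Cc a) :
    Patch L Cc (pat Λ o Cc a) := by
  intro i hi
  obtain ⟨q, hq⟩ := Option.isSome_iff_exists.1 (hs i hi)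
  have hv := Λ.valid _ a q (ha.coarsen (Level.area_sub hi) fun c _ _ _ h => h) hq
  convert hv using 1
  funext d
  exact pat_of_good hb hs hi hq d

/-- Properties agreeing on all patches are one event. -/
lemma same_patch (hl : Λ.Linked) (hU : Ctx (whole S) (Λ.areaU o Cc))
    {P P' : (Z5 → Common.St C) → Prop} (h : ∀ c, Patch L Cc c → (P c ↔ P' c)) :
    Same (obsP Λ o Cc P) (obsP Λ o Cc P') := by
  refine (bad_null hl hU).same_of_eq hU subset_rfl (thru_obsP _ _ _ _) subset_rfl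
    (thru_obsP _ _ _ _) subset_rfl (thru_bad _ _ _) fun a ha hb => ?_
  rw [Bool.eq_iff_iff, obsP_val_iff, obsP_val_iff]
  exact and_congr_right fun hs => h _ (patch_of_good ha hb hs)

/-- A property failing on all patches is null. -/
lemma null_patch (hl : Λ.Linked) (hU : Ctx (whole S) (Λ.areaU o Cc))
    {P : (Z5 → Common.St C) → Prop} (h : ∀ c, Patch L Cc c → ¬ P c) :
    Null (obsP Λ o Cc P) :=
  (same_patch hl hU (P' := fun _ => False) fun c hc => iff_false_intro (h c hc)).trans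
    (null_of_false hU subset_rfl (thru_obsP _ _ _ _) fun a _ => by simp [obsP])

/-- The tile at a place seen from the cells. -/
lemma same_place (hl : Λ.Linked) (hU : Ctx (whole S) (Λ.areaU o Cc)) {i : Z5} (hi : i ∈ Cc)
    (d : Dir) (P : Common.St C → Prop) :
    Same (Λ.T o (i - A5.dir d) P) (obsP Λ o Cc fun c => P (c (i - A5.dir d))) := by
  refine (hl.tile o i d P).symm.trans ?_
  refine (bad_null hl hU).same_of_eq hU (Level.area_sub hi) (Λ.thru_win _ _) subset_rfl
    (thru_obsP _ _ _ _) subset_rfl (thru_bad _ _ _) fun a _ hb => ?_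
  rw [Bool.eq_iff_iff, obsP_val_iff, Λ.win_val_iff]
  constructor
  · rintro ⟨q, hq, hP⟩
    have hs : AllSome Λ o Cc a := fun i' hi' => by
      by_contra hn
      exact (of_decide_eq_false hb) ⟨i, hi, q, hq, Or.inl ⟨i', hi', by simpa using hn⟩⟩
    exact ⟨hs, by rwa [pat_of_good hb hs hi hq d]⟩
  · rintro ⟨hs, hP⟩
    obtain ⟨q, hq⟩ := Option.isSome_iff_exists.1 (hs i hi)
    exact ⟨q, hq, by rwa [pat_of_good hb hs hi hq d] at hP⟩

/-- The tile at one of the cells. -/
lemma same_cell (hl : Λ.Linked) (hU : Ctx (whole S) (Λ.areaU o Cc)) {i : Z5} (hi : i ∈ Cc)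
    (P : Common.St C → Prop) : Same (Λ.T o i P) (obsP Λ o Cc fun c => P (c i)) := by
  simpa using same_place hl hU hi d₀ P

/-- A property of a part is the same event on the whole. -/
lemma same_sub (hl : Λ.Linked) (hU : Ctx (whole S) (Λ.areaU o Cc)) {Cc' : Finset Z5}
    (hC : Cc' ⊆ Cc) (hne : Cc'.Nonempty) {P : (Z5 → Common.St C) → Prop} (hP : LocalOn Cc' P) :
    Same (obsP Λ o Cc' P) (obsP Λ o Cc P) := by
  refine (bad_null hl hU).same_of_eq hU (biUnion_subset_biUnion_of_subset_left _ hC)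
    (thru_obsP _ _ _ _) subset_rfl (thru_obsP _ _ _ _) subset_rfl (thru_bad _ _ _)
    fun a _ hb => ?_
  have hn : ¬ _ := of_decide_eq_false hb
  obtain ⟨i₀, h₀⟩ := hne
  have hb' : (bad Λ o Cc').val a = false := by
    refine decide_eq_false ?_
    rintro ⟨i, hi, q, hq, h | h⟩
    · obtain ⟨i', hi', h⟩ := h
      exact hn ⟨i, hC hi, q, hq, Or.inl ⟨i', hC hi', h⟩⟩
    · obtain ⟨i', hi', h⟩ := h
      exact hn ⟨i, hC hi, q, hq, Or.inr ⟨i', hC hi', h⟩⟩
  have hsome : AllSome Λ o Cc' a ↔ AllSome Λ o Cc a := by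
    refine ⟨fun hs i hi => ?_, fun hs i hi => hs i (hC hi)⟩
    obtain ⟨q, hq⟩ := Option.isSome_iff_exists.1 (hs i₀ h₀)
    by_contra hnone
    exact hn ⟨i₀, hC h₀, q, hq, Or.inl ⟨i, hi, by simpa using hnone⟩⟩
  rw [Bool.eq_iff_iff, obsP_val_iff, obsP_val_iff, ← hsome]
  refine and_congr_right fun hs => hP _ _ fun x hx => ?_
  obtain ⟨i, hi, d, rfl⟩ := mem_places.1 hx
  obtain ⟨q, hq⟩ := Option.isSome_iff_exists.1 (hs i hi)
  rw [pat_of_good hb' hs hi hq d, pat_of_good hb (hsome.1 hs) (hC hi) hq d]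

/-- Properties equivalent on the patches of a common context are one event. -/
lemma same_common (hl : Λ.Linked) (hU : Ctx (whole S) (Λ.areaU o Cc)) {C₁ C₂ : Finset Z5}
    (h₁ : C₁ ⊆ Cc) (h₂ : C₂ ⊆ Cc) (n₁ : C₁.Nonempty) (n₂ : C₂.Nonempty)
    {P P' : (Z5 → Common.St C) → Prop} (hP : LocalOn C₁ P) (hP' : LocalOn C₂ P')
    (h : ∀ c, Patch L Cc c → (P c ↔ P' c)) : Same (obsP Λ o C₁ P) (obsP Λ o C₂ P') :=
  (same_sub hl hU h₁ n₁ hP).trans
    ((same_patch hl hU h).trans (same_sub hl hU h₂ n₂ hP').symm)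

/-- A property that is, on patches, one of finitely many commuting properties commutes. -/
lemma com_patch (hl : Λ.Linked) (hU : Ctx (whole S) (Λ.areaU o Cc)) {o' : S.Obs}
    {g' : Lat → S.A → S.A} (ho' : Ctx g' o'.supp) (hto' : o'.Thru S g') {ι : Type} [Finite ι]
    (Ps : ι → (Z5 → Common.St C) → Prop) {P : (Z5 → Common.St C) → Prop}
    (hdet : ∀ c, Patch L Cc c → (P c ↔ ∃ m, Ps m c))
    (hcom : ∀ m, Com (obsP Λ o Cc (Ps m)) o') : Com (obsP Λ o Cc P) o' := by
  have := Fintype.ofFinite ι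
  refine (bad_null hl hU).com_of_determined (fun m => obsP Λ o Cc (Ps m)) hU subset_rfl
    (thru_obsP _ _ _ _) subset_rfl (thru_bad _ _ _) (fun _ => subset_rfl)
    (fun _ => thru_obsP _ _ _ _) ho' hto' (fun a b ha hb na nb hab => ?_) hcom
  have key : ∀ x : Lat → S.A, S.AdmissibleClass (whole S) (Λ.areaU o Cc) x →
      (bad Λ o Cc).val x = false →
      ((obsP Λ o Cc P).val x = true ↔ ∃ m, (obsP Λ o Cc (Ps m)).val x = true) := by
    intro x hx nx
    simp only [obsP_val_iff]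
    constructor
    · rintro ⟨hs, hv⟩
      exact ((hdet _ (patch_of_good hx nx hs)).1 hv).imp fun m hm => ⟨hs, hm⟩
    · rintro ⟨m, hs, hm⟩
      exact ⟨hs, (hdet _ (patch_of_good hx nx hs)).2 ⟨m, hm⟩⟩
  rw [Bool.eq_iff_iff, key a ha na, key b hb nb]
  simp only [hab]

/-- A property determined on patches by commuting properties and by being read commutes. -/
lemma com_patch_det (hl : Λ.Linked) (hU : Ctx (whole S) (Λ.areaU o Cc)) {o' : S.Obs}
    {g' : Lat → S.A → S.A} (ho' : Ctx g' o'.supp) (hto' : o'.Thru S g') {ι : Type} [Finite ι]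
    (Ps : ι → (Z5 → Common.St C) → Prop) {P : (Z5 → Common.St C) → Prop}
    (hdet : ∀ c c', Patch L Cc c → Patch L Cc c' → (∀ m, Ps m c ↔ Ps m c') → (P c ↔ P c'))
    (hread : Com (obsP Λ o Cc fun _ => True) o')
    (hcom : ∀ m, Com (obsP Λ o Cc (Ps m)) o') : Com (obsP Λ o Cc P) o' := by
  have := Fintype.ofFinite ι
  refine (bad_null hl hU).com_of_determined
    (fun m : Option ι => obsP Λ o Cc (m.elim (fun _ => True) Ps)) hU subset_rfl
    (thru_obsP _ _ _ _) subset_rfl (thru_bad _ _ _) (fun _ => subset_rfl)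
    (fun _ => thru_obsP _ _ _ _) ho' hto' (fun a b ha hb na nb hab => ?_)
    (fun m => by cases m; exacts [hread, hcom _])
  have h0 : AllSome Λ o Cc a ↔ AllSome Λ o Cc b := by
    have := hab none
    rw [Bool.eq_iff_iff, obsP_val_iff, obsP_val_iff] at this
    simpa using this
  rw [Bool.eq_iff_iff, obsP_val_iff, obsP_val_iff, ← h0]
  refine and_congr_right fun hs => hdet _ _ (patch_of_good ha na hs)
    (patch_of_good hb nb (h0.1 hs)) fun m => ?_
  have := hab (some m)
  rw [Bool.eq_iff_iff, obsP_val_iff, obsP_val_iff] at this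
  simpa [hs, h0.1 hs] using this

/-! ### The slice of a corner -/

variable (C L) in
/-- The cells of the slice of the corner with origin `o₀`. -/
def sliceCells (o₀ : Z5) : Finset Z5 :=
  (Icc 1 (7 * M L) ×ˢ Icc 1 (cornerH C L)).image fun p => cornerAt o₀ p.1 p.2

lemma mem_sliceCells {o₀ : Z5} {i j : ℕ} (hi : 1 ≤ i) (hi' : i ≤ 7 * M L) (hj : 1 ≤ j)
    (hj' : j ≤ cornerH C L) : cornerAt o₀ i j ∈ sliceCells C L o₀ :=
  mem_image.2 ⟨(i, j), mem_product.2 ⟨mem_Icc.2 ⟨hi, hi'⟩, mem_Icc.2 ⟨hj, hj'⟩⟩, rfl⟩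

lemma cornerAt_span (o₀ : Z5) {u v i j i' j' : ℕ} (hi : 1 ≤ i ∧ i ≤ u) (hj : 1 ≤ j ∧ j ≤ v)
    (hi' : 1 ≤ i' ∧ i' ≤ u) (hj' : 1 ≤ j' ∧ j' ≤ v) (a : Fin 5) :
    (cornerAt o₀ i' j' a - cornerAt o₀ i j a).natAbs ≤
      (![u - 1, v - 1, 0, 0, 0] : Fin 5 → ℕ) a := by
  fin_cases a <;> simp [cornerAt] <;> omega

/-- The span of the slice. -/
lemma sliceCells_span {o₀ : Z5} {x y : Z5} (hx : x ∈ sliceCells C L o₀)
    (hy : y ∈ sliceCells C L o₀) (a : Fin 5) : (y a - x a).natAbs ≤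
      ![7 * M L - 1, cornerH C L - 1, 0, 0, 0] a := by
  obtain ⟨⟨i, j⟩, hij, rfl⟩ := mem_image.1 hx
  obtain ⟨⟨i', j'⟩, hij', rfl⟩ := mem_image.1 hy
  obtain ⟨h1, h2⟩ := mem_product.1 hij
  obtain ⟨h3, h4⟩ := mem_product.1 hij'
  exact cornerAt_span o₀ (mem_Icc.1 h1) (mem_Icc.1 h2) (mem_Icc.1 h3) (mem_Icc.1 h4) a

/-- A patch on the slice is a corner. -/
lemma Patch.corner {o₀ : Z5} {c : Z5 → Common.St C} (h : Patch L (sliceCells C L o₀) c)
    (hx : (c o₀).x = 0) (hy : (c o₀).y = 0) (hz : ∀ i, ((c o₀).z i).val = 0) :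
    Corner L c o₀ :=
  ⟨fun _ _ hi hi' hj hj' => h _ (mem_sliceCells hi hi' hj hj'), hx, hy, hz⟩

/-- The origin of a corner is seen from its slice. -/
lemma origin_eq (o₀ : Z5) : cornerAt o₀ 1 1 - A5.dir (fun _ => true) = o₀ := by
  funext a
  fin_cases a <;> simp [cornerAt, A5.dir] <;> rfl

end Vale.Agent.P193.W4.A5
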