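import Vale.Agent.P193.W4.A5.Meet
import Vale.Agent.P193.W4.A5.Parent
import Vale.Agent.P193.W4.A5.Patch

/-!
P193, module W4 (A5): outside a null event the slice at the first position of a parent shows a valid
window of parents.

The column of a guest is one event with the column of the parent shown there, whose own slice shows
it as a good state.
-/

noncomputable section

namespace Vale.Agent.P193.W4.A5

open BH BH.SFT Finset Common
open scoped Classical

variable {C : Cfg} {L : ℕ} {S : SFT Lat}

/-- The cell at the first position of the parent `P`. -/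
def orig (C : Cfg) (L : ℕ) (g P : Z5) : Z5 := parCell C L g P fun _ => 0

/-- The slice of the parent `P`. -/
def sliceOf (C : Cfg) (L : ℕ) (g P : Z5) : Finset Z5 := sliceCells C L (orig C L g P)

lemma cornerAt_parCell (g P : Z5) (i j : ℕ) :
    cornerAt (orig C L g P) i j = parCell C L g P ![i, j, 1, 1, 1] := by
  funext a
  fin_cases a <;> simp [cornerAt, orig, parCell] <;> ring

lemma cross_slice (g P : Z5) (k : ℕ) :
    parCell C L g P (crossPos L k) = cornerAt (orig C L g P) (crossX L k) (crossY L k) :=
  (cornerAt_parCell g P _ _).symm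

lemma cross_range (hL : L₀ C ≤ L) {k : ℕ} (hk : k ≤ lastK C L) :
    (1 ≤ crossX L k ∧ crossX L k ≤ 7 * M L) ∧ 1 ≤ crossY L k ∧ crossY L k ≤ cornerH C L :=
  ⟨Common.crossX_range hL hk, Common.one_le_crossY L k, Common.crossY_le (by omega)⟩

lemma slice_nonempty (hL : L₀ C ≤ L) :
    1 ≤ 7 * M L ∧ 1 ≤ cornerH C L := by
  have := M_pos L
  unfold cornerH
  omega

/-- On a patch on the slice the positions are decided at the first cell. -/
lemma patch_at_iff {g o₀ : Z5} {c : Z5 → Common.St C} (h : Patch L (sliceCells C L o₀) c) {i j : ℕ}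
    (hi : 1 ≤ i) (hi' : i ≤ 7 * M L) (hj : 1 ≤ j) (hj' : j ≤ cornerH C L) :
    (pos5 C L).At g (cornerAt o₀ i j) (c (cornerAt o₀ i j)) ↔ (pos5 C L).At g o₀ (c o₀) := by
  have step : ∀ x ∈ sliceCells C L o₀, ∀ d : Dir,
      (pos5 C L).At g x (c x) ↔ (pos5 C L).At g (x - A5.dir d) (c (x - A5.dir d)) := fun x hx d => by
    have h1 := (pos5 C L).at_step (h x hx) g x d
    have e : x - Common.dir d₀ = x := funext fun a => by simp [Common.dir, d₀]
    change (pos5 C L).At g x (c (x - Common.dir d₀)) ↔ _ at h1
    rw [e] at h1
    exact h1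
  have hy : ∀ j, 1 ≤ j → j ≤ cornerH C L → ∀ i, 1 ≤ i → i ≤ 7 * M L →
      ((pos5 C L).At g (cornerAt o₀ i j) (c (cornerAt o₀ i j)) ↔
        (pos5 C L).At g (cornerAt o₀ i 1) (c (cornerAt o₀ i 1))) := by
    intro j hj
    induction j, hj using Nat.le_induction with
    | base => exact fun _ i _ _ => Iff.rfl
    | succ j hj ih =>
      intro hle i hi hi'
      have e : cornerAt o₀ i (j + 1) - A5.dir (axis 1) = cornerAt o₀ i j := by
        funext a
        simp only [cornerAt, A5.dir, axis, Pi.sub_apply, Pi.add_apply]
        fin_cases a <;> simp <;> omega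
      have := step _ (mem_sliceCells hi hi' (by omega) hle) (axis 1)
      rw [e] at this
      exact this.trans (ih (by omega) i hi hi')
  have hx : ∀ i, 1 ≤ i → i ≤ 7 * M L →
      ((pos5 C L).At g (cornerAt o₀ i 1) (c (cornerAt o₀ i 1)) ↔
        (pos5 C L).At g (cornerAt o₀ 1 1) (c (cornerAt o₀ 1 1))) := by
    intro i hi
    induction i, hi using Nat.le_induction with
    | base => exact fun _ => Iff.rfl
    | succ i hi ih =>
      intro hle
      have e : cornerAt o₀ (i + 1) 1 - A5.dir (axis 0) = cornerAt o₀ i 1 := by
        funext a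
        simp only [cornerAt, A5.dir, axis, Pi.sub_apply, Pi.add_apply]
        fin_cases a <;> simp <;> omega
      have := step _ (mem_sliceCells (by omega) hle le_rfl (hj.trans hj')) (axis 0)
      rw [e] at this
      exact this.trans (ih (by omega))
  have h0 := step _ (mem_sliceCells le_rfl (hi.trans hi') le_rfl (hj.trans hj')) fun _ => true
  rw [origin_eq] at h0
  exact ((hy j hj hj' i hi hi').trans (hx i hi hi')).trans h0

/-- A patch on the slice of a parent at its place is a corner. -/
lemma patch_corner {g P : Z5} {c : Z5 → Common.St C} (h : Patch L (sliceOf C L g P) c)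
    (h0 : (pos5 C L).At g (orig C L g P) (c (orig C L g P))) : Corner L c (orig C L g P) := by
  obtain ⟨hx, hy, hz⟩ := at_coords h0
  have hp : ∀ a, px C L g (orig C L g P) a = 0 := fun a => px_parCell P (fun a => sizeOf_pos a) a
  refine h.corner (hx.trans (hp 0)) (hy.trans (hp 1)) fun i => ?_
  rw [hz]
  exact hp (zAx i)

variable (Λ : Lv S C L) (o g : Z5)

/-- The event that the slice of `P` is at its place and shows bits with a property. -/
def headObs (P : Z5) (Q : (ℕ → Bits) → Prop) : S.Obs :=
  obsP Λ o (sliceOf C L g P) fun c =>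
    (pos5 C L).At g (orig C L g P) (c (orig C L g P)) ∧ Q (cornerBits L c (orig C L g P))

variable {Λ o g} (hL : L₀ C ≤ L) (hl : Λ.Linked)
  (hU : ∀ P, Ctx (whole S) (Λ.areaU o (sliceOf C L g P)))

include hL hl hU

/-- Being at the place is the grid. -/
lemma same_head_grid (P : Z5) :
    Same (headObs Λ o g P fun _ => True) (Level.gridObs (pos5 C L) Λ o g) := by
  obtain ⟨h7, hH⟩ := slice_nonempty (C := C) hL
  have hm : cornerAt (orig C L g P) 1 1 ∈ sliceOf C L g P := mem_sliceCells le_rfl h7 le_rfl hH
  refine (Same.trans ?_ (same_cell hl (hU P) hm ((pos5 C L).At g _)).symm).trans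
    (Level.same_at (pos5 C L) hl o g _)
  exact same_patch hl (hU P) fun c hc => by
    rw [and_iff_left trivial]
    exact (patch_at_iff hc le_rfl h7 le_rfl hH).symm

/-- A bit read in the slice is the own bit of the parent shown. -/
lemma same_head_bit (P : Z5) (gu : Guest) {k : ℕ} (hk : k ≤ lastK C L) :
    Same (headObs Λ o g P fun b => b k gu = true)
      (atomObs Λ o g (P - A5.dir gu) k true) := by
  obtain ⟨⟨x1, x2⟩, y1, y2⟩ := cross_range hL hk
  refine Same.trans ?_ (linkStatement Λ hL hl o g P gu k hk true)
  rw [cross_slice]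
  refine Same.trans ?_ (same_cell hl (hU P) (mem_sliceCells x1 x2 y1 y2)
    fun t => (pos5 C L).At g (cornerAt (orig C L g P) (crossX L k) (crossY L k)) t ∧
      t.fin.h gu = true).symm
  exact same_patch hl (hU P) fun c hc => by
    simp only [cornerBits, if_pos hk]
    rw [patch_at_iff hc x1 x2 y1 y2]

/-- Two columns shown at `P` and the same two shown at `P'` are one event. -/
lemma same_cols {P P' : Z5} {g₁ g₂ g₁' g₂' : Guest} (e₁ : P - A5.dir g₁ = P' - A5.dir g₁')
    (e₂ : P - A5.dir g₂ = P' - A5.dir g₂') (R : (ℕ → Bool) → (ℕ → Bool) → Prop) :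
    Same (headObs Λ o g P fun b => R (fun k => b k g₁) fun k => b k g₂)
      (headObs Λ o g P' fun b => R (fun k => b k g₁') fun k => b k g₂') := by
  let ms : Z5 → Guest → Guest → Option (Bool × Fin (lastK C L + 1)) → S.Obs := fun Q u w m =>
    m.elim (headObs Λ o g Q fun _ => True) fun p =>
      headObs Λ o g Q fun b => b p.2.val (if p.1 then u else w) = true
  let F : (Option (Bool × Fin (lastK C L + 1)) → Bool) → Bool := fun v =>
    decide (v none = true ∧
      R (fun k => if h : k < lastK C L + 1 then v (some (true, ⟨k, h⟩)) else false)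
        (fun k => if h : k < lastK C L + 1 then v (some (false, ⟨k, h⟩)) else false))
  have hF : ∀ (Q : Z5) (u w : Guest) (a : Lat → S.A),
      (headObs Λ o g Q fun b => R (fun k => b k u) fun k => b k w).val a =
        F fun m => (ms Q u w m).val a := by
    intro Q u w a
    by_cases h : AllSome Λ o (sliceOf C L g Q) a ∧
        (pos5 C L).At g (orig C L g Q) (pat Λ o (sliceOf C L g Q) a (orig C L g Q))
    · have col : ∀ (s : Bool) (k : ℕ),
          (if h' : k < lastK C L + 1 then (ms Q u w (some (s, ⟨k, h'⟩))).val a else false) =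
            cornerBits L (pat Λ o (sliceOf C L g Q) a) (orig C L g Q) k (if s then u else w) := by
        intro s k
        by_cases hk : k < lastK C L + 1
        · rw [dif_pos hk, Bool.eq_iff_iff]
          simp [ms, headObs, obsP_val_iff, h]
        · rw [dif_neg hk, cornerBits, if_neg (by omega)]
      have c1 : (fun k => if h' : k < lastK C L + 1 then
          (ms Q u w (some (true, ⟨k, h'⟩))).val a else false) =
            fun k => cornerBits L (pat Λ o (sliceOf C L g Q) a) (orig C L g Q) k u :=
        funext fun k => col true k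
      have c2 : (fun k => if h' : k < lastK C L + 1 then
          (ms Q u w (some (false, ⟨k, h'⟩))).val a else false) =
            fun k => cornerBits L (pat Λ o (sliceOf C L g Q) a) (orig C L g Q) k w :=
        funext fun k => col false k
      rw [Bool.eq_iff_iff]
      simp only [F, decide_eq_true_iff, c1, c2]
      simp [ms, headObs, obsP_val_iff, h]
    · rw [Bool.eq_iff_iff]
      simp only [F, decide_eq_true_iff]
      simp [ms, headObs, obsP_val_iff]
      tauto
  refine same_of_fun (ms P g₁ g₂) (ms P' g₁' g₂') F (hU P) (hU P') subset_rfl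
    (thru_obsP _ _ _ _) subset_rfl (thru_obsP _ _ _ _)
    (fun m => by cases m <;> exact subset_rfl) (fun m => by cases m <;> exact Obs.thru_id _ _)
    (fun m => by cases m <;> exact subset_rfl) (fun m => by cases m <;> exact Obs.thru_id _ _)
    (fun a _ => hF P g₁ g₂ a) (fun a _ => hF P' g₁' g₂' a) fun m => ?_
  rcases m with _ | ⟨s, k⟩
  · exact (same_head_grid hL hl hU P).trans (same_head_grid hL hl hU P').symm
  · have hk : k.val ≤ lastK C L := Nat.le_of_lt_succ k.isLt
    refine (same_head_bit hL hl hU P _ hk).trans (Same.trans ?_ (same_head_bit hL hl hU P' _ hk).symm)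
    have e : P - A5.dir (if s then g₁ else g₂) = P' - A5.dir (if s then g₁' else g₂') := by
      cases s <;> simp [e₁, e₂]
    show Same (atomObs Λ o g (P - A5.dir (if s then g₁ else g₂)) k.val true)
      (atomObs Λ o g (P' - A5.dir (if s then g₁' else g₂')) k.val true)
    rw [e]
    exact same_refl (Λ.area_ctx _) (Obs.thru_id _ _)

omit hL in
/-- A property which every corner shows is not failed. -/
lemma null_shown (P : Z5) (Q : (ℕ → Bits) → Prop)
    (h : ∀ (c : Z5 → Common.St C) o₀, Corner L c o₀ → Q (cornerBits L c o₀)) :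
    Null (headObs Λ o g P fun b => ¬ Q b) :=
  null_patch hl (hU P) fun _ hc hn => hn.2 (h _ _ (patch_corner hc hn.1))

/-- Outside a null event the slice at the first position shows a valid window of parents. -/
theorem null_head (P : Z5) :
    Null (headObs Λ o g P fun b => ¬ Valid (C := C) (L + 1) (decW L b)) := by
  have back_eq : ∀ (gu : Guest) (a : Fin 5), gu a = false →
      P - A5.dir (Common.back gu a) = P - A5.dir gu - A5.dir (axis a) := fun gu a hg => by
    funext c
    by_cases hc : c = a
    · subst hc; simp [A5.dir, Common.back, axis, hg]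
    · simp [A5.dir, Common.back, axis, hc]
  have self_eq : ∀ Q : Z5, Q - A5.dir (Common.self : Guest) = Q := fun Q => by
    funext c; simp [A5.dir, Common.self]
  refine null_of_le (ι := Option (Guest ⊕ {p : Guest × Fin 5 // p.1 p.2 = false}))
    (fun m => headObs Λ o g P fun b => match m with
      | none => ¬ InS (C := C) (fun gu => finOf fun k => b k gu)
      | some (Sum.inl gu) => ¬ Single (C := C) L fun k => b k gu
      | some (Sum.inr p) => ¬ A5.Pair (C := C) L p.1.2 (fun k => b k p.1.1)
          fun k => b k (Common.back p.1.1 p.1.2))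
    (hU P) subset_rfl (thru_obsP _ _ _ _) (fun _ => subset_rfl) (fun _ => thru_obsP _ _ _ _)
    (fun m => ?_) fun a _ hv => ?_
  · rcases m with _ | gu | ⟨⟨gu, a⟩, hga⟩
    · exact null_shown hl hU P (fun b => InS (C := C) fun gu => finOf fun k => b k gu)
        fun c o₀ hc => (cornerParentStatement hL c o₀ hc).1
    · refine Null.of_same (same_cols hL hl hU (P := P) (P' := P - A5.dir gu) (g₁ := gu) (g₂ := gu)
        (g₁' := Common.self) (g₂' := Common.self) (self_eq _).symm (self_eq _).symm
        (fun β _ => ¬ Single (C := C) L β)) ?_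
      exact null_shown hl hU _ (fun b => Single (C := C) L fun k => b k Common.self)
        fun c o₀ hc => (cornerParentStatement hL c o₀ hc).2.1
    · refine Null.of_same (same_cols hL hl hU (P := P) (P' := P - A5.dir gu) (g₁ := gu)
        (g₂ := Common.back gu a) (g₁' := Common.self) (g₂' := axis a) (self_eq _).symm
        (back_eq gu a hga) (fun β β' => ¬ A5.Pair (C := C) L a β β')) ?_
      exact null_shown hl hU _
        (fun b => A5.Pair (C := C) L a (fun k => b k Common.self) fun k => b k (axis a))
        fun c o₀ hc => (cornerParentStatement hL c o₀ hc).2.2.1 a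
  · simp only [headObs, obsP_val_iff] at hv ⊢
    obtain ⟨hs, hat, hb⟩ := hv
    by_contra hc
    push Not at hc
    refine hb (decodeValidStatement _ ?_ ?_ fun gu a hga => ?_)
    · by_contra h; exact hc none hs hat h
    · intro gu; by_contra h; exact hc (some (Sum.inl gu)) hs hat h
    · by_contra h; exact hc (some (Sum.inr ⟨(gu, a), hga⟩)) hs hat h

end Vale.Agent.P193.W4.A5
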