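import Vale.Agent.P193.W4.Interface

/-!
P193, module W4 (A5): the lattice as functions on five axes, the plane first.
-/

namespace Vale.Agent.P193.W4.A5

/-- Five coordinates: the two of the plane, then the three counters. -/
abbrev Z5 : Type := Fin 5 → ℤ

/-- The cell with the given five coordinates. -/
def cellOf (v : Z5) : Lat := Multiplicative.ofAdd ((fun i => v ⟨i.val + 2, by omega⟩), ![v 0, v 1])

/-- The five coordinates of a cell. -/
def coords (u : Lat) : Z5 :=
  let p := Multiplicative.toAdd u
  ![p.2 0, p.2 1, p.1 0, p.1 1, p.1 2]

@[simp] lemma coords_cellOf (v : Z5) : coords (cellOf v) = v := by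
  funext a
  fin_cases a <;> rfl

@[simp] lemma cellOf_coords (u : Lat) : cellOf (coords u) = u := by
  obtain ⟨z, p⟩ := u
  refine congrArg Multiplicative.ofAdd (Prod.ext (funext fun i => ?_) (funext fun i => ?_)) <;>
    fin_cases i <;> rfl

@[simp] lemma coords_mul (u w : Lat) : coords (u * w) = coords u + coords w := by
  funext a
  fin_cases a <;> rfl

lemma cellOf_add (v w : Z5) : cellOf (v + w) = cellOf v * cellOf w := by
  conv_rhs => rw [← cellOf_coords (cellOf v * cellOf w)]
  simp

lemma cellOf_injective : Function.Injective cellOf :=
  Function.LeftInverse.injective coords_cellOf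

end Vale.Agent.P193.W4.A5
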