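import Vale.Agent.P193.W4.A5.Spec
import Vale.Agent.P193.W4.A5.Base

/-!
P193, module W4 (A5): rigidity from the pieces.

On every level tiles one step apart on the counters commute, as all parents they depend on lie next
to each other. Two steps are added with the level above: there what a tile hands down commutes with
the tiles two steps away.
-/

noncomputable section

namespace Vale.Agent.P193.W4.A5

open BH BH.SFT Finset Common
open scoped Classical

variable {C : Cfg} {L : ℕ}

/-! ### The next level -/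

/-- The boxes covering what is read are small. -/
def SpanOK {S : SFT Lat} (Λ : Lv S C L) : Prop :=
  ∀ a : Fin 5, Λ.span a ≤ (if a.val < 2 then 2 else 1) * Λ.Q a

/-- The level of the parents, with the two events which tie it to this one. -/
structure IsUp {S : SFT Lat} (Λ : Lv S C L) (Λ' : Lv S C (L + 1)) : Prop where
  linked : Λ'.Linked
  span : SpanOK Λ'
  scale : ∀ a, Λ'.Q a = Λ.Q a * sizeOf' C L a
  bit : ∀ o g P : Z5, ∀ k ≤ lastK C L, ∀ c : Bool,
    Same (atomObs Λ o g P k c) (Λ'.T (Λ.cell o (-g)) P fun t => enc (L + 1) t k = c)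
  pf : ∀ (o g i : Z5) (c : PF C),
    Same (here Λ o g i fun t => t.fin.pf = c)
      (Λ'.T (Λ.cell o (-g)) (par C L g i) fun t => handed (L + 1) t = c)

variable (C) in
/-- Parents form a level. -/
def UpStatement : Prop :=
  ∀ L, L₀ C ≤ L → ∀ {S : SFT Lat} (Λ : Lv S C L), Λ.Linked → Λ.Meets (radius C L 1) → SpanOK Λ →
    ∃ Λ' : Lv S C (L + 1), IsUp Λ Λ'

/-- The pieces, for all levels. -/
structure Pieces (C : Cfg) : Prop where
  link : ∀ L, LinkStatement C L
  meet : ∀ L, MeetStatement C L
  pf : ∀ L, PfStatement C L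
  word : ∀ L, WordStatement C L
  handed : ∀ L, HandedStatement C L
  all : ∀ L, AllStatement C L
  up : UpStatement C

/-! ### Where the parents of two tiles lie -/

/-- The parent a tile depends on, on one axis. -/
def Dep (C : Cfg) (L : ℕ) (g i P : Z5) : Prop :=
  ∀ a, P a = par C L g i a ∨
    (P a = par C L g i a - 1 ∧ px C L g i a ≤ cutOf C L a)

/-- The same where at first digits only the parent behind counts. -/
def Dep' (C : Cfg) (L : ℕ) (g i P : Z5) : Prop :=
  ∀ a, (P a = par C L g i a ∧ (a.val < 2 ∨ 0 < px C L g i a)) ∨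
    (P a = par C L g i a - 1 ∧ px C L g i a ≤ cutOf C L a)

lemma Dep'.dep {g i P : Z5} (h : Dep' C L g i P) : Dep C L g i P := fun a =>
  (h a).imp (fun h => h.1) fun h => h

lemma dep_par (g i : Z5) : Dep C L g i (par C L g i) := fun _ => Or.inl rfl

lemma dep'_low (g i : Z5) : Dep' C L g i (low C L g i) := fun a => by
  by_cases h : 2 ≤ a.val ∧ px C L g i a = 0
  · refine Or.inr ⟨?_, by omega⟩
    simp [low, lowDir, A5.dir, h]
  · refine Or.inl ⟨?_, by omega⟩
    simp [low, lowDir, A5.dir, h]

lemma dep'_seen {g i : Z5} {gu : Guest} (h : Sees C L g i gu) :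
    Dep' C L g i (par C L g i - A5.dir gu) := fun a => by
  cases hg : gu a
  · refine Or.inl ⟨by simp [A5.dir, hg], Or.inr ?_⟩
    by_contra h0
    have := (h a).1 (by omega)
    rw [hg] at this
    cases this
  · refine Or.inr ⟨by simp [A5.dir, hg], ?_⟩
    by_contra h0
    have := (h a).2 (by omega)
    rw [hg] at this
    cases this

lemma coord_split (g i : Z5) (a : Fin 5) :
    (sizeOf' C L a : ℤ) * par C L g i a + (px C L g i a : ℤ) = g a + i a := by
  rw [px_cast]
  exact Int.mul_ediv_add_emod _ _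

lemma par_diff (g i i' : Z5) (a : Fin 5) (h : (i' a - i a).natAbs < sizeOf' C L a) :
    (par C L g i' a = par C L g i a ∧
        (px C L g i' a : ℤ) - px C L g i a = i' a - i a) ∨
      (par C L g i' a = par C L g i a + 1 ∧
        (px C L g i' a : ℤ) + sizeOf' C L a - px C L g i a = i' a - i a) ∨
      (par C L g i' a + 1 = par C L g i a ∧
        (px C L g i' a : ℤ) - sizeOf' C L a - px C L g i a = i' a - i a) := by
  have e1 := coord_split (C := C) (L := L) g i a
  have e2 := coord_split (C := C) (L := L) g i' a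
  have h1 := px_lt (C := C) (L := L) g i a
  have h2 := px_lt (C := C) (L := L) g i' a
  have e : (sizeOf' C L a : ℤ) * (par C L g i' a - par C L g i a) =
      (i' a - i a) - ((px C L g i' a : ℤ) - px C L g i a) := by linarith
  generalize hd : par C L g i' a - par C L g i a = d at e
  have h3 : d < 2 := by nlinarith [abs_lt.1 (show |i' a - i a| < (sizeOf' C L a : ℤ) by
    rw [← Int.natCast_natAbs]; exact_mod_cast h)]
  have h4 : -2 < d := by nlinarith [abs_lt.1 (show |i' a - i a| < (sizeOf' C L a : ℤ) by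
    rw [← Int.natCast_natAbs]; exact_mod_cast h)]
  rcases (show d = 0 ∨ d = 1 ∨ d = -1 by omega) with rfl | rfl | rfl
  · exact Or.inl ⟨by omega, by omega⟩
  · exact Or.inr (Or.inl ⟨by omega, by omega⟩)
  · exact Or.inr (Or.inr ⟨by omega, by omega⟩)

/-- The gap between the last shown position and the end of a parent. -/
lemma gap (hL : L₀ C ≤ L) (a : Fin 5) :
    cutOf C L a < sizeOf' C L a ∧ radius C L 1 a + cutOf C L a + 1 = sizeOf' C L a ∧
      radius C L 2 a < sizeOf' C L a ∧ 2 ≤ radius C L 2 a ∧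
      (a.val < 2 → radius C L 2 a = radius C L 1 a) ∧
      (2 ≤ a.val → radius C L 2 a = 2 ∧ radius C L 1 a = 1) := by
  obtain ⟨c1, c2, c3, c4⟩ := cuts_lt (C := C) hL
  have hb := base_ge C.k
  have hM := nine_le_M hL
  have hbig : cutX L + 3 ≤ H L ∧ halfY L + 3 ≤ H L := by
    unfold cutX halfY at *
    have e : H L = M L * M L ^ 2 := by rw [H, ← pow_succ']
    have h1 : (M L / 2 + 1) * M L ^ 2 ≤ M L * M L ^ 2 := Nat.mul_le_mul_right _ (by omega)
    have h2 : 3 * M L ≤ M L ^ 2 := by rw [sq]; exact Nat.mul_le_mul_right _ (by omega)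
    have h3 : 9 * M L ≤ M L ^ 2 := by rw [sq]; exact Nat.mul_le_mul_right _ (by omega)
    have h4 : 2 * M L ^ 2 ≤ M L * M L ^ 2 := Nat.mul_le_mul_right _ (by omega)
    rw [Nat.add_mul, one_mul] at h1
    omega
  fin_cases a <;> simp [radius, sizeOf', cutOf] <;> omega

/-- Tiles near each other depend on parents next to each other. -/
lemma next_dep (hL : L₀ C ≤ L) {g i i' P P' : Z5} (hc : Close (radius C L 1) i i')
    (hP : Dep C L g i P) (hP' : Dep C L g i' P') : Next P P' := fun a => by
  obtain ⟨g1, g2, -, -⟩ := gap hL a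
  have := hc a
  have h1 := hP a
  have h2 := hP' a
  have p1 := px_lt (C := C) (L := L) g i a
  have p2 := px_lt (C := C) (L := L) g i' a
  rcases par_diff (C := C) (L := L) g i i' a (by omega) with ⟨d1, d2⟩ | ⟨d1, d2⟩ | ⟨d1, d2⟩ <;>
    omega

/-- Tiles two steps apart depend on parents next to each other, but for what is handed down. -/
lemma next_dep' (hL : L₀ C ≤ L) {g i i' P P' : Z5} (hc : Close (radius C L 2) i i')
    (hP : Dep' C L g i P) (hP' : Dep' C L g i' P') : Next P P' := fun a => by
  obtain ⟨g1, g2, g3, -, g5, g6⟩ := gap hL a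
  have := hc a
  have h1 := hP a
  have h2 := hP' a
  have p1 := px_lt (C := C) (L := L) g i a
  have p2 := px_lt (C := C) (L := L) g i' a
  rcases lt_or_ge a.val 2 with ha | ha
  · have := g5 ha
    rcases par_diff (C := C) (L := L) g i i' a (by omega) with ⟨d1, d2⟩ | ⟨d1, d2⟩ | ⟨d1, d2⟩ <;>
      omega
  · obtain ⟨r2, r1⟩ := g6 ha
    rcases par_diff (C := C) (L := L) g i i' a (by omega) with ⟨d1, d2⟩ | ⟨d1, d2⟩ | ⟨d1, d2⟩ <;>
      omega

/-- The distance of the parents for what is handed down. -/
def Reach2 (P P' : Z5) : Prop :=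
  ∀ a : Fin 5, (P' a - P a).natAbs ≤ if a.val < 2 then 1 else 2

/-- The parent handing down and those seen. -/
lemma reach_dep (hL : L₀ C ≤ L) {g i i' P' : Z5} (hc : Close (radius C L 2) i i')
    (hP' : Dep' C L g i' P') : Reach2 (par C L g i) P' := fun a => by
  obtain ⟨g1, g2, g3, -, g5, g6⟩ := gap hL a
  have := hc a
  have h2 := hP' a
  have p1 := px_lt (C := C) (L := L) g i a
  have p2 := px_lt (C := C) (L := L) g i' a
  rcases lt_or_ge a.val 2 with ha | ha
  · have := g5 ha
    rw [if_pos ha]
    rcases par_diff (C := C) (L := L) g i i' a (by omega) with ⟨d1, d2⟩ | ⟨d1, d2⟩ | ⟨d1, d2⟩ <;>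
      omega
  · rw [if_neg (by omega)]
    rcases par_diff (C := C) (L := L) g i i' a (by omega) with ⟨d1, d2⟩ | ⟨d1, d2⟩ | ⟨d1, d2⟩ <;>
      omega

/-- Tiles two steps apart: what one hands down and all of the other. -/
lemma next_handed (hL : L₀ C ≤ L) {g i i' P' : Z5} (hc : Reach2 i i') (hP' : Dep C L g i' P') :
    Next (low C L g i) P' := fun a => by
  obtain ⟨g1, g2, g3, g4, g5, g6⟩ := gap hL a
  have := hc a
  have h2 := hP' a
  have hl : (low C L g i a = par C L g i a ∧ (a.val < 2 ∨ 0 < px C L g i a)) ∨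
      (low C L g i a = par C L g i a - 1 ∧ 2 ≤ a.val ∧ px C L g i a = 0) := by
    by_cases h : 2 ≤ a.val ∧ px C L g i a = 0
    · exact Or.inr ⟨by simp [low, lowDir, A5.dir, h], h⟩
    · exact Or.inl ⟨by simp [low, lowDir, A5.dir, h], by omega⟩
  have p1 := px_lt (C := C) (L := L) g i a
  have p2 := px_lt (C := C) (L := L) g i' a
  rcases lt_or_ge a.val 2 with ha | ha
  · rw [if_pos ha] at this
    rcases par_diff (C := C) (L := L) g i i' a (by omega) with ⟨d1, d2⟩ | ⟨d1, d2⟩ | ⟨d1, d2⟩ <;>
      omega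
  · obtain ⟨r2, r1⟩ := g6 ha
    rw [if_neg (by omega)] at this
    rcases par_diff (C := C) (L := L) g i i' a (by omega) with ⟨d1, d2⟩ | ⟨d1, d2⟩ | ⟨d1, d2⟩ <;>
      omega

/-! ### Commuting tiles -/

variable {S : SFT Lat} {Λ : Lv S C L} {o g : Z5}

/-- An event of one tile at a place commutes with the grid and with the lattice. -/
lemma under_here' (hl : Λ.Linked) (j : Z5) (P : Common.St C → Prop) :
    Under Λ o g (here Λ o g j P) where
  ctx := Λ.ctx_T o j
  grid := Same.com (Level.same_at (pos5 C L) hl o g j).symm (Λ.com_tile o j _ _)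
  top i := Level.ok_origin hl o i j _

section

variable (hp : Pieces C) (hL : L₀ C ≤ L) (hl : Λ.Linked) {o' : S.Obs} (hu : Under Λ o g o')
include hp hL hl hu

/-- Bits shown at a tile are own bits of the parents it depends on. -/
lemma atoms_of_par {i : Z5}
    (h : ∀ gu, Sees C L g i gu → ParKnown Λ o g o' (par C L g i - A5.dir gu)) :
    AtomsKnown Λ o g o' i := fun gu hg k hk c => by
  rw [cross_eq]
  exact Same.com (hp.link L Λ hL hl o g _ gu k hk c) (h gu hg k hk c)

/-- All of a tile from all parents it depends on. -/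
lemma com_full {i : Z5} (h : ∀ P, Dep C L g i P → ParKnown Λ o g o' P)
    (P : Common.St C → Prop) : Com (here Λ o g i P) o' :=
  hp.all L Λ hL hl o g o' hu i (atoms_of_par hp hL hl hu fun _ hg => h _ (dep'_seen hg).dep)
    (hp.pf L Λ hL hl o g o' hu i (h _ (dep_par g i)))
    (hp.word L Λ hL hl o g o' hu i (h _ (dep'_low g i).dep)) P

end

variable (hp : Pieces C) (hL : L₀ C ≤ L) (hl : Λ.Linked)

include hp hL hl

/-- Tiles of one grid whose parents are next to each other commute. -/
lemma com_next {i i' : Z5} (h : ∀ P P', Dep C L g i P → Dep C L g i' P' → Next P P')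
    (P P' : Common.St C → Prop) : Com (here Λ o g i P) (here Λ o g i' P') :=
  com_full hp hL hl (under_here' hl i' P') (fun R hR k hk c => Com.symm
    (com_full hp hL hl (under_here' hl _ _) (fun R' hR' k' hk' c' => Com.symm
      (hp.meet L Λ hL hl o g R R' (h R R' hR hR') k hk k' hk' c c')) P')) P

/-- Tiles whose grids are the same commute if those of every grid do. -/
lemma com_grids {i i' : Z5} {P P' : Common.St C → Prop}
    (h : ∀ g, Com (here Λ o g i P) (here Λ o g i' P')) : Com (Λ.T o i P) (Λ.T o i' P') := by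
  refine Level.com_of_grids (pos5 C L) o i P (Λ.ctx_T o i') (Λ.thru_T o i' P') fun g => Com.symm ?_
  refine Level.com_of_grids (pos5 C L) o i' P' (Λ.ctx_T o i) (Λ.thru_T o i _) fun g' => ?_
  by_cases hne : (pos5 C L).red g' = (pos5 C L).red g
  · have e : here Λ o g i P = here Λ o g' i P := Λ.T_congr o i fun t => by
      simp only [Pos.At, (pos5 C L).red_add hne i]
    exact (e ▸ h g').symm
  · exact Level.com_ne (pos5 C L) hl o g' g i' i hne P' P

/-- Tiles one step apart on the counters commute. -/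
theorem meets_one : Λ.Meets (radius C L 1) := fun o i i' hc P P' =>
  com_grids hp hL hl fun g => com_next hp hL hl (fun _ _ => next_dep hL hc) P P'

/-- What a tile hands down commutes with the tiles two steps away. -/
theorem com_handed {i i' : Z5} (hc : Reach2 i i') (c : PF C) (P' : Common.St C → Prop) :
    Com (Λ.T o i fun t => handed L t = c) (Λ.T o i' P') :=
  com_grids hp hL hl fun g => hp.handed L Λ hL hl o g _ (under_here' hl i' P') i (fun k hk c' =>
    Com.symm (com_full hp hL hl (under_here' hl _ _) (fun R' hR' k' hk' c'' => Com.symm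
      (hp.meet L Λ hL hl o g _ R' (next_handed hL hc hR') k hk k' hk' c' c'')) P')) c

/-- With the level above, tiles two steps apart on the counters commute. -/
theorem meets_two (Λ' : Lv S C (L + 1)) (hup : IsUp Λ Λ') : Λ.Meets (radius C L 2) :=
  fun o i i' hc P P' => com_grids hp hL hl fun g => by
    have hL' : L₀ C ≤ L + 1 := by omega
    have hc' : Close (radius C L 2) i' i := fun a => by
      have := hc a
      omega
    -- the bits of the parents of one tile and what the other one is handed
    have bit_pf : ∀ {j j' R : Z5}, Close (radius C L 2) j j' → Dep' C L g j' R →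
        ∀ k ≤ lastK C L, ∀ (b : Bool) (c : PF C),
          Com (atomObs Λ o g R k b) (here Λ o g j fun t => t.fin.pf = c) :=
      fun {j j' R} hjj hR k hk b c => Same.com_both (hup.bit o g R k hk b) (hup.pf o g j c)
        (com_handed hp hL' hup.linked (reach_dep hL hjj hR) c _).symm
    -- all of a tile
    have full : ∀ {j : Z5} {o' : S.Obs}, Under Λ o g o' →
        (∀ R, Dep' C L g j R → ParKnown Λ o g o' R) →
        (∀ c : PF C, Com (here Λ o g j fun t => t.fin.pf = c) o') →
        ∀ Q : Common.St C → Prop, Com (here Λ o g j Q) o' := fun {j o'} hu hR hpf Q =>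
      hp.all L Λ hL hl o g o' hu j (atoms_of_par hp hL hl hu fun _ hg => hR _ (dep'_seen hg))
        hpf (hp.word L Λ hL hl o g o' hu j (hR _ (dep'_low g j))) Q
    refine full (under_here' hl i' P') (fun R hR k hk b => Com.symm ?_) (fun c => Com.symm ?_) P
    · refine full (under_here' hl _ _) (fun R' hR' k' hk' b' => Com.symm
        (hp.meet L Λ hL hl o g R R' (next_dep' hL hc hR hR') k hk k' hk' b b'))
        (fun c' => Com.symm (bit_pf hc' hR k hk b c')) P'
    · refine full (under_here' hl _ _) (fun R' hR' k' hk' b' => bit_pf hc hR' k' hk' b' c)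
        (fun c' => ?_) P'
      refine hp.pf L Λ hL hl o g _ (under_here' hl i _) i' (fun k' hk' b' => Com.symm ?_) c'
      refine hp.pf L Λ hL hl o g _ (under_here' hl _ _) i (fun k hk b => Com.symm ?_) c
      refine hp.meet L Λ hL hl o g _ _ (fun a => ?_) k' hk' k hk b' b
      obtain ⟨-, -, g3, -⟩ := gap (C := C) hL a
      have := hc' a
      rcases par_diff (C := C) (L := L) g i' i a (by omega) with ⟨d1, -⟩ | ⟨d1, -⟩ | ⟨d1, -⟩ <;>
        omega

omit hL hl
variable (C)

/-- There are levels of every scale. -/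
theorem levels (n : ℕ) :
    ∃ Λ : Lv (sft C) C (L₀ C + n), Λ.Linked ∧ SpanOK Λ ∧ ∀ a, 2 ^ n ≤ Λ.Q a := by
  induction n with
  | zero =>
    refine ⟨baseLevel C, baseLevel_linked C, fun a => ?_, fun a => Nat.le_refl 1⟩
    show (1 : ℕ) ≤ _ * 1
    split_ifs <;> omega
  | succ n ih =>
    obtain ⟨Λ, hl, hs, hQ⟩ := ih
    have hLn : L₀ C ≤ L₀ C + n := Nat.le_add_right _ _
    obtain ⟨Λ', h⟩ := hp.up _ hLn Λ hl (meets_one hp hLn hl) hs
    refine ⟨Λ', h.linked, h.span, fun a => ?_⟩
    rw [h.scale a, pow_succ]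
    refine Nat.mul_le_mul (hQ a) ?_
    obtain ⟨g1, g2, g3, g4, -⟩ := gap (C := C) hLn a
    omega

/-- The common layer is rigid, from the pieces. -/
theorem rigid_of_pieces : (sft C).Rigid := by
  refine rigid_of_within fun n => ?_
  obtain ⟨Λ, hl, hs, hQ⟩ := levels C hp n
  have hLn : L₀ C ≤ L₀ C + n := Nat.le_add_right _ _
  obtain ⟨Λ', h⟩ := hp.up _ hLn Λ hl (meets_one hp hLn hl) hs
  refine ⟨fun a => (radius C (L₀ C + n) 2 a - 1) * Λ.Q a, fun a => ?_,
    Level.within hl (meets_two hp hLn hl Λ' h) fun a => ?_⟩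
  · obtain ⟨-, -, -, g4, -⟩ := gap (C := C) hLn a
    calc n ≤ 2 ^ n := (Nat.lt_two_pow_self).le
      _ ≤ Λ.Q a := hQ a
      _ ≤ _ := Nat.le_mul_of_pos_left _ (by omega)
  · obtain ⟨-, -, -, g4, -⟩ := gap (C := C) hLn a
    omega

end Vale.Agent.P193.W4.A5
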