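import Vale.Agent.P193.W4.A5.Spec

/-!
P193, module W4 (A5): a shown bit is the own bit of the parent shown, and the own bits of parents
next to each other meet in one tile.

A bit is one event wherever it is shown in a parent; across a face of the parent it is the bit of
the guest dropped there. The horizontal bits cross the faces on every axis but the rows', the
vertical ones the faces across the rows; both are equal at the crossings.
-/

noncomputable section

namespace Vale.Agent.P193.W4.A5

open BH BH.SFT Finset Common
open scoped Classical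

variable {C : Cfg} {L : ℕ} {S : SFT Lat} {Λ : Lv S C L} {o g : Z5}

/-! ### Cells of a parent -/

lemma px_parCell (P : Z5) {m : Fin 5 → ℕ} (hm : ∀ a, m a < sizeOf' C L a) (a : Fin 5) :
    px C L g (parCell C L g P m) a = m a := by
  apply Int.ofNat_inj.1
  rw [px_cast, parCell, show g a + ((sizeOf' C L a : ℤ) * P a + (m a : ℤ) - g a) =
    (m a : ℤ) + (sizeOf' C L a : ℤ) * P a by ring, Int.add_mul_emod_self_left,
    Int.emod_eq_of_lt (Int.natCast_nonneg _) (Int.ofNat_lt.2 (hm a))]

lemma moveTo_parCell (P : Z5) {m m' : Fin 5 → ℕ} (hm : ∀ a, m a < sizeOf' C L a)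
    (s : Finset (Fin 5)) :
    moveTo C L g (parCell C L g P m) s m' =
      parCell C L g P (fun a => if a ∈ s then m' a else m a) := by
  funext a
  by_cases ha : a ∈ s
  · rw [moveTo, if_pos ha, px_parCell P hm]
    simp only [parCell, if_pos ha]
    ring
  · rw [moveTo, if_neg ha]
    simp only [parCell, if_neg ha]

lemma parCell_pred (P : Z5) {m : Fin 5 → ℕ} {a : Fin 5} (h0 : m a = 0) :
    parCell C L g P m - dir (axis a) =
      parCell C L g (P - dir (axis a)) (Function.update m a (sizeOf' C L a - 1)) := by
  funext c
  have h := sizeOf_pos (C := C) (L := L) a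
  by_cases hc : c = a
  · subst hc
    simp only [Pi.sub_apply, parCell, dir, axis, decide_true, if_true, Function.update_self, h0,
      Nat.cast_sub (show 1 ≤ sizeOf' C L c from h)]
    push_cast
    ring
  · simp [parCell, dir, axis, hc]

lemma crossPos_facts (hL : L₀ C ≤ L) {k : ℕ} (hk : k ≤ lastK C L) :
    2 * k < M L ∧ (∀ a, crossPos L k a < sizeOf' C L a) ∧
      ∀ (gu : Guest) a, ShownA (crossPos L k a) (cutOf C L a) (gu a) := by
  obtain ⟨-, h, -, -⟩ := bounds_M hL
  have h2 : 2 * k < M L := by omega
  exact ⟨h2, fun a => ((cross_bounds (C := C) hL h2).1 a).1, shown_cross hL h2⟩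

/-! ### One bit as one event -/

/-- The event that a bit has the value `c`. -/
def bitObs (Λ : Lv S C L) (o g : Z5) (B : Fin' C → Bits) (i : Z5) (gu : Guest) (c : Bool) :
    S.Obs :=
  here Λ o g i fun t => B t.fin gu = c

variable {B : Fin' C → Bits} {e₀ : Fin 5} (hB : BitField C B e₀) (hL : L₀ C ≤ L) (hl : Λ.Linked)

include hl

/-- An equation between two tiles of a window links their events. -/
lemma same_here (i : Z5) (d : Dir) {P P' : Common.St C → Prop}
    (h : ∀ q, Valid L q → (pos5 C L).At g i (q d₀) → (P (q d₀) ↔ P' (q d))) :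
    Same (here Λ o g i P) (here Λ o g (i - dir d) P') := by
  have := Level.link_step hl (o := o) i d₀ d (fun t => (pos5 C L).At g i t ∧ P t)
    (fun t => (pos5 C L).At g (i - dir d) t ∧ P' t) fun q hq => by
      constructor
      · exact fun h' => ⟨at_all hq h'.1 d, (h q hq h'.1).1 h'.2⟩
      · exact fun h' => ⟨at_corner hq h'.1, (h q hq (at_corner hq h'.1)).2 h'.2⟩
  simpa [here] using this

include hB hL

/-- A bit is one event along an axis where it is shown. -/
lemma same_bit_step {a : Fin 5} (ha : a ≠ e₀) (gu : Guest) (c : Bool) (j : Z5)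
    (hp : 0 < px C L g j a) (hs : ShownA (px C L g j a) (cutOf C L a) (gu a))
    (hs' : ShownA (px C L g j a - 1) (cutOf C L a) (gu a)) :
    Same (bitObs Λ o g B j gu c) (bitObs Λ o g B (j - dir (axis a)) gu c) := by
  have hlt := px_lt (C := C) (L := L) g j a
  have hp' : px C L g (j - dir (axis a)) a = px C L g j a - 1 := by
    rw [px_step, if_pos rfl, show px C L g j a + sizeOf' C L a - 1 =
      px C L g j a - 1 + sizeOf' C L a by omega, Nat.add_mod_right, Nat.mod_eq_of_lt (by omega)]
  refine same_here hl j (axis a) fun q hq hat => ?_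
  have hd := at_all hq hat (axis a)
  have hat' : (pos5 C L).At g j (q self) := hat
  have he := hB.rule ((shape_facts hq.1.2.2.1).e self a rfl) ha
  rw [back_self] at he
  simp only [BitRule, sig, firstAt_at hat', cutAt_at hL hd, firstAt_at hd, hp',
    decide_eq_true_iff, if_neg (show ¬ px C L g j a = 0 by omega)] at he
  suffices B (q self).fin gu = B (q (axis a)).fin gu by
    show (B (q self).fin gu = c) ↔ _
    rw [this]
  split_ifs at he with h1 h2
  · have := hs.2 (by omega)
    rw [he gu, this]
    simp
  · exact he gu (hs'.1 h2)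
  · rw [he]

/-- A bit is one event between two places in a parent at which it is shown. -/
lemma same_bit_move (gu : Guest) (c : Bool) {s : Finset (Fin 5)} (hs : e₀ ∉ s) {m : Fin 5 → ℕ}
    {i : Z5} (hm : ∀ a ∈ s, m a < sizeOf' C L a ∧ ShownA (m a) (cutOf C L a) (gu a))
    (hi : ∀ a ∈ s, ShownA (px C L g i a) (cutOf C L a) (gu a)) :
    Same (bitObs Λ o g B i gu c) (bitObs Λ o g B (moveTo C L g i s m) gu c) := by
  refine (move_induction (P := fun j => Same (bitObs Λ o g B i gu c) (bitObs Λ o g B j gu c))
    (fun a p => ShownA p (cutOf C L a) (gu a)) (fun _ _ _ _ h1 h2 => shownA_conv h1 h2) s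
    (fun a ha j h0 h1 h2 => ?_) hm hi).1 (same_refl (Λ.ctx_T o i) (Λ.thru_T _ _ _))
  have h := same_bit_step (o := o) hB hL hl (fun e => hs (by rw [← e]; exact ha)) gu c j h0 h1 h2
  exact ⟨fun x => x.trans h, fun x => x.trans h.symm⟩

omit hL in
/-- Across the first face of a parent a bit is that of the guest dropped there. -/
lemma same_bit_face {a : Fin 5} (ha : a ≠ e₀) {gu : Guest} (hg : gu a = true) (c : Bool) {j : Z5}
    (hp : px C L g j a = 0) :
    Same (bitObs Λ o g B j gu c) (bitObs Λ o g B (j - dir (axis a)) (drop gu a) c) := by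
  refine same_here hl j (axis a) fun q hq hat => ?_
  have hat' : (pos5 C L).At g j (q self) := hat
  have he := hB.rule ((shape_facts hq.1.2.2.1).e self a rfl) ha
  rw [back_self] at he
  simp only [BitRule, sig, firstAt_at hat', hp, decide_true, if_true] at he
  show (B (q self).fin gu = c) ↔ _
  rw [he gu, hg, Bool.true_and]

/-- A bit at a crossing is that of the guest dropped at the same crossing of the parent behind. -/
lemma same_bit_behind {k : ℕ} (hk : k ≤ lastK C L) {a : Fin 5} (ha : a ≠ e₀) {gu : Guest}
    (hg : gu a = true) (c : Bool) (P : Z5) :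
    Same (bitObs Λ o g B (parCell C L g P (crossPos L k)) gu c)
      (bitObs Λ o g B (parCell C L g (P - dir (axis a)) (crossPos L k)) (drop gu a) c) := by
  obtain ⟨-, hsz, hsh⟩ := crossPos_facts (C := C) hL hk
  obtain ⟨hc1, hc⟩ := cut_bounds (C := C) hL a
  have hsa := sizeOf_pos (C := C) (L := L) a
  set m0 := Function.update (crossPos L k) a 0 with hm0
  set m1 := Function.update (crossPos L k) a (sizeOf' C L a - 1) with hm1
  have hs0 : ∀ b, m0 b < sizeOf' C L b := fun b => by
    by_cases hb : b = a
    · subst hb; rw [hm0, Function.update_self]; omega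
    · rw [hm0, Function.update_of_ne hb]; exact hsz b
  have hs1 : ∀ b, m1 b < sizeOf' C L b := fun b => by
    by_cases hb : b = a
    · subst hb; rw [hm1, Function.update_self]; omega
    · rw [hm1, Function.update_of_ne hb]; exact hsz b
  have hne : e₀ ∉ ({a} : Finset (Fin 5)) := by simpa using ha.symm
  have e0 : moveTo C L g (parCell C L g P (crossPos L k)) {a} m0 = parCell C L g P m0 := by
    rw [moveTo_parCell P hsz]
    congr 1
    funext b
    by_cases hb : b = a
    · subst hb; simp
    · simp [hm0, hb]
  have e1 : moveTo C L g (parCell C L g (P - dir (axis a)) m1) {a} (crossPos L k) =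
      parCell C L g (P - dir (axis a)) (crossPos L k) := by
    rw [moveTo_parCell _ hs1]
    congr 1
    funext b
    by_cases hb : b = a
    · subst hb; simp
    · simp [hm1, hb]
  have h1 := same_bit_move (o := o) hB hL hl gu c hne (m := m0) (i := parCell C L g P (crossPos L k))
    (fun b hb => by
      rw [mem_singleton] at hb
      subst hb
      refine ⟨hs0 b, fun _ => hg, fun h => ?_⟩
      rw [hm0, Function.update_self] at h
      omega)
    fun b _ => by rw [px_parCell P hsz]; exact hsh gu b
  rw [e0] at h1
  have h2 := same_bit_face (o := o) hB hl ha hg c (j := parCell C L g P m0)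
    (by rw [px_parCell P hs0, hm0, Function.update_self])
  rw [parCell_pred P (m := m0) (a := a) (by rw [hm0, Function.update_self]),
    show Function.update m0 a (sizeOf' C L a - 1) = m1 from Function.update_idem _ _ _] at h2
  have h3 := same_bit_move (o := o) hB hL hl (drop gu a) c hne (m := crossPos L k)
    (i := parCell C L g (P - dir (axis a)) m1) (fun b _ => ⟨hsz b, hsh _ b⟩) fun b hb => by
      rw [mem_singleton] at hb
      subst hb
      rw [px_parCell _ hs1, drop_self, hm1, Function.update_self]
      exact ⟨fun h => absurd h (by omega), fun _ => rfl⟩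
  rw [e1] at h3
  exact (h1.trans h2).trans h3

omit hB

/-- At a crossing the two kinds of bits are one event. -/
lemma same_diag {k : ℕ} (hk : k ≤ lastK C L) (gu : Guest) (c : Bool) (P : Z5) :
    Same (bitObs Λ o g (fun f => f.h) (parCell C L g P (crossPos L k)) gu c)
      (bitObs Λ o g (fun f => f.vb) (parCell C L g P (crossPos L k)) gu c) := by
  obtain ⟨h2, hsz, -⟩ := crossPos_facts (C := C) hL hk
  obtain ⟨-, hb, hlo, hw, hhi⟩ := cross_bounds (C := C) hL h2
  set j := parCell C L g P (crossPos L k) with hj
  have hp0 : px C L g j 0 = crossX L k := px_parCell P hsz 0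
  have hp1 : px C L g j 1 = crossY L k := px_parCell P hsz 1
  have h := same_here (o := o) (g := g) hl j d₀ (P := fun t => t.fin.h gu = c)
    (P' := fun t => t.fin.vb gu = c) fun q hq hat => by
      obtain ⟨h1, h2, h3, -⟩ := claims_at hat
      rw [show (q d₀).fin.h = (q d₀).fin.vb from ?_]
      refine ((shape_facts hq.1.2.2.1).p self).diag ?_ ?_ ?_
      · show (claims L (q d₀)).isWire = true
        rw [show (claims L (q d₀)).isWire = (claims L (shell C L g j)).isWire by
          simp only [Claims.isWire, h2]]
        refine (claims_wire _ _ _ _ _ (px_lt g j 1)).2 ?_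
        rw [hp1]
        exact hw
      · show (claims L (q d₀)).bundle = true
        rw [show (claims L (q d₀)).bundle = (claims L (shell C L g j)).bundle by
          simp only [Claims.bundle, h1]]
        refine (claims_bundle _ _ _ _ _ (px_lt g j 0)).2 ?_
        rw [hp0]
        exact hb
      · show (claims L (q d₀)).cm.diag = true
        rw [h3]
        refine (claims_diag _ _ _ _ _ (px_lt g j 0) (px_lt g j 1)).2 ?_
        rw [hp0, hp1, hlo, hhi]
  simpa [bitObs] using h

/-- At a crossing a bit is that of the guest dropped at the crossing of the parent behind, on every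
axis. -/
lemma same_h_behind {k : ℕ} (hk : k ≤ lastK C L) {a : Fin 5} {gu : Guest} (hg : gu a = true)
    (c : Bool) (P : Z5) :
    Same (bitObs Λ o g (fun f => f.h) (parCell C L g P (crossPos L k)) gu c)
      (bitObs Λ o g (fun f => f.h) (parCell C L g (P - dir (axis a)) (crossPos L k))
        (drop gu a) c) := by
  by_cases ha : a = 1
  · subst ha
    exact (same_diag hL hl hk gu c P).trans ((same_bit_behind bitField_vb hL hl hk
      (by decide) hg c P).trans (same_diag hL hl hk _ c _).symm)
  · exact same_bit_behind bitField_h hL hl hk ha hg c P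

omit hL hl

/-- A shown bit is the own bit of the parent shown. -/
theorem linkStatement : LinkStatement C L := by
  intro S Λ hL hl o g P gu k hk c
  suffices H : ∀ (s : Finset (Fin 5)) (gu : Guest) (P : Z5), (∀ a, gu a = true → a ∈ s) →
      Same (bitObs Λ o g (fun f => f.h) (parCell C L g P (crossPos L k)) gu c)
        (atomObs Λ o g (P - A5.dir gu) k c) from
    H univ gu P fun a _ => mem_univ a
  intro s
  induction s using Finset.induction_on with
  | empty =>
    intro gu P h
    obtain rfl : gu = Common.self := funext fun a =>
      Bool.eq_false_iff.2 fun e => absurd (h a e) (notMem_empty a)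
    rw [show P - A5.dir Common.self = P by ext a; simp [A5.dir, Common.self]]
    exact same_refl (Λ.ctx_T o _) (Λ.thru_T _ _ _)
  | @insert x s hx ih =>
    intro gu P h
    by_cases hg : gu x = true
    swap
    · exact ih gu P fun a ha => (mem_insert.1 (h a ha)).resolve_left fun e => hg (e ▸ ha)
    have h' := ih (drop gu x) (P - dir (axis x)) fun a ha => by
      have hax : a ≠ x := fun e => by subst e; simp [drop] at ha
      rw [drop_ne gu hax] at ha
      exact (mem_insert.1 (h a ha)).resolve_left hax
    rw [show P - dir (axis x) - A5.dir (drop gu x) = P - A5.dir gu by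
      funext a
      by_cases ha : a = x
      · subst ha; simp [A5.dir, axis, drop, hg]
      · simp [A5.dir, axis, drop, ha]] at h'
    exact (same_h_behind hL hl hk hg c P).trans h'

/-- The own bits of parents next to each other commute. -/
theorem meetStatement : MeetStatement C L := by
  intro S Λ hL hl o g P P' hn k hk k' hk' c c'
  obtain ⟨h2, hsz, hsh⟩ := crossPos_facts (C := C) hL hk
  obtain ⟨h2', hsz', hsh'⟩ := crossPos_facts (C := C) hL hk'
  let Q : Z5 := fun a => max (P a) (P' a)
  let gu : Guest := fun a => decide (P a < P' a)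
  let gu' : Guest := fun a => decide (P' a < P a)
  have eP : Q - A5.dir gu = P := funext fun a => by
    have := hn a
    simp only [Pi.sub_apply, A5.dir, Q, gu, decide_eq_true_iff]
    split_ifs <;> omega
  have eP' : Q - A5.dir gu' = P' := funext fun a => by
    have := hn a
    simp only [Pi.sub_apply, A5.dir, Q, gu', decide_eq_true_iff]
    split_ifs <;> omega
  set m : Fin 5 → ℕ := fun a => if a = 0 then crossX L k' else crossPos L k a with hm
  have e : moveTo C L g (parCell C L g Q (crossPos L k)) {0} m = parCell C L g Q m := by
    rw [moveTo_parCell Q hsz]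
    congr 1
    funext a
    fin_cases a <;> simp [hm]
  have e' : moveTo C L g (parCell C L g Q (crossPos L k')) {1} m = parCell C L g Q m := by
    rw [moveTo_parCell Q hsz']
    congr 1
    funext a
    fin_cases a <;> simp [hm, crossPos]
  have h := same_bit_move (o := o) bitField_h hL hl gu c (s := {0}) (by decide) (m := m)
    (i := parCell C L g Q (crossPos L k))
    (fun a ha => by
      rw [mem_singleton] at ha
      subst ha
      exact ⟨hsz' 0, hsh' gu 0⟩)
    fun a _ => by rw [px_parCell Q hsz]; exact hsh gu a
  have h' := same_bit_move (o := o) bitField_vb hL hl gu' c' (s := {1}) (by decide) (m := m)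
    (i := parCell C L g Q (crossPos L k'))
    (fun a ha => by
      rw [mem_singleton] at ha
      subst ha
      exact ⟨hsz 1, hsh gu' 1⟩)
    fun a _ => by rw [px_parCell Q hsz']; exact hsh' gu' a
  rw [e] at h
  rw [e'] at h'
  have l := linkStatement Λ hL hl o g Q gu k hk c
  have l' := linkStatement Λ hL hl o g Q gu' k' hk' c'
  rw [eP] at l
  rw [eP'] at l'
  refine Same.com_both (l.symm.trans h) (l'.symm.trans ((same_diag hL hl hk' gu' c' Q).trans h')) ?_
  unfold bitObs here
  exact Λ.com_tile o _ _ _

/-- The bits shown at a cell are known if those of the parents shown there are. -/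
theorem atomsKnown_of_parKnown (hL : L₀ C ≤ L) (hl : Λ.Linked) {o' : S.Obs} {i : Z5}
    (h : ∀ gu, Sees C L g i gu → ParKnown Λ o g o' (par C L g i - A5.dir gu)) :
    AtomsKnown Λ o g o' i := fun gu hs k hk c => by
  rw [cross_eq]
  exact Same.com (linkStatement Λ hL hl o g _ gu k hk c) (h gu hs k hk c)

/-- An event of a tile at its place is below the grid and the lattice. -/
theorem under_here (hl : Λ.Linked) (o g j : Z5) (P : Common.St C → Prop) :
    Under Λ o g (here Λ o g j P) where
  ctx := Λ.area_ctx _
  grid := Same.com (Level.same_at (pos5 C L) hl o g j).symm (Λ.com_tile o j _ _)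
  top i := Level.ok_origin hl o i j _

end Vale.Agent.P193.W4.A5
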