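import Vale.Agent.P193.W4.A5.Virtual

/-!
P193, module W4 (A5): positions of the tiles inside the tiles of the next level.

`P.At g i` says that the tile at the cell `i` is where the grid `g` puts it. It is one event for
all cells, different grids exclude each other, and every event splits along finitely many grids.
-/

noncomputable section

namespace Vale.Agent.P193.W4.A5

open BH BH.SFT Finset
open scoped Classical

/-- A position shown by every tile, moved by one from a tile to the next. -/
structure Pos (τ : Type) (ok : Win τ → Prop) where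
  /-- the sides of a tile of the next level -/
  side : Fin 5 → ℕ
  side_pos : ∀ a, 0 < side a
  pos : τ → Z5
  /-- positions are residues, and step by one -/
  pos_range : ∀ q, ok q → ∀ d a, 0 ≤ pos (q d) a ∧ pos (q d) a < side a
  pos_step : ∀ q, ok q → ∀ d a, (side a : ℤ) ∣ pos (q d₀) a - dir d a - pos (q d) a

namespace Pos

variable {τ : Type} {ok : Win τ → Prop} (π : Pos τ ok)

/-- Residues. -/
def red (v : Z5) : Z5 := fun a => v a % (π.side a : ℤ)

lemma red_eq_iff (v w : Z5) : π.red v = π.red w ↔ ∀ a, (π.side a : ℤ) ∣ v a - w a := by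
  simp only [red, funext_iff, Int.emod_eq_emod_iff_emod_sub_eq_zero, Int.dvd_iff_emod_eq_zero]

lemma red_red (v : Z5) : π.red (π.red v) = π.red v := by
  ext a; simp [red]

lemma red_sub {v w : Z5} (h : π.red v = π.red w) (e : Z5) : π.red (v - e) = π.red (w - e) := by
  rw [red_eq_iff] at h ⊢
  simpa using h

lemma red_add {v w : Z5} (h : π.red v = π.red w) (e : Z5) : π.red (v + e) = π.red (w + e) := by
  simpa using π.red_sub h (-e)

lemma red_pos {q : Win τ} (hq : ok q) (d : Dir) : π.red (π.pos (q d)) = π.pos (q d) := by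
  ext a
  exact Int.emod_eq_of_lt (π.pos_range q hq d a).1 (π.pos_range q hq d a).2

lemma red_step {q : Win τ} (hq : ok q) (d : Dir) :
    π.pos (q d) = π.red (π.pos (q d₀) - dir d) := by
  rw [← π.red_pos hq d, red_eq_iff]
  intro a
  rw [dvd_sub_comm]
  simpa using π.pos_step q hq d a

/-- The tile is where the grid `g` puts it. -/
def At (g i : Z5) (t : τ) : Prop := π.pos t = π.red (g + i)

lemma at_step {q : Win τ} (hq : ok q) (g i : Z5) (d : Dir) :
    π.At g i (q d₀) ↔ π.At g (i - dir d) (q d) := by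
  unfold At
  rw [π.red_step hq d]
  constructor
  · intro h
    rw [← add_sub_assoc]
    refine π.red_sub ?_ _
    rw [h, red_red]
  · intro h
    have := π.red_add h (dir d)
    rw [sub_add_cancel, ← add_sub_assoc, sub_add_cancel, π.red_pos hq] at this
    exact this

/-- The residues, as a finite type. -/
abbrev Res : Type := (a : Fin 5) → Fin (π.side a)

/-- The grid putting the cell `i` at a residue. -/
def grid (i : Z5) (r : π.Res) : Z5 := fun a => ((r a : ℕ) : ℤ) - i a

lemma at_grid {q : Win τ} (hq : ok q) (i : Z5) : ∃ r : π.Res, π.At (π.grid i r) i (q d₀) := by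
  refine ⟨fun a => ⟨(π.pos (q d₀) a).toNat, by have := π.pos_range q hq d₀ a; omega⟩, ?_⟩
  unfold At
  conv_lhs => rw [← π.red_pos hq d₀]
  congr 1
  ext a
  simp [grid, (π.pos_range q hq d₀ a).1]

end Pos

namespace Level

variable {S : SFT Lat} {τ : Type} {ok : Win τ → Prop} {Λ : Level S τ ok} (π : Pos τ ok)
  (hl : Λ.Linked)

/-- A grid of the next level, as one event. -/
def gridObs (Λ : Level S τ ok) (o g : Z5) : S.Obs := Λ.T o 0 (π.At g 0)

include hl

/-- Being at the place of a grid is one event for all cells. -/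
lemma same_at (o g i : Z5) : Same (Λ.T o i (π.At g i)) (gridObs π Λ o g) :=
  same_lattice hl (π.At g) (fun j d _ hq => π.at_step hq g j d) i 0

/-- Tiles of different grids commute. -/
lemma com_ne (o g g' i i' : Z5) (hne : π.red g ≠ π.red g') (P P' : τ → Prop) :
    Com (Λ.T o i fun t => π.At g i t ∧ P t) (Λ.T o i' fun t => π.At g' i' t ∧ P' t) := by
  refine com_exclusive (Λ.ctx_T o i) (Λ.ctx_T o i') subset_rfl (Λ.thru_T _ _ _) subset_rfl
    (Λ.thru_T _ _ _) subset_rfl (Λ.thru_T _ _ _) subset_rfl (Λ.thru_T _ _ _)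
    ((same_at π hl o g i).trans (same_at π hl o g i').symm) (fun a _ ha => ?_) fun a _ ha => ?_
  · obtain ⟨q, hq, hp⟩ := (Λ.win_val_iff _ _ a).1 ha
    exact (win_val_some Λ hq).2 hp.1
  · obtain ⟨q, hq, hp⟩ := (Λ.win_val_iff _ _ a).1 ha
    rw [Bool.eq_false_iff]
    intro hc
    refine hne ?_
    have h := π.red_sub (Eq.trans (Eq.symm ((win_val_some Λ hq).1 hc)) hp.1) i'
    simpa using h

omit hl in
/-- An event commutes as soon as its parts at all grids do. -/
lemma com_of_grids (o i : Z5) (P : τ → Prop) {o' : S.Obs} {h : Lat → S.A → S.A}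
    (ho' : Ctx h o'.supp) (hto' : o'.Thru S h)
    (hc : ∀ g, Com (Λ.T o i fun t => π.At g i t ∧ P t) o') : Com (Λ.T o i P) o' := by
  refine com_of_determined (fun r : π.Res => Λ.T o i fun t => π.At (π.grid i r) i t ∧ P t)
    (Λ.ctx_T o i) subset_rfl (Λ.thru_T _ _ _) (fun _ => subset_rfl) (fun _ => Λ.thru_T _ _ _)
    ho' hto' (fun a b ha hb he => ?_) fun r => hc _
  have key : ∀ x, S.AdmissibleClass (whole S) (Λ.area (Λ.cell o i)) x →
      ((Λ.T o i P).val x = true ↔
        ∃ r, (Λ.T o i fun t => π.At (π.grid i r) i t ∧ P t).val x = true) := by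
    intro x hx
    simp only [T, win_val_iff]
    constructor
    · rintro ⟨q, hq, hp⟩
      obtain ⟨r, hr⟩ := π.at_grid (Λ.valid _ x q hx hq) i
      exact ⟨r, q, hq, hr, hp⟩
    · rintro ⟨r, q, hq, -, hp⟩
      exact ⟨q, hq, hp⟩
  rw [Bool.eq_iff_iff, key a ha, key b hb]
  simp only [he]

/-- A property of a tile at a known place, determined by commuting properties of the tiles of a
window at known places, commutes. -/
lemma com_step_at {o g : Z5} {o' : S.Obs} {h : Lat → S.A → S.A} (ho' : Ctx h o'.supp)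
    (hto' : o'.Thru S h) {ι : Type} [Fintype ι] (i : Z5) (d : Dir) (P : τ → Prop) (ds : ι → Dir)
    (Ps : ι → τ → Prop)
    (hdet : ∀ q q', ok q → ok q' → π.At g (i - dir d) (q d) → π.At g (i - dir d) (q' d) →
      (∀ m, Ps m (q (ds m)) ↔ Ps m (q' (ds m))) → (P (q d) ↔ P (q' d)))
    (hg : Λ.Ok o o' i fun _ => True) (hgrid : Com (gridObs π Λ o g) o')
    (hm : ∀ m, Com (Λ.T o (i - dir (ds m))
      fun t => π.At g (i - dir (ds m)) t ∧ Ps m t) o') :
    Com (Λ.T o (i - dir d) fun t => π.At g (i - dir d) t ∧ P t) o' := by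
  have hat : ∀ {q : Win τ}, ok q → ∀ e e', π.At g (i - dir e) (q e) ↔ π.At g (i - dir e') (q e') :=
    fun hq e e' => ((π.at_step hq g i e).symm).trans (π.at_step hq g i e')
  refine Ok.step hl ho' hto' (ι := Option ι) i d _ (fun m => m.elim d ds)
    (fun m => m.elim (π.At g (i - dir d)) fun m t => π.At g (i - dir (ds m)) t ∧ Ps m t)
    (fun q q' hq hq' he => ?_) hg fun m => ?_
  · have h0 := he none
    simp only [Option.elim_none] at h0
    refine ⟨fun hp => ⟨h0.1 hp.1, (hdet q q' hq hq' hp.1 (h0.1 hp.1) fun m => ?_).1 hp.2⟩,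
      fun hp => ⟨h0.2 hp.1, (hdet q q' hq hq' (h0.2 hp.1) hp.1 fun m => ?_).2 hp.2⟩⟩ <;>
    · have hm' := he (some m)
      simp only [Option.elim_some] at hm'
      constructor
      · intro hx
        first
        | exact (hm'.1 ⟨(hat hq d (ds m)).1 hp.1, hx⟩).2
        | exact (hm'.1 ⟨(hat hq d (ds m)).1 (h0.2 hp.1), hx⟩).2
      · intro hx
        first
        | exact (hm'.2 ⟨(hat hq' d (ds m)).1 (h0.1 hp.1), hx⟩).2
        | exact (hm'.2 ⟨(hat hq' d (ds m)).1 hp.1, hx⟩).2
  · cases m with
    | none => exact Same.com (same_at π hl o g _) hgrid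
    | some m => exact hm m

end Level

end Vale.Agent.P193.W4.A5
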