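import Vale.Agent.P193.W4.A5.Bits
import Vale.Agent.P193.W4.A5.Context
import Vale.Agent.P193.W4.Common.Desub.Decode

/-!
P193, module W4 (A5): the pieces of rigidity of the common layer.

Everything a tile has is known from the bits at the crossings of the parents it sees and of its own
parent. Those of parents next to each other meet in one tile, so tiles commute within one step on
the counters. A field handed down through a dead digit depends only on what the parent behind it
shares; with the level above this gives two steps.
-/

noncomputable section

namespace Vale.Agent.P193.W4.A5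

open BH BH.SFT Finset Common
open scoped Classical

variable {C : Cfg} {L : ℕ}

/-! ### Parents as indices -/

/-- The parent of the cell `i`. -/
def par (C : Cfg) (L : ℕ) (g i : Z5) : Z5 := fun a => (g a + i a) / (sizeOf' C L a : ℤ)

/-- The cell at the position `m` of the parent `P`. -/
def parCell (C : Cfg) (L : ℕ) (g P : Z5) (m : Fin 5 → ℕ) : Z5 :=
  fun a => (sizeOf' C L a : ℤ) * P a + (m a : ℤ) - g a

lemma cross_eq (g i : Z5) (k : ℕ) :
    cross C L g i k = parCell C L g (par C L g i) (crossPos L k) := by
  funext a
  simp only [cross, moveTo, mem_univ, if_true, parCell, par, px_cast, Int.emod_def]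
  ring

/-- The axes along which the word and what is handed down are taken from the parent behind: the
counters at their first digit. -/
def lowDir (C : Cfg) (L : ℕ) (g i : Z5) : Guest :=
  fun a => decide (2 ≤ a.val ∧ px C L g i a = 0)

/-- The parent which knows the word of a tile and what the tile hands down. -/
def low (C : Cfg) (L : ℕ) (g i : Z5) : Z5 := par C L g i - A5.dir (lowDir C L g i)

/-- Parents next to each other. -/
def Next (P P' : Z5) : Prop := ∀ a, (P' a - P a).natAbs ≤ 1

/-- The distances within which tiles commute: the plane up to the gaps of the shown bits, `n` steps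
on the counters. -/
def radius (C : Cfg) (L n : ℕ) : Rad := fun a =>
  if a = 0 then H L - cutX L - 1 else if a = 1 then H L - halfY L - 1 else n

/-! ### What is known -/

section

variable {S : SFT Lat} (Λ : Lv S C L) (o g : Z5)

/-- The own bit `k` of the parent `P`. -/
def atomObs (P : Z5) (k : ℕ) (c : Bool) : S.Obs :=
  here Λ o g (parCell C L g P (crossPos L k)) fun t => t.fin.h self = c

/-- The own bits of the parent `P` are known. -/
def ParKnown (o' : S.Obs) (P : Z5) : Prop :=
  ∀ k ≤ lastK C L, Know Λ o g o' (parCell C L g P (crossPos L k)) fun t => t.fin.h self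

/-- The word of a tile as bits. -/
def wordBits (L : ℕ) (t : Common.St C) : Bool × (Track C → Fin L → Bool) :=
  (t.fin.wOn, fun r i => (t.w r).testBit i.val)

/-- What a tile hands down. -/
def handed (L : ℕ) (t : Common.St C) : PF C := readout (claims L t)

end

/-! ### Statements -/

variable (C L)

/-- A shown bit is the own bit of the parent shown. -/
def LinkStatement : Prop :=
  ∀ {S : SFT Lat} (Λ : Lv S C L), L₀ C ≤ L → Λ.Linked → ∀ (o g P : Z5) (gu : Guest),
    ∀ k ≤ lastK C L, ∀ c : Bool,
      Same (here Λ o g (parCell C L g P (crossPos L k)) fun t => t.fin.h gu = c)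
        (atomObs Λ o g (P - A5.dir gu) k c)

/-- The own bits of parents next to each other commute. -/
def MeetStatement : Prop :=
  ∀ {S : SFT Lat} (Λ : Lv S C L), L₀ C ≤ L → Λ.Linked → ∀ (o g P P' : Z5), Next P P' →
    ∀ k ≤ lastK C L, ∀ k' ≤ lastK C L, ∀ c c' : Bool,
      Com (atomObs Λ o g P k c) (atomObs Λ o g P' k' c')

/-- What is handed down to a tile is known from the own bits of its parent. -/
def PfStatement : Prop :=
  ∀ {S : SFT Lat} (Λ : Lv S C L), L₀ C ≤ L → Λ.Linked → ∀ (o g : Z5) (o' : S.Obs),
    Under Λ o g o' → ∀ i, ParKnown Λ o g o' (par C L g i) →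
      Know Λ o g o' i fun t => t.fin.pf

/-- The word of a tile is known from the own bits of the parent below it on the counters. -/
def WordStatement : Prop :=
  ∀ {S : SFT Lat} (Λ : Lv S C L), L₀ C ≤ L → Λ.Linked → ∀ (o g : Z5) (o' : S.Obs),
    Under Λ o g o' → ∀ i, ParKnown Λ o g o' (low C L g i) → Know Λ o g o' i (wordBits L)

/-- What a tile hands down is known from the own bits of the parent below it on the counters. -/
def HandedStatement : Prop :=
  ∀ {S : SFT Lat} (Λ : Lv S C L), L₀ C ≤ L → Λ.Linked → ∀ (o g : Z5) (o' : S.Obs),
    Under Λ o g o' → ∀ i, ParKnown Λ o g o' (low C L g i) → Know Λ o g o' i (handed L)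

/-- A tile is known from the bits shown at it, what was handed down to it and its word. -/
def AllStatement : Prop :=
  ∀ {S : SFT Lat} (Λ : Lv S C L), L₀ C ≤ L → Λ.Linked → ∀ (o g : Z5) (o' : S.Obs),
    Under Λ o g o' → ∀ i, AtomsKnown Λ o g o' i → (Know Λ o g o' i fun t => t.fin.pf) →
      Know Λ o g o' i (wordBits L) → ∀ P : Common.St C → Prop, Com (here Λ o g i P) o'

/-! ### A parent read from a corner -/

variable {C}

/-- The finite data shown by a family of bits. -/
def finOf (β : ℕ → Bool) : Cell C :=
  Classical.epsilon (α := Cell C) (h := ⟨cell 1 (Common.shell C 1 0 0 (midZ C))⟩)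
    fun s => ∀ k < A C, finBits s k = β k

/-- The state shown by a family of bits. -/
def decT (β : ℕ → Bool) : Common.St C := decodeSt L (fun k _ => β k) Common.self (finOf β)

/-- The window shown by bits for all guests. -/
def decW (b : ℕ → Bits) : Common.Win (Common.St C) := fun gu => decT L fun k => b k gu

/-- What one family of bits must satisfy. -/
structure Single (β : ℕ → Bool) : Prop where
  bounds : InBounds (L + 1) (decT (C := C) L β)
  cell_eq : cell (L + 1) (decT (C := C) L β) = finOf β
  enc_eq : ∀ k ≤ lastK C L, enc (L + 1) (decT (C := C) L β) k = β k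
  word : WordNum (L + 1) (decT (C := C) L β)
  table : (claims (L + 1) (decT (C := C) L β)).zone = true →
    (decT (C := C) L β).fin.v = table C (lo (L + 1) (decT (C := C) L β).x)

/-- What two families of bits along an axis must satisfy. -/
def Pair (a : Fin 5) (β β' : ℕ → Bool) : Prop :=
  EdgeNum (L + 1) a (decT (C := C) L β) (decT (C := C) L β')

variable (C)

/-- What one corner shows of its parents. -/
def CornerParentStatement : Prop :=
  L₀ C ≤ L → ∀ (c : Common.Z5 → Common.St C) (o : Common.Z5), Corner L c o →
    InS (C := C) (fun gu => finOf fun k => cornerBits L c o k gu) ∧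
      Single (C := C) L (fun k => cornerBits L c o k Common.self) ∧
      (∀ a, Pair (C := C) L a (fun k => cornerBits L c o k Common.self)
        fun k => cornerBits L c o k (Common.axis a)) ∧
      (∀ j, 1 ≤ j → j ≤ cornerH C L →
        (c (cornerAt o (3 * M L) j)).fin.pf = handed (L + 1) (decW L (cornerBits L c o) Common.self))

/-- The conditions on all guests make the window of the parents valid. -/
def DecodeValidStatement : Prop :=
  ∀ b : ℕ → Bits, InS (C := C) (fun gu => finOf fun k => b k gu) →
    (∀ gu, Single (C := C) L fun k => b k gu) →
    (∀ gu a, gu a = false → Pair (C := C) L a (fun k => b k gu) fun k => b k (Common.back gu a)) →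
    Valid (C := C) (L + 1) (decW L b)

end Vale.Agent.P193.W4.A5
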