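import Vale.Agent.P193.W4.A5.Dead
import Vale.Agent.P193.W4.A5.Spec
import Vale.Agent.P193.W4.A5.Tile

/-!
P193, module W4 (A5): the word of a tile and what it hands down are known from the parent below it
on the counters.

The word does not change along the axes other than the last, and is absent at the first digit of
that one. At first digits the data handed down do not see what differs along those axes.
-/

noncomputable section

namespace Vale.Agent.P193.W4.A5

open BH BH.SFT Finset Common
open scoped Classical

variable {C : Cfg} {L : ℕ} {S : SFT Lat} {Λ : Lv S C L} {o g : Z5} {o' : S.Obs}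

/-! ### The parent below on the counters -/

lemma sym_first {z : Fin (base C.k)} (h : z.val = 0) : sym z = none := by
  cases hs : sym z with
  | none => rfl
  | some m =>
    have e := congrArg Fin.val (sym_eq_some.1 hs)
    simp only [W4.pos, h] at e
    omega

lemma pz_low {g i : Z5} {j : Fin 3} (h : lowDir C L g i (zAx j) = true) :
    sym (pz C L g i j) = none := by
  refine sym_first ?_
  simp only [lowDir, decide_eq_true_iff] at h
  exact h.2

lemma lowDir_plane (g i : Z5) {a : Fin 5} (h : lowDir C L g i a = true) :
    ∃ j : Fin 3, a = zAx j := by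
  simp only [lowDir, decide_eq_true_iff] at h
  exact ⟨⟨a.val - 2, by omega⟩, Fin.ext (by simp only [zAx]; omega)⟩

lemma par_low (g i : Z5) : par C L g (i - dir (lowDir C L g i)) = low C L g i := by
  funext a
  have hs : (0 : ℤ) < sizeOf' C L a := by exact_mod_cast (sizeOf_pos (C := C) (L := L) a)
  simp only [low, par, Pi.sub_apply, dir]
  by_cases h : lowDir C L g i a = true
  · rw [if_pos h]
    simp only [lowDir, decide_eq_true_iff] at h
    have h0 := px_cast (C := C) (L := L) g i a
    rw [h.2, Nat.cast_zero] at h0
    have e := Int.mul_ediv_add_emod (g a + i a) (sizeOf' C L a : ℤ)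
    rw [← h0, add_zero] at e
    refine ((Int.ediv_emod_unique hs).2 ⟨?_, show (0 : ℤ) ≤ (sizeOf' C L a : ℤ) - 1 by omega,
      by omega⟩).1
    linarith
  · simp [h]

lemma ParKnown.guest {i : Z5} (h : ParKnown Λ o g o' (par C L g i)) :
    GuestKnown Λ o g o' i Common.self := fun k hk => by
  rw [cross_eq]
  exact h k hk

/-! ### The word -/

section
variable (hL : L₀ C ≤ L) (hl : Λ.Linked) (hu : Under Λ o g o')

include hL hl hu

/-- The word is known from the bits of the own parent. -/
lemma know_wordBits {i : Z5} (hA : GuestKnown Λ o g o' i Common.self) :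
    Know Λ o g o' i (wordBits L) :=
  Know.det hl hu (wordBits L) (ι := Option (Track C × Fin L)) (δ := fun _ => Bool)
    (fun m t => m.elim t.fin.wOn fun p => (t.w p.1).testBit p.2.val)
    (fun m => by
      cases m with
      | none => exact know_on hL hl hu hA
      | some p => exact know_word hL hl hu hA p.1 p.2.val)
    fun q q' _ _ _ _ e => Prod.ext (e none) (funext fun r => funext fun n => e (some (r, n)))

omit hL hu in
/-- There is no word at the first digit of the last axis. -/
lemma fix_no_word {i : Z5} (h : sym (pz C L g i 2) = none) :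
    Fix Λ o g i (wordBits L) (false, fun _ _ => false) := by
  refine Fix.rule hl _ _ fun q hq hat => ?_
  obtain ⟨-, -, hz⟩ := at_coords hat
  have ez : (claims L (q d₀)).ex.z 2 = pz C L g i 2 := congrFun hz 2
  have hon : (q d₀).fin.wOn = false :=
    ((shape_facts hq.1.2.2.1).p Common.self).on_none
      (by rw [show (sig L q Common.self).2.ex.z 2 = _ from ez, h]; simp)
      (by rw [show (sig L q Common.self).2.ex.z 2 = _ from ez, h]; simp)
  refine Prod.ext hon (funext fun r => funext fun n => ?_)
  show ((q d₀).w r).testBit n.val = false
  rw [(hq.1.1 d₀).2.off hon r, Nat.zero_testBit]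

omit hL in
/-- The word does not change along an axis other than the last. -/
lemma wordBits_step {a : Fin 5} (ha : a ≠ 4) (j : Z5) :
    Know Λ o g o' j (wordBits L) ↔ Know Λ o g o' (j - dir (axis a)) (wordBits L) :=
  know_same hl hu (wordBits L) j a fun q hq _ => by
    have h1 := hq.1.2.2.2.2.on Common.self a rfl ha
    rw [back_self] at h1
    have h2 := (hq.1.2.1 Common.self a rfl).2.2.2.1 ha
    rw [back_self] at h2
    refine Prod.ext h1 ?_
    exact congrArg (fun w : Track C → ℕ => fun r (n : Fin L) => (w r).testBit n.val) h2

/-- The word of a tile is known from the parent below it on the counters. -/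
theorem know_word_low {i : Z5} (h : ParKnown Λ o g o' (low C L g i)) :
    Know Λ o g o' i (wordBits L) := by
  rw [← par_low] at h
  by_cases h4 : lowDir C L g i 4 = true
  · exact Fix.know hl (fix_no_word hl (pz_low (j := 2) h4)) hu
  have hk := know_wordBits hL hl hu h.guest
  set d := lowDir C L g i with hd
  let step : Fin 5 → Z5 → Z5 := fun a j => if d a then j - dir (axis a) else j
  have iffs : ∀ a, a ≠ 4 → ∀ j,
      (Know Λ o g o' j (wordBits L) ↔ Know Λ o g o' (step a j) (wordBits L)) := fun a ha j => by
    simp only [step]
    split
    · exact wordBits_step hl hu ha j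
    · rfl
  have e : step 3 (step 2 i) = i - dir d := by
    have h0 : d 0 = false := by simp [hd, lowDir]
    have h1 : d 1 = false := by simp [hd, lowDir]
    have h4' : d 4 = false := by simpa using h4
    funext a
    fin_cases a <;> cases h2 : d 2 <;> cases h3 : d 3 <;>
      simp [step, dir, axis, h0, h1, h2, h3, h4']
  rw [iffs 2 (by decide) i, iffs 3 (by decide) (step 2 i), e]
  exact hk

end

/-! ### What is handed down -/

/-- What a tile hands down, from the data handed to it and its word. -/
def handedOf (L : ℕ) (Z : Fin 3 → Option (Mid C.k)) (p : PF C)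
    (w : Bool × (Track C → Fin L → Bool)) : PF C :=
  let top : Option (Full C.k) := if h : w.1 = true ∧ L₀ C < L then
    decodeLetter C fun r => w.2 r ⟨L - 1, by omega⟩ else none
  ⟨p.flags.step Z, matchStep p.hit Z top p.top, w.1, top⟩

lemma handed_eq (L : ℕ) (t : Common.St C) :
    handed L t = handedOf L (fun j => sym (t.z j)) t.fin.pf (wordBits L t) := by
  have e : (claims L t).ex.top = if h : t.fin.wOn = true ∧ L₀ C < L then
      decodeLetter C fun r => (t.w r).testBit (L - 1) else none := by
    simp only [claims, dite_eq_ite]
  simp only [handed, readout, handedOf, wordBits, ← e]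
  rfl

/-- Below dead digits, going back along them changes nothing. -/
lemma handedOf_back {q : Common.Win (Common.St C)} (hq : Valid L q)
    (Z : Fin 3 → Option (Mid C.k)) (w : Bool × (Track C → Fin L → Bool)) (s : Finset (Fin 3))
    (hs : ∀ j ∈ s, Z j = none) :
    handedOf L Z (q d₀).fin.pf w =
      handedOf L Z (q fun a => decide (∃ j ∈ s, a = zAx j)).fin.pf w := by
  induction s using Finset.induction_on with
  | empty =>
    have : (fun a => decide (∃ j ∈ (∅ : Finset (Fin 3)), a = zAx j)) = (d₀ : Dir) := by
      funext a; simp [d₀]
    rw [this]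
  | @insert x s hx ih =>
    rw [ih fun j hj => hs j (mem_insert_of_mem hj)]
    set G : Dir := fun a => decide (∃ j ∈ s, a = zAx j) with hG
    have hinj : ∀ {j j' : Fin 3}, zAx j = zAx j' → j = j' := fun e =>
      Fin.ext (by simpa [zAx] using congrArg Fin.val e)
    have hGx : G (zAx x) = false := by
      simp only [hG, decide_eq_false_iff_not]
      rintro ⟨j, hj, e⟩
      exact hx (hinj e ▸ hj)
    have hB : (q G).fin.pf.Beside x (q (Common.back G (zAx x))).fin.pf :=
      hq.1.2.2.2.2.counter G x hGx
    have e : Common.back G (zAx x) = fun a => decide (∃ j ∈ insert x s, a = zAx j) := by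
      funext a
      by_cases hax : a = zAx x <;> simp [Common.back, hG, hax]
    rw [← e]
    have hz := hs x (mem_insert_self x s)
    simp only [handedOf, flags_dead hz hB, match_dead hz hB]

section
variable (hL : L₀ C ≤ L) (hl : Λ.Linked) (hu : Under Λ o g o')

include hL hl hu

/-- What a tile hands down is known from the parent below it on the counters. -/
theorem know_handed_low {i : Z5} (h : ParKnown Λ o g o' (low C L g i)) :
    Know Λ o g o' i (handed L) := by
  have hw := know_word_low hL hl hu h
  rw [← par_low] at h
  have hp := know_pf hL hl hu h.guest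
  have hk := Know.step₂ hl hu (i := i) d₀ (handed L) (lowDir C L g i) d₀ hp
    (by rw [dir_zero]; exact hw)
    (ι' := Empty) (δ' := fun _ => Unit) Empty.elim (fun m => m.elim) (fun m => m.elim)
    (fun m => m.elim) fun q q' hq hq' hat hat' _ _ e e' => ?_
  · rwa [dir_zero] at hk
  set s : Finset (Fin 3) := univ.filter fun j => lowDir C L g i (zAx j) = true with hs
  have hd : (fun a => decide (∃ j ∈ s, a = zAx j)) = lowDir C L g i := by
    funext a
    rw [Bool.eq_iff_iff, decide_eq_true_iff]
    constructor
    · rintro ⟨j, hj, rfl⟩
      exact (mem_filter.1 hj).2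
    · intro ha
      obtain ⟨j, rfl⟩ := lowDir_plane g i ha
      exact ⟨j, mem_filter.2 ⟨mem_univ j, ha⟩, rfl⟩
  have key : ∀ q : Common.Win (Common.St C), Valid L q → (pos5 C L).At g i (q d₀) →
      handed L (q d₀) = handedOf L (fun j => sym (pz C L g i j))
        (q (lowDir C L g i)).fin.pf (wordBits L (q d₀)) := fun q hq hat => by
    obtain ⟨-, -, hz⟩ := at_coords hat
    rw [handed_eq, hz, handedOf_back hq (fun j => sym (pz C L g i j)) _ s
      (fun j hj => pz_low (mem_filter.1 hj).2), hd]
  rw [key q hq hat, key q' hq' hat', e, e']

end

variable (C L)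

theorem wordStatement : WordStatement C L :=
  fun _ hL hl _ _ _ hu _ h => know_word_low hL hl hu h

theorem handedStatement : HandedStatement C L :=
  fun _ hL hl _ _ _ hu _ h => know_handed_low hL hl hu h

end Vale.Agent.P193.W4.A5
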