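import Vale.Agent.P193.W4.A5.Main
import Vale.Agent.P193.W4.A5.Meet
import Vale.Agent.P193.W4.A5.Fields
import Vale.Agent.P193.W4.A5.Word

/-!
P193, module W4 (A5): the common layer is rigid once parents form levels.
-/

namespace Vale.Agent.P193.W4.A5

open Common

/-- All pieces but the level of the parents. -/
theorem pieces_of_up {C : Cfg} (hup : UpStatement C) : Pieces C where
  link _ := linkStatement
  meet _ := meetStatement
  pf L := pfStatement C L
  word L := wordStatement C L
  handed L := handedStatement C L
  all L := allStatement C L
  up := hup

/-- The common layer is rigid once parents form levels. -/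
theorem rigid_of_up {C : Cfg} (hup : UpStatement C) : (sft C).Rigid :=
  rigid_of_pieces C (pieces_of_up hup)

end Vale.Agent.P193.W4.A5
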