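import Vale.Agent.P193.W4.A5.Frame
import Vale.Agent.P193.W4.Common.Facts.Shape
import Vale.Agent.P193.W4.Common.EndOK

/-!
P193, module W4 (A5): the fields fixed by the position of a tile.

They are those of a child without bits at the same position: the counter, the rows in use and the
extent of the scanning and table columns. Their rules from a tile to the one above it are those of
children, so nothing about numbers is needed except for the counter itself.
-/

noncomputable section

namespace Vale.Agent.P193.W4.A5

open BH BH.SFT Finset Common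
open scoped Classical

variable {C : Cfg} {L : ℕ}

/-- The rule of the counter for children. -/
lemma child_counter (hL : L₀ C ≤ L) (τ : ℕ → Bool) (b b' : ℕ → Bits) {X Y : ℕ} (Z : Digits C)
    (hX : X < H L) (hY : Y + 1 < H L) :
    CounterNum L (child L τ b X (Y + 1) Z) (child L τ b' X Y Z) := by
  have hY' : Y < H L := by omega
  obtain ⟨-, r1, r2, r3⟩ := rows_succ (C := C) hL Y
  have hYB := A_lt_YB C
  have hT := T_pos C
  obtain ⟨cA, hcA⟩ := T_dvd_A C
  have hc : ((claims L (child L τ b X (Y + 1) Z)).isScan &&
      !(decide ((child L τ b X (Y + 1) Z).y = 0)) &&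
      decide (A C ≤ (claims L (child L τ b X (Y + 1) Z)).cy.yhC.val)) = true ↔
      (IsCol L X 3 ∧ lo L X = 0) ∧ A C ≤ hi L (Y + 1) := by
    simp only [Bool.and_eq_true, claims_scan τ b X (Y + 1) Z hX, claims_yhC τ b X (Y + 1) Z hY,
      child_y τ b X (Y + 1) Z hY, decide_eq_true_iff, Bool.not_eq_true', decide_eq_false_iff_not]
    exact ⟨fun h => ⟨h.1.1, by omega⟩, fun h => ⟨⟨h.1, by omega⟩, by omega⟩⟩
  have hw : ((claims L (child L τ b X (Y + 1) Z)).isWire &&
      decide ((claims L (child L τ b X (Y + 1) Z)).cy.yhMod.val = 0)) = true ↔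
      IsWire L (Y + 1) ∧ hi L (Y + 1) % T C = 0 := by
    simp only [Bool.and_eq_true, claims_wire τ b X (Y + 1) Z hY,
      claims_yhMod τ b X (Y + 1) Z hY, decide_eq_true_iff]
  have hmono : rowIdx L (Y + 1) ≤ hi L (Y + 1) :=
    Nat.div_le_div_right (Nat.sub_le _ _)
  unfold CounterNum
  dsimp only
  simp only [claims_yhC τ b X (Y + 1) Z hY, child_u τ b X (Y + 1) Z hX hY,
    child_u τ b' X Y Z hX hY'] at hc ⊢
  by_cases h : (IsCol L X 3 ∧ lo L X = 0) ∧ A C ≤ hi L (Y + 1)
  · rw [if_pos (hc.2 h)]
    obtain ⟨hs, hA⟩ := h
    by_cases hwire : IsWire L (Y + 1)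
    · obtain ⟨-, e2, -, e4⟩ := r2 hwire
      obtain ⟨m1, m2⟩ := e4 (by have := A_ge C; omega)
      have hM : M L ≤ Y + 1 := by omega
      rw [e2, if_pos (show IsCol L X 3 ∧ lo L X = 0 ∧ M L ≤ Y + 1 ∧ A C ≤ hi L (Y + 1) from
        ⟨hs.1, hs.2, hM, hA⟩)]
      by_cases hmod : hi L (Y + 1) % T C = 0
      · rw [if_pos (hw.2 ⟨hwire, hmod⟩)]
        by_cases heq : hi L (Y + 1) = A C
        · rw [if_pos (by omega), heq, Nat.sub_self, Nat.zero_div, pow_zero,
            Nat.mod_eq_of_lt (show 1 < M L by have := two_le_M hL; omega)]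
        · obtain ⟨d, hd⟩ := Nat.dvd_of_mod_eq_zero hmod
          have hlt : cA < d := Nat.lt_of_mul_lt_mul_left (a := T C) (by omega)
          obtain ⟨e, rfl⟩ : ∃ e, d = cA + (e + 1) := ⟨d - cA - 1, by omega⟩
          rw [Nat.mul_add, Nat.mul_add, ← hcA, mul_one] at hd
          rw [if_neg (by omega), if_pos ⟨hs.1, hs.2, m1, by omega⟩, hd,
            show A C + (T C * e + T C) - A C = T C * (e + 1) by rw [Nat.mul_add, mul_one]; omega,
            Nat.mul_div_cancel_left _ hT,
            show rowIdx L Y - A C = (T C - 1) + T C * e by omega,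
            Nat.add_mul_div_left _ _ hT, Nat.div_eq_of_lt (show T C - 1 < T C by omega),
            Nat.zero_add, pow_succ', Nat.mul_mod_mod]
      · rw [if_neg fun h' => hmod (hw.1 h').2]
        have hne : hi L (Y + 1) ≠ A C := fun e => hmod (by rw [e, hcA, Nat.mul_mod_right])
        rw [if_pos ⟨hs.1, hs.2, m1, by omega⟩]
        congr 2
        have h1 := Nat.div_add_mod (hi L (Y + 1) - A C) (T C)
        have h2 : (hi L (Y + 1) - A C) % T C ≠ 0 := by
          rwa [mod_T_sub' hcA (by omega)]
        have h3 := Nat.mod_lt (hi L (Y + 1) - A C) hT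
        rw [show rowIdx L Y - A C = ((hi L (Y + 1) - A C) % T C - 1) +
          T C * ((hi L (Y + 1) - A C) / T C) by omega, Nat.add_mul_div_left _ _ hT,
          Nat.div_eq_of_lt (show (hi L (Y + 1) - A C) % T C - 1 < T C by omega), Nat.zero_add]
    · rw [if_neg fun h' => hwire (hw.1 h').1]
      by_cases hwy : IsWire L Y
      · obtain ⟨e1, -, e3, e4, -⟩ := r1 hwy
        refine if_congr ⟨fun h' => ⟨h'.1, h'.2.1, e3, ?_⟩, fun h' => ⟨h'.1, h'.2.1, by omega, ?_⟩⟩
          (by rw [e1, e4]) rfl <;>
        · have := h'.2.2.2
          rw [e1] at *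
          rw [e4] at *
          omega
      · obtain ⟨-, e2, e3⟩ := r3 hwy hwire
        rw [e3]
        exact if_congr (by rw [e2]) rfl rfl
  · rw [if_neg fun h' => h (hc.1 h')]
    exact if_neg fun h' => h ⟨⟨h'.1, h'.2.1⟩, by omega⟩
where
  mod_T_sub' {cA : ℕ} (hcA : A C = T C * cA) {k : ℕ} (hk : A C ≤ k) :
      (k - A C) % T C = k % T C := by
    conv_rhs => rw [show k = (k - A C) + T C * cA by omega, Nat.add_mul_mod_self_left]

/-- The digits of the cell `i` in the grid `g`. -/
def pz (C : Cfg) (L : ℕ) (g i : Z5) : Digits C := fun j =>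
  ⟨px C L g i (zAx j), by
    have := px_lt (C := C) (L := L) g i (zAx j)
    fin_cases j <;> exact this⟩

/-- The child without bits at the place of the cell `i`. -/
def shell (C : Cfg) (L : ℕ) (g i : Z5) : Common.St C :=
  child L (fun _ => false) (fun _ _ => false) (px C L g i 0) (px C L g i 1) (pz C L g i)

lemma px_lt_H (g i : Z5) : px C L g i 0 < H L ∧ px C L g i 1 < H L :=
  ⟨px_lt g i 0, px_lt g i 1⟩

/-- The coordinates of a tile at its place. -/
lemma at_coords {g i : Z5} {t : Common.St C} (h : (pos5 C L).At g i t) :
    t.x = px C L g i 0 ∧ t.y = px C L g i 1 ∧ t.z = pz C L g i := by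
  rw [at_iff] at h
  refine ⟨h 0, h 1, funext fun j => Fin.ext ?_⟩
  fin_cases j <;> [exact h 2; exact h 3; exact h 4]

lemma shell_coords (g i : Z5) : (shell C L g i).x = px C L g i 0 ∧
    (shell C L g i).y = px C L g i 1 ∧ (shell C L g i).z = pz C L g i :=
  ⟨child_x _ _ _ _ _ (px_lt g i 0), child_y _ _ _ _ _ (px_lt g i 1), rfl⟩

/-- The tile below. -/
def below (i : Z5) : Z5 := i - dir (axis 1)

lemma below_px (g i : Z5) (a : Fin 5) : px C L g (below i) a =
    if a = 1 then (px C L g i 1 + H L - 1) % H L else px C L g i a := px_step g i 1 a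

lemma pz_below (g i : Z5) : pz C L g (below i) = pz C L g i := funext fun j => Fin.ext <| by
  show px C L g (below i) (zAx j) = px C L g i (zAx j)
  rw [below_px, if_neg]
  fin_cases j <;> decide

lemma shell_below (g i : Z5) : shell C L g (below i) =
    child L (fun _ => false) (fun _ _ => false) (px C L g i 0) (pred' L (px C L g i 1))
      (pz C L g i) := by
  have h0 : px C L g (below i) 0 = px C L g i 0 := by rw [below_px, if_neg]; decide
  have h1 : px C L g (below i) 1 = pred' L (px C L g i 1) := by
    rw [below_px, if_pos rfl]; rfl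
  rw [shell, pz_below, h0, h1]

lemma shell_edge (hL : L₀ C ≤ L) (g i : Z5) :
    EFacts 1 (cell L (shell C L g i)) (cell L (shell C L g (below i))) := by
  rw [shell_below]
  have h := childE hL (fun _ => false) (b := fun _ _ => false) (b' := fun _ _ => false)
    (pz C L g i) (px_lt (C := C) g i 0) (px_lt (C := C) g i 1) (a := 1) (by
      unfold EBits; split_ifs <;> simp)
  have e3 : behindZ 1 (pz C L g i) = pz C L g i :=
    funext fun j => if_neg (by fin_cases j <;> decide)
  rwa [show behindX L 1 (px C L g i 0) = px C L g i 0 from if_neg (by decide),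
    show behindY L 1 (px C L g i 1) = pred' L (px C L g i 1) from if_pos rfl, e3] at h

/-- What the rules of columns read of a tile besides its state below and the bits shown. -/
lemma claims_pos {t t' : Common.St C} (hx : t.x = t'.x) (hy : t.y = t'.y) (hu : t.u = t'.u)
    (hz : t.z = t'.z) :
    (claims L t).cx = (claims L t').cx ∧ (claims L t).cy = (claims L t').cy ∧
      (claims L t).cm = (claims L t').cm ∧ (claims L t).ex.z = (claims L t').ex.z ∧
        (claims L t).ex.mach = (claims L t').ex.mach := by
  simp only [claims, hx, hy, hu, hz, and_self]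

lemma carryNext_some {t t' d d' : Claims C} (h1 : t.cx = t'.cx) (h2 : t.cy = t'.cy)
    (h3 : t.cm = t'.cm) (h4 : t.ex.z = t'.ex.z) (k3 : d.cm = d'.cm) (dc dc' : Option (Carry C))
    (hd : dc.isSome = dc'.isSome) (q q' : Bits) :
    (carryNext t d dc q).isSome = (carryNext t' d' dc' q').isSome := by
  have e1 : t.isScan = t'.isScan := by rw [Claims.isScan, Claims.isScan, h1]
  have e2 : t.middle = t'.middle := by simp only [Claims.middle, h4]
  have e3 : t.isWire = t'.isWire := by rw [Claims.isWire, Claims.isWire, h2]
  have e4 : t.isY0 = t'.isY0 := by rw [Claims.isY0, Claims.isY0, h2]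
  have e5 : endPhase t d = endPhase t' d' := by rw [endPhase, endPhase, h2, h3, k3]
  simp only [carryNext, e1, e2, e3, e4, e5, h2, apply_ite Option.isSome,
    Option.isSome_map, Option.isSome_some, Option.isSome_none, hd]

lemma eqNext_some {t t' d d' : Claims C} (h1 : t.cx = t'.cx) (h2 : t.cy = t'.cy)
    (h4 : t.ex.z = t'.ex.z) (k2 : d.cy = d'.cy) (de de' : Option Bool)
    (hd : de.isSome = de'.isSome) (q q' : Bits) :
    (eqNext t d de q).isSome = (eqNext t' d' de' q').isSome := by
  have e1 : t.zoneAt 4 = t'.zoneAt 4 := by simp only [Claims.zoneAt, h1]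
  have e2 : t.middle = t'.middle := by simp only [Claims.middle, h4]
  have e3 : t.isWire = t'.isWire := by rw [Claims.isWire, Claims.isWire, h2]
  have e4 : t.isY0 = t'.isY0 := by rw [Claims.isY0, Claims.isY0, h2]
  have e5 : d.isWire = d'.isWire := by rw [Claims.isWire, Claims.isWire, k2]
  simp only [eqNext, e1, e2, e3, e4, e5, h2, k2, apply_ite Option.isSome,
    Option.isSome_map, Option.isSome_some, Option.isSome_none, hd]

lemma lookNext_some {t t' d d' : Claims C} (h1 : t.cx = t'.cx) (h2 : t.cy = t'.cy)
    (h4 : t.ex.z = t'.ex.z) (k2 : d.cy = d'.cy) (dl dl' : Option (Look C))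
    (hd : dl.isSome = dl'.isSome) (q q' : Bits) :
    (lookNext t d dl q).isSome = (lookNext t' d' dl' q').isSome := by
  have e1 : t.zoneAt 6 = t'.zoneAt 6 := by simp only [Claims.zoneAt, h1]
  have e2 : t.middle = t'.middle := by simp only [Claims.middle, h4]
  have e3 : t.isWire = t'.isWire := by rw [Claims.isWire, Claims.isWire, h2]
  have e4 : t.isY0 = t'.isY0 := by rw [Claims.isY0, Claims.isY0, h2]
  have e5 : d.isWire = d'.isWire := by rw [Claims.isWire, Claims.isWire, k2]
  simp only [lookNext, e1, e2, e3, e4, e5, h2, k2, apply_ite Option.isSome,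
    Option.isSome_map, Option.isSome_some, Option.isSome_none, hd]

variable {S : SFT Lat} {Λ : Lv S C L} {o g : Z5}

/-- Recursion along the columns. -/
lemma column_induction {P : Z5 → Prop}
    (h : ∀ i, (0 < px C L g i 1 → P (below i)) → P i) (i : Z5) : P i := by
  suffices H : ∀ n i, px C L g i 1 = n → P i from H _ i rfl
  intro n
  induction n with
  | zero => exact fun i hi => h i fun h0 => absurd h0 (by omega)
  | succ n ih =>
    intro i hi
    refine h i fun h0 => ih _ ?_
    have hlt := (px_lt_H (C := C) (L := L) g i).2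
    rw [below_px, if_pos rfl, hi, show n + 1 + H L - 1 = n + H L by omega, Nat.add_mod_right,
      Nat.mod_eq_of_lt (by omega)]

lemma below_eq (i : Z5) : i - dir (back self 1) = below i := by
  have : back self 1 = axis 1 := by funext c; simp [back, self, axis]
  rw [this]; rfl

lemma fix_column (hl : Λ.Linked) {β : Type} (f : Common.St C → β) (hf : ∀ i : Z5, ∀ q, Valid L q →
      (pos5 C L).At g i (q d₀) → (0 < px C L g i 1 →
        f (q (back self 1)) = f (shell C L g (below i))) →
      f (q d₀) = f (shell C L g i)) (i : Z5) :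
    Fix Λ o g i f (f (shell C L g i)) := by
  refine column_induction (C := C) (L := L) (g := g)
    (P := fun i => Fix Λ o g i f (f (shell C L g i))) (fun i ih => ?_) i
  have e0 : i - dir d₀ = i := by simp
  by_cases h0 : 0 < px C L g i 1
  · have h := Fix.step hl (o := o) (g := g) (i := i) d₀ f (f (shell C L g i))
      (ι := Unit) (δ := fun _ => β) (fun _ => back self 1) (fun _ => f)
      (fun _ => f (shell C L g (below i))) (fun _ => by rw [below_eq]; exact ih h0)
      fun q hq hat hd => hf i q hq hat fun _ => hd ()
    rwa [e0] at h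
  · have h := Fix.step hl (o := o) (g := g) (i := i) d₀ f (f (shell C L g i))
      (ι := Empty) (δ := fun _ => β) Empty.elim (fun m => m.elim) (fun m => m.elim)
      (fun m => m.elim) fun q hq hat _ => hf i q hq hat fun h => absurd h h0
    rwa [e0] at h

variable (hL : L₀ C ≤ L) (hl : Λ.Linked)

include hL hl

/-- The counter. -/
theorem fix_u (i : Z5) : Fix Λ o g i (fun t => t.u) (shell C L g i).u := by
  refine fix_column hl (fun t => t.u) (fun i q hq hat hd => ?_) i
  obtain ⟨hx, hy, hz⟩ := at_coords hat
  obtain ⟨sx, sy, sz⟩ := shell_coords (C := C) (L := L) g i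
  have hn := hq.1.2.1 self 1 rfl
  obtain ⟨-, hyc, -⟩ := hn
  rw [if_pos rfl] at hyc
  have hcnt := hyc.2
  rcases Nat.eq_zero_or_pos (px C L g i 1) with h0 | h0
  · have hy0 : (q self).y = 0 := by rw [← h0]; exact hy
    unfold CounterNum at hcnt
    simp only [hy0, decide_true, Bool.not_true, Bool.and_false, Bool.false_and,
      Bool.false_eq_true, if_false] at hcnt
    show (q self).u = _
    rw [hcnt, shell, child_u _ _ _ _ _ (px_lt g i 0) (px_lt g i 1), if_neg]
    intro h
    have := M_pos L
    omega
  · have hlt := (px_lt_H (C := C) (L := L) g i).2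
    have hc := child_counter hL (fun _ => false) (fun _ _ => false) (fun _ _ => false)
      (Y := px C L g i 1 - 1) (pz C L g i) (px_lt (C := C) g i 0) (by omega)
    have hp : pred' L (px C L g i 1) = px C L g i 1 - 1 := by
      rcases pred_cases hlt with h | h <;> omega
    have hb := shell_below (C := C) (L := L) g i
    rw [hp] at hb
    rw [← hb, show px C L g i 1 - 1 + 1 = px C L g i 1 by omega, ← shell] at hc
    have hd' : (q (back self 1)).u = (shell C L g (below i)).u := hd h0
    have hy' : (q self).y = px C L g i 1 := hy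
    have hx' : (q self).x = px C L g i 0 := hx
    unfold CounterNum at hcnt hc
    simp only [claims, hy', hx', sx, sy, hd', Claims.isScan, Claims.isWire] at hcnt hc ⊢
    show (q self).u = _
    split_ifs at hcnt hc <;> omega

omit hL hl in
lemma self_eq (i : Z5) : i - dir (self : Dir) = i := by
  have : i - dir d₀ = i := by simp
  exact this

omit hL hl in
/-- The claims at a place, up to the fixed counter. -/
lemma claims_shell {i : Z5} {t : Common.St C} (h : (pos5 C L).At g i t)
    (hu : t.u = (shell C L g i).u) :
    (claims L t).cx = (claims L (shell C L g i)).cx ∧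
      (claims L t).cy = (claims L (shell C L g i)).cy ∧
      (claims L t).cm = (claims L (shell C L g i)).cm ∧
      (claims L t).ex.z = (claims L (shell C L g i)).ex.z ∧
      (claims L t).ex.mach = (claims L (shell C L g i)).ex.mach := by
  obtain ⟨hx, hy, hz⟩ := at_coords h
  obtain ⟨sx, sy, sz⟩ := shell_coords (C := C) (L := L) g i
  exact claims_pos (hx.trans sx.symm) (hy.trans sy.symm) hu (hz.trans sz.symm)

/-- A field kept by a rule of the columns is that of the shell. -/
lemma fix_some {β : Type} (f : Fin' C → Option β)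
    (nx : Claims C → Claims C → Option β → Bits → Option β) (qb : Cell C → Cell C → Bits)
    (hnx : ∀ {t d : Cell C}, EFacts 1 t d → f t.1 = nx t.2 d.2 (f d.1) (qb t d))
    (hsame : ∀ {t t' d d' : Claims C}, t.cx = t'.cx → t.cy = t'.cy → t.cm = t'.cm →
      t.ex.z = t'.ex.z → d.cy = d'.cy → d.cm = d'.cm → ∀ (dc dc' : Option β),
      dc.isSome = dc'.isSome → ∀ q q' : Bits, (nx t d dc q).isSome = (nx t' d' dc' q').isSome)
    (hzero : ∀ (t d : Claims C) (dc : Option β) (q : Bits), t.isY0 = true → nx t d dc q = none)
    (i : Z5) : Fix Λ o g i (fun t => (f t.fin).isSome) (f (shell C L g i).fin).isSome := by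
  have e1 : back self 1 = axis 1 := by funext c; simp [back, self, axis]
  refine column_induction (C := C) (L := L) (g := g)
    (P := fun i => Fix Λ o g i (fun t => (f t.fin).isSome) (f (shell C L g i).fin).isSome)
    (fun i ih => ?_) i
  have hW : ∀ q, Valid L q → f (q d₀).fin =
      nx (claims L (q d₀)) (claims L (q (back self 1))) (f (q (back self 1)).fin)
        (qb (cell L (q d₀)) (cell L (q (back self 1)))) := fun q hq =>
    hnx ((shape_facts hq.1.2.2.1).e self 1 rfl)
  have hS : f (shell C L g i).fin = nx (claims L (shell C L g i))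
      (claims L (shell C L g (below i))) (f (shell C L g (below i)).fin)
      (qb (cell L (shell C L g i)) (cell L (shell C L g (below i)))) := hnx (shell_edge hL g i)
  rcases Nat.eq_zero_or_pos (px C L g i 1) with h0 | h0
  · have h := Fix.step hl (o := o) (g := g) (i := i) d₀ (fun t => (f t.fin).isSome)
      (f (shell C L g i).fin).isSome (ι := Empty) (δ := fun _ => Unit) Empty.elim
      (fun m => m.elim) (fun m => m.elim) (fun m => m.elim) fun q hq hat _ => by
        obtain ⟨-, hy, -⟩ := at_coords hat
        obtain ⟨-, sy, -⟩ := shell_coords (C := C) (L := L) g i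
        have z : ∀ t : Common.St C, t.y = 0 → (claims L t).isY0 = true := fun t ht => by
          rw [Common.Scanning.isY0_claims, ht, decide_eq_true rfl]
        rw [hW q hq, hS, hzero _ _ _ _ (z _ (hy.trans h0)), hzero _ _ _ _ (z _ (sy.trans h0))]
    simpa using h
  · have h := Fix.step hl (o := o) (g := g) (i := i) d₀ (fun t => (f t.fin).isSome)
      (f (shell C L g i).fin).isSome (ι := Option Bool)
      (δ := fun m => match m with | none => ℕ | some true => ℕ | some false => Bool)
      (fun m => match m with | none => d₀ | some _ => back self 1)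
      (fun m => match m with
        | none => fun t => t.u | some true => fun t => t.u
        | some false => fun t => (f t.fin).isSome)
      (fun m => match m with
        | none => (shell C L g i).u | some true => (shell C L g (below i)).u
        | some false => (f (shell C L g (below i)).fin).isSome)
      (fun m => match m with
        | none => by simpa using fix_u hL hl i
        | some true => by rw [below_eq]; exact fix_u hL hl _
        | some false => by rw [below_eq]; exact ih h0)
      fun q hq hat hd => by
        have hd' := at_all hq hat (back self 1)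
        rw [below_eq] at hd'
        obtain ⟨k1, k2, k3, k4, -⟩ := claims_shell hat (hd none)
        obtain ⟨-, l2, l3, -, -⟩ := claims_shell hd' (hd (some true))
        rw [hW q hq, hS]
        exact hsame k1 k2 k3 k4 l2 l3 _ _ (hd (some false)) _ _
    simpa using h

/-- The extent of the scanning column. -/
theorem fix_carry (i : Z5) :
    Fix Λ o g i (fun t => t.fin.carry.isSome) (shell C L g i).fin.carry.isSome :=
  fix_some hL hl (fun f => f.carry) carryNext (fun t _ => t.1.h) (fun h => h.carry rfl)
    (fun h1 h2 h3 h4 _ k3 => carryNext_some h1 h2 h3 h4 k3)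
    (fun t d dc q h => by
      have hw : t.isWire = false := by
        simp only [Claims.isY0, Bool.and_eq_true, decide_eq_true_iff] at h
        simp [Claims.isWire, h.1.2]
      simp [carryNext, hw, h]) i

/-- The extent of the equality column. -/
theorem fix_eq (i : Z5) : Fix Λ o g i (fun t => t.fin.eq.isSome) (shell C L g i).fin.eq.isSome :=
  fix_some hL hl (fun f => f.eq) eqNext (fun _ d => d.1.h) (fun h => h.eq rfl)
    (fun h1 h2 _ h4 k2 _ => eqNext_some h1 h2 h4 k2)
    (fun t d dc q h => by simp [eqNext, h]) i

/-- The extent of the lookup column. -/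
theorem fix_look (i : Z5) :
    Fix Λ o g i (fun t => t.fin.look.isSome) (shell C L g i).fin.look.isSome :=
  fix_some hL hl (fun f => f.look) lookNext (fun _ d => d.1.h) (fun h => h.look rfl)
    (fun h1 h2 _ h4 k2 _ => lookNext_some h1 h2 h4 k2)
    (fun t d dc q h => by simp [lookNext, h]) i

omit hL hl

/-- What is kept by steps along some axes is kept between cells differing only there. -/
lemma axes_induction {P : Z5 → Prop} (s : Finset (Fin 5))
    (h : ∀ a ∈ s, ∀ i, P i ↔ P (i - dir (axis a))) {i i' : Z5} (he : ∀ a, a ∉ s → i a = i' a) :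
    P i ↔ P i' := by
  induction s using Finset.induction_on generalizing i with
  | empty => rw [funext fun a => he a (notMem_empty a)]
  | @insert x s hx ih =>
    have line : ∀ (n : ℤ) i, P i ↔ P (i + n • dir (axis x)) := by
      intro n
      induction n using Int.induction_on with
      | zero => simp
      | succ n ihn =>
        intro i
        rw [ihn i, h x (mem_insert_self x s) (i + ((n : ℤ) + 1) • dir (axis x)), add_smul, one_smul,
          add_sub_assoc, add_sub_cancel_right]
      | pred n ihn =>
        intro i
        rw [ihn i, h x (mem_insert_self x s) (i + (-(n : ℤ)) • dir (axis x)), sub_smul, one_smul,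
          add_sub_assoc]
    rw [line (i' x - i x) i]
    refine ih (fun a ha => h a (mem_insert_of_mem ha)) fun a ha => ?_
    by_cases hax : a = x
    · subst hax; simp [dir, axis]
    · simp [dir, axis, hax, he a (by simp [ha, hax])]

/-- The cell of the parent of `i` at the positions `m` on the axes `s`. -/
def moveTo (C : Cfg) (L : ℕ) (g i : Z5) (s : Finset (Fin 5)) (m : Fin 5 → ℕ) : Z5 :=
  fun a => if a ∈ s then i a + ((m a : ℤ) - (px C L g i a : ℤ)) else i a

lemma px_cast (g i : Z5) (a : Fin 5) :
    (px C L g i a : ℤ) = (g a + i a) % (sizeOf' C L a : ℤ) := by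
  have h : (0 : ℤ) < sizeOf' C L a := by exact_mod_cast (sizeOf_pos (C := C) (L := L) a)
  simp only [px, Pos.red, pos5, Pi.add_apply]
  exact Int.toNat_of_nonneg (Int.emod_nonneg _ h.ne')

lemma px_moveTo {g i : Z5} {s : Finset (Fin 5)} {m : Fin 5 → ℕ}
    (hm : ∀ a ∈ s, m a < sizeOf' C L a) (a : Fin 5) :
    px C L g (moveTo C L g i s m) a = if a ∈ s then m a else px C L g i a := by
  apply Int.ofNat_inj.1
  rw [px_cast]
  by_cases ha : a ∈ s
  · rw [if_pos ha, moveTo, if_pos ha, px_cast, ← add_assoc, add_comm,
      show (m a : ℤ) - (g a + i a) % (sizeOf' C L a : ℤ) + (g a + i a) =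
        (m a : ℤ) + (sizeOf' C L a : ℤ) * ((g a + i a) / (sizeOf' C L a : ℤ)) by
          rw [Int.emod_def]; ring,
      Int.add_mul_emod_self_left,
      Int.emod_eq_of_lt (by omega) (Int.ofNat_lt.2 (hm a ha))]
  · rw [if_neg ha, moveTo, if_neg ha, ← px_cast]

lemma EFacts.live_shell (hL : L₀ C ≤ L) (g i : Z5) {a : Fin 5} (ha : a ≠ 1) :
    (shell C L g i).fin.live = (shell C L g (i - dir (axis a))).fin.live := by
  have hy : (shell C L g i).y = (shell C L g (i - dir (axis a))).y := by
    rw [(shell_coords g i).2.1, (shell_coords g _).2.1, px_step, if_neg (Ne.symm ha)]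
  simp only [shell, child] at hy ⊢
  rw [hy]

lemma back_self (a : Fin 5) : (back self a : Dir) = axis a := by
  funext c; simp [back, self, axis]

include hL hl in
/-- The rows in use. -/
theorem fix_live (i : Z5) : Fix Λ o g i (fun t => t.fin.live) (shell C L g i).fin.live := by
  let P : Z5 → Prop := fun i => Fix Λ o g i (fun t => t.fin.live) (shell C L g i).fin.live
  -- one step along an axis other than the vertical one
  have step : ∀ a ∈ ({0, 2, 3, 4} : Finset (Fin 5)), ∀ i, P i ↔ P (i - dir (axis a)) := by
    intro a ha i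
    have ha1 : a ≠ 1 := by rintro rfl; simp at ha
    have hs := EFacts.live_shell hL g i ha1
    have he : ∀ q : Common.Win (Common.St C), Valid L q → (q d₀).fin.live = (q (axis a)).fin.live := fun q hq => by
      have h := ((shape_facts hq.1.2.2.1).e self a rfl).live ha1
      rw [back_self] at h
      exact h
    constructor
    · intro h
      refine Fix.step hl (i := i) (axis a) _ _ (ι := Unit) (δ := fun _ => Bool) (fun _ => d₀)
        (fun _ t => t.fin.live) (fun _ => (shell C L g i).fin.live) (fun _ => by simpa using h)
        fun q hq _ hd => ?_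
      rw [← hs, ← he q hq]
      exact hd ()
    · intro h
      have h' := Fix.step hl (o := o) (g := g) (i := i) d₀ (fun t => t.fin.live)
        (shell C L g i).fin.live (ι := Unit) (δ := fun _ => Bool) (fun _ => axis a)
        (fun _ t => t.fin.live) (fun _ => (shell C L g (i - dir (axis a))).fin.live) (fun _ => h)
        fun q hq _ hd => by rw [hs, he q hq]; exact hd ()
      simpa [P] using h'
  obtain ⟨h1, -, h3, -⟩ := bounds_M hL
  have hcol : M L * 3 < H L := by
    have := cuts_lt (C := C) hL
    unfold cutX at this
    omega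
  have hb := base_ge C.k
  let m : Fin 5 → ℕ := fun a => if a = 0 then M L * 3 else 1
  have hm : ∀ a ∈ ({0, 2, 3, 4} : Finset (Fin 5)), m a < sizeOf' C L a := by
    intro a ha
    fin_cases a <;> simp [m, sizeOf'] at ha ⊢ <;> omega
  refine (axes_induction (P := P) _ step (i' := moveTo C L g i {0, 2, 3, 4} m) fun a ha => ?_).2 ?_
  · rw [moveTo, if_neg ha]
  set i' := moveTo C L g i {0, 2, 3, 4} m
  have hp := px_moveTo (g := g) (i := i) hm
  show Fix Λ o g i' (fun t => t.fin.live) (shell C L g i').fin.live
  have hx0 : px C L g i' 0 = M L * 3 := by rw [hp, if_pos (by simp)]; rfl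
  have hz : pz C L g i' = fun _ => ⟨1, by omega⟩ := funext fun j => Fin.ext <| by
    show px C L g i' (zAx j) = 1
    rw [hp]
    fin_cases j <;> simp [zAx, m]
  have h := Fix.step hl (o := o) (g := g) (i := i') d₀ (fun t => t.fin.live)
    (shell C L g i').fin.live (ι := Unit) (δ := fun _ => Bool) (fun _ => d₀)
    (fun _ t => t.fin.carry.isSome) (fun _ => (shell C L g i').fin.carry.isSome)
    (fun _ => by simpa using fix_carry hL hl i') fun q hq hat hd => by
      have hP := (shape_facts hq.1.2.2.1).p self
      obtain ⟨hx, hy, hz'⟩ := at_coords hat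
      have hS := childP hL (fun _ => false) (fun _ _ => false) (pz C L g i')
        (px_lt (C := C) g i' 0) (px_lt (C := C) g i' 1)
      obtain ⟨sx, sy, sz⟩ := shell_coords (C := C) (L := L) g i'
      have cw : ∀ t : Common.St C, t.y = px C L g i' 1 →
          ((claims L t).isWire = (claims L (shell C L g i')).isWire ∧
            (claims L t).cy = (claims L (shell C L g i')).cy) := fun t ht => by
        simp only [Claims.isWire, claims, ht, sy, and_self]
      obtain ⟨w1, w2⟩ := cw (q d₀) hy
      by_cases hw : (claims L (shell C L g i')).isWire = true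
      swap
      · have a1 : (q d₀).fin.live = false := by
          rw [Bool.eq_false_iff]; exact fun h => hw (w1 ▸ hP.live_wire h)
        have a2 : (shell C L g i').fin.live = false := by
          rw [Bool.eq_false_iff]; exact fun h => hw (hS.live_wire h)
        rw [a1, a2]
      by_cases hk : (claims L (shell C L g i')).cy.yhC.val < AF C
      · exact (hP.live_low (w1.trans hw) (show (claims L (q d₀)).cy.yhC.val < _ by rw [w2]; exact hk)).trans
          (hS.live_low hw hk).symm
      have hsc : ∀ t : Common.St C, t.x = px C L g i' 0 → (claims L t).isScan = true := fun t ht => by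
        have h := (col0_iff (L := L) (x := t.x) (m := 3) (by omega)).2 (ht.trans hx0)
        simp only [Claims.isScan, claims, Bool.and_eq_true, decide_eq_true_iff, h.1.1, h.1.2, h.2]
        simp
      have hmd : ∀ t : Common.St C, t.z = pz C L g i' → (claims L t).middle = true := fun t ht => by
        simp only [Claims.middle, claims, ht, hz, decide_eq_true_iff, MidDigits]
        exact fun _ => ⟨Nat.one_pos, by omega⟩
      exact (hP.live_scan (w1.trans hw) (hsc _ hx) (hmd _ hz')
        (show AF C ≤ (claims L (q d₀)).cy.yhC.val by rw [w2]; omega)).trans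
        ((hd ()).trans (hS.live_scan hw (hsc _ sx) (hmd _ sz)
          (show AF C ≤ (claims L (shell C L g i')).cy.yhC.val by omega)).symm)
  simpa using h

end Vale.Agent.P193.W4.A5
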