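import Vale.Agent.P193.W4.A5.UpRead

/-!
P193, module W4 (A5): the parents form a level.

A window read at a cell is determined by the window of parents read at the first position of the
parent of its upper tile, so the parents cover what the level below covers.
-/

noncomputable section

namespace Vale.Agent.P193.W4.A5

open BH BH.SFT Finset Common
open scoped Classical

variable {C : Cfg} {L : ℕ} {S : SFT Lat} {Λ : Lv S C L}

lemma moveTo_parent (g i : Z5) (m : Fin 5 → ℕ) :
    moveTo C L g i univ m = parCell C L g (par C L g i) m := by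
  funext a
  simp only [moveTo, mem_univ, if_true, parCell, par, px_cast, Int.emod_def]
  ring

lemma parShift_par (g : Z5) :
    parShift C L (par C L g 0) - g = -(pos5 C L).red g := by
  funext a
  simp only [parShift, par, Pos.red, pos5, Pi.sub_apply, Pi.neg_apply, Pi.zero_apply, add_zero,
    Int.emod_def]
  ring

/-- A property of the tile at a place commutes if all values of the tile there do. -/
lemma com_of_values {o g i : Z5} {o' : S.Obs} (ho' : Ctx (whole S) o'.supp)
    (h : Know Λ o g o' i fun t => t) (R : Common.St C → Prop) : Com (here Λ o g i R) o' := by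
  let V : Finset (Common.St C) := ((Λ.finite_range (Λ.cell o i)).toFinset).image fun r =>
    r.elim (junk C L) fun q => q d₀
  refine com_of_determined (fun t : {t // t ∈ V.filter R} => here Λ o g i fun t' => t' = t.1)
    (Λ.ctx_T o i) subset_rfl (Λ.thru_T _ _ _) (fun _ => subset_rfl) (fun _ => Λ.thru_T _ _ _) ho'
    o'.thru_id (fun a b _ _ he => ?_) fun t => h t.1
  have key : ∀ x : Lat → S.A, (here Λ o g i R).val x = true ↔
      ∃ t : {t // t ∈ V.filter R}, (here Λ o g i fun t' => t' = t.1).val x = true := by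
    intro x
    simp only [here, Level.T, Level.win_val_iff]
    constructor
    · rintro ⟨q, hq, hat, hR⟩
      exact ⟨⟨q d₀, mem_filter.2
        ⟨mem_image.2 ⟨some q, (Set.Finite.mem_toFinset _).2 ⟨x, hq⟩, rfl⟩, hR⟩⟩,
        q, hq, hat, rfl⟩
    · rintro ⟨t, q, hq, hat, e⟩
      exact ⟨q, hq, hat, e ▸ (mem_filter.1 t.2).2⟩
  rw [Bool.eq_iff_iff, key a, key b]
  simp only [he]

variable (hL : L₀ C ≤ L) (hl : Λ.Linked) (hM : Λ.Meets (radius C L 1)) (hs : SpanOK Λ)

include hL hl hM hs

/-- What commutes with the windows of parents commutes with those of their children. -/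
theorem com_down (w : Z5) {o' : S.Obs} (ho' : Ctx (whole S) o'.supp)
    (h : ∀ g P, Com (upQev Λ hL (Λ.cell w (-(pos5 C L).red g)) P) o')
    (P : Option (A5.Win (Common.St C)) → Prop) : Com (Λ.qev w P) o' := by
  -- the grids
  have hgrid : ∀ g, Com (Level.gridObs (pos5 C L) Λ w g) o' := fun g => by
    refine Same.com ((Level.same_at (pos5 C L) hl w g
      (parCell C L g (par C L g 0) (posA 1 1))).symm) ?_
    rw [show Λ.T w (parCell C L g (par C L g 0) (posA 1 1))
        ((pos5 C L).At g (parCell C L g (par C L g 0) (posA 1 1))) =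
      here Λ w g (parCell C L g (par C L g 0) (posA 1 1)) (fun _ => True) from
        Λ.T_congr _ _ fun _ => (and_iff_left trivial).symm,
      here_parent, parShift_par, slot_eq]
    refine Same.com ?_ (Same.com (same_qev hL hl hM hs _ (P := fun r => r.isSome = true)
      (Φ := fun _ => True) (by simp) fun b _ => by simp).symm (h g _))
    refine same_of_agree (ctx_upArea hL hl hM hs _) (headAt_sub Λ hL _) (Obs.thru_id _ _)
      subset_rfl (Obs.thru_id _ _) fun a _ => ?_
    rw [Bool.eq_iff_iff, readEv_iff]
    exact (and_iff_left trivial).symm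
  rw [← Level.cell_zero (Λ := Λ) w]
  refine Level.com_qev_of_tiles hl w 0 P ho' o'.thru_id fun d R => ?_
  refine Level.com_of_grids (pos5 C L) w _ R ho' o'.thru_id fun g => ?_
  have hu : Under Λ w g o' := ⟨ho', hgrid g, fun i =>
    Level.com_of_grids (pos5 C L) w i _ ho' o'.thru_id fun g' => by
      rw [Λ.T_congr w i (P' := (pos5 C L).At g' i) fun _ => and_iff_left trivial]
      exact Same.com (Level.same_at (pos5 C L) hl w g' i) (hgrid g')⟩
  set i : Z5 := 0 - A5.dir d with hi
  -- all components of the upper parent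
  have comp : ∀ G : Guest, ∀ k ≤ lastK C L, ∀ c : Bool,
      Com (atomObs Λ w g (par C L g 0 - A5.dir G) k c) o' := fun G k hk c => by
    refine Same.com (linkStatement Λ hL hl w g (par C L g 0) G k hk c).symm ?_
    rw [here_parent, parShift_par, cross_slot]
    refine Same.com (same_bit_read hL hl hM hs _ G hk c) (Same.com (same_qev hL hl hM hs _
      (P := fun r => ∃ q, r = some q ∧ enc (L + 1) (q G) k = c) (by simp) fun b hb => ?_).symm
      (h g _))
    simp only [Option.some.injEq, exists_eq_left', hb.2 G k hk]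
  -- the parents seen are among them
  have move : ∀ gu : Guest, (∀ a, gu a = true → par C L g i a = par C L g 0 a) →
      ∀ k ≤ lastK C L, ∀ c : Bool,
        Com (atomObs Λ w g (par C L g i - A5.dir gu) k c) o' := fun gu hgu k hk c => by
    have e : par C L g i - A5.dir gu = par C L g 0 -
        A5.dir (fun a => gu a || decide (par C L g i a ≠ par C L g 0 a)) := by
      funext a
      obtain ⟨g1, g2, g3, g4, -⟩ := gap (C := C) hL a
      have hd : i a = 0 ∨ i a = -1 := by
        simp only [hi, Pi.sub_apply, Pi.zero_apply, A5.dir]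
        split_ifs <;> simp
      have p1 := px_lt (C := C) (L := L) g i a
      have p2 := px_lt (C := C) (L := L) g 0 a
      have h3 := hgu a
      rcases par_diff (C := C) (L := L) g 0 i a (by simp; omega) with ⟨d1, d2⟩ | ⟨d1, d2⟩ |
        ⟨d1, d2⟩
      · cases hga : gu a <;> simp [A5.dir, hga, d1]
      · simp at d2; omega
      · cases hga : gu a
        · simp [A5.dir, hga]
          rw [if_neg (by omega)]
          omega
        · have := h3 hga
          omega
    rw [e]
    exact comp _ k hk c
  have hA : AtomsKnown Λ w g o' i := fun gu hg k hk c => by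
    rw [cross_eq]
    refine Same.com (linkStatement Λ hL hl w g (par C L g i) gu k hk c) (move gu (fun a hga => ?_)
      k hk c)
    obtain ⟨g1, g2, g3, g4, g5, g6⟩ := gap (C := C) hL a
    have hd : i a = 0 ∨ i a = -1 := by
      simp only [hi, Pi.sub_apply, Pi.zero_apply, A5.dir]
      split_ifs <;> simp
    have p1 := px_lt (C := C) (L := L) g i a
    have p2 := px_lt (C := C) (L := L) g 0 a
    have hcut : px C L g i a ≤ cutOf C L a := by
      by_contra hc
      have := (hg a).2 (by omega)
      rw [hga] at this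
      cases this
    rcases lt_or_ge a.val 2 with ha | ha
    · have := g5 ha
      rcases par_diff (C := C) (L := L) g 0 i a (by simp; omega) with ⟨d1, d2⟩ | ⟨d1, d2⟩ |
        ⟨d1, d2⟩ <;> simp at d2 <;> omega
    · obtain ⟨-, r1⟩ := g6 ha
      rcases par_diff (C := C) (L := L) g 0 i a (by simp; omega) with ⟨d1, d2⟩ | ⟨d1, d2⟩ |
        ⟨d1, d2⟩ <;> simp at d2 <;> omega
  have hown : GuestKnown Λ w g o' i self := fun k hk c => by
    rw [cross_eq]
    exact Same.com (linkStatement Λ hL hl w g (par C L g i) self k hk c)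
      (move self (fun a h' => absurd h' (by simp [self])) k hk c)
  exact com_of_values ho' (know_tile hL hl hu hA hown) R

/-- The first positions of the parents of the windows in a box. -/
lemma down_bound (w : Z5) (g : Z5) (a : Fin 5) :
    0 ≤ w a - Λ.cell w (-(pos5 C L).red g) a ∧
      w a - Λ.cell w (-(pos5 C L).red g) a ≤ (Λ.Q a : ℤ) * ((sizeOf' C L a : ℤ) - 1) := by
  have hp : (0 : ℤ) < sizeOf' C L a := by exact_mod_cast (sizeOf_pos (C := C) (L := L) a)
  have h1 := Int.emod_nonneg (g a) hp.ne'
  have h2 := Int.emod_lt_of_pos (g a) hp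
  have e : w a - Λ.cell w (-(pos5 C L).red g) a = (Λ.Q a : ℤ) * (g a % (sizeOf' C L a : ℤ)) := by
    simp only [Level.cell, Level.scale, Pos.red, pos5, Pi.add_apply, Pi.neg_apply]
    ring
  rw [e]
  exact ⟨mul_nonneg (Int.natCast_nonneg _) h1,
    mul_le_mul_of_nonneg_left (by omega) (Int.natCast_nonneg _)⟩

omit hl hM in
/-- The boxes covering the parents are small. -/
lemma up_span (a : Fin 5) :
    Λ.span a + (![7 * M L - 1, cornerH C L - 1, 0, 0, 0] : Fin 5 → ℕ) a * Λ.Q a +
        (sizeOf' C L a - 1) * Λ.Q a ≤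
      (if a.val < 2 then 2 else 1) * (Λ.Q a * sizeOf' C L a) := by
  have hr := slice_room (Λ := Λ) hL hs a
  obtain ⟨g1, g2, -, -, g5, g6⟩ := gap (C := C) hL a
  have hle : (radius C L 1 a + (sizeOf' C L a - 1)) * Λ.Q a ≤
      (if a.val < 2 then 2 else 1) * sizeOf' C L a * Λ.Q a := by
    refine Nat.mul_le_mul_right _ ?_
    rcases lt_or_ge a.val 2 with ha | ha
    · rw [if_pos ha]; omega
    · obtain ⟨-, r1⟩ := g6 ha
      rw [if_neg (by omega)]; omega
  rw [Nat.add_mul] at hle
  calc _ ≤ _ := (Nat.add_le_add_right hr _).trans hle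
    _ = _ := by ring

omit hL hl hM hs in
/-- A place of a slice in the box of the slice. -/
lemma box_bound {u v i j : ℕ} (hi : 1 ≤ i) (hi' : i ≤ u) (hj : 1 ≤ j) (hj' : j ≤ v) (a : Fin 5) :
    0 ≤ (![(u : ℤ), (v : ℤ), 1, 1, 1] : Z5) a - cornerAt 0 i j a ∧
      (![(u : ℤ), (v : ℤ), 1, 1, 1] : Z5) a - cornerAt 0 i j a ≤
        (((![u - 1, v - 1, 0, 0, 0] : Fin 5 → ℕ) a : ℕ) : ℤ) := by
  fin_cases a <;> simp [cornerAt] <;> omega

/-- The parents as a level. -/
def upLevel : Lv S C (L + 1) where
  Q a := Λ.Q a * sizeOf' C L a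
  Q_pos a := Nat.mul_pos (Λ.Q_pos a) (sizeOf_pos a)
  area := upArea Λ
  area_ctx := ctx_upArea hL hl hM hs
  rd := upRd Λ
  rd_dep := upRd_dep Λ hL
  valid v a q _ hq := by
    obtain ⟨⟨-, hg⟩, rfl⟩ := upRd_some.1 hq
    exact hg.1
  cover u o' ho' hc l := Λ.cover u o' ho' (fun w hw P => com_down hL hl hM hs w ho'
    (fun g P => hc _ (fun a => by
      obtain ⟨b1, b2⟩ := down_bound hL hl hM hs w g a
      obtain ⟨w1, w2⟩ := hw a
      have hp := sizeOf_pos (C := C) (L := L) a
      push_cast
      rw [mul_sub, mul_one] at b2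
      exact ⟨by linarith, by linarith⟩) P) P) l
  off := Λ.off + Λ.scale ![(7 * M L : ℕ), (cornerH C L : ℕ), 1, 1, 1]
  span a := Λ.span a + (![7 * M L - 1, cornerH C L - 1, 0, 0, 0] : Fin 5 → ℕ) a * Λ.Q a +
    (sizeOf' C L a - 1) * Λ.Q a
  acover v u hu o' ho' hc l := by
    obtain ⟨x, hx, hu⟩ := mem_biUnion.1 hu
    refine Λ.acover _ u hu o' ho' (fun w hw P => com_down hL hl hM hs w ho'
      (fun g P => hc _ (fun a => ?_) P) P) l
    obtain ⟨b1, b2⟩ := down_bound hL hl hM hs w g a
    obtain ⟨w1, w2⟩ := hw a
    obtain ⟨⟨i, j⟩, hij, rfl⟩ := mem_image.1 hx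
    obtain ⟨h1, h2⟩ := mem_product.1 hij
    obtain ⟨h1, h1'⟩ := mem_Icc.1 h1
    obtain ⟨h2, h2'⟩ := mem_Icc.1 h2
    obtain ⟨k1, k2⟩ := box_bound h1 h1' h2 h2' a
    have hp := sizeOf_pos (C := C) (L := L) a
    have hQ : (0 : ℤ) ≤ Λ.Q a := Int.natCast_nonneg _
    have m1 := mul_nonneg hQ k1
    have m2 := mul_le_mul_of_nonneg_left k2 hQ
    simp only [Level.cell, Level.scale, Pi.add_apply] at w1 w2 ⊢
    push_cast [Nat.cast_sub (show 1 ≤ sizeOf' C L a by omega)]
    simp only [Level.cell, Level.scale, Pi.add_apply] at b1 b2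
    rw [mul_sub, mul_one] at b2
    rw [mul_sub] at m1 m2
    push_cast at m1 m2
    refine ⟨?_, ?_⟩ <;> linarith
  excl v v' hne := by
    have own : ∀ (u : Z5) a, (upRd Λ u a).isSome = true →
        ∃ q, Λ.rd (Λ.cell u (cornerAt 0 1 1)) a = some q ∧
          (pos5 C L).At 0 (cornerAt 0 1 1) (q d₀) := fun u a ha => by
      obtain ⟨q, hq⟩ := Option.isSome_iff_exists.1 ha
      exact headAt_val (upRd_some.1 hq).1.1
    have sub : ∀ u, Λ.area (Λ.cell u (cornerAt 0 1 1)) ⊆ upArea Λ u := fun u =>
      Level.area_sub (one_mem hL)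
    by_cases hQ : ∀ a, (Λ.Q a : ℤ) ∣ v' a - v a
    swap
    · obtain ⟨c, c', hc, hc', hcc, h1, h2⟩ := Λ.excl (Λ.cell v (cornerAt 0 1 1))
        (Λ.cell v' (cornerAt 0 1 1)) (by simpa [Level.cell] using hQ)
      refine ⟨c, c', hc.trans (sub v), hc'.trans (sub v'), hcc, fun a ha hsome => ?_,
        fun a ha hsome => ?_⟩
      · obtain ⟨q, hq, -⟩ := own v a hsome
        exact h1 a (ha.coarsen (sub v) fun _ _ _ _ h => h) (by simp [hq])
      · obtain ⟨q, hq, -⟩ := own v' a hsome
        exact h2 a (ha.coarsen (sub v') fun _ _ _ _ h => h) (by simp [hq])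
    choose x hx using hQ
    obtain rfl : v' = Λ.cell v x := funext fun a => by
      have := hx a
      simp only [Level.cell, Level.scale, Pi.add_apply]
      omega
    refine ⟨Λ.T v (cornerAt 0 1 1) ((pos5 C L).At 0 (cornerAt 0 1 1)),
      Λ.T v (x + cornerAt 0 1 1) ((pos5 C L).At 0 (x + cornerAt 0 1 1)), sub v,
      by rw [Level.T_supp, ← Level.cell_cell]; exact sub _,
      (Level.same_at (pos5 C L) hl v 0 _).trans (Level.same_at (pos5 C L) hl v 0 _).symm,
      fun a ha hsome => ?_, fun a ha hsome => ?_⟩
    · obtain ⟨q, hq, hat⟩ := own v a hsome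
      exact (Level.win_val_some Λ hq).2 hat
    · obtain ⟨q, hq, hat⟩ := own _ a hsome
      rw [Level.cell_cell] at hq
      rw [Bool.eq_false_iff]
      intro hc
      have h2 := (Level.win_val_some Λ hq).1 hc
      refine hne fun a => ?_
      have h3 := ((pos5 C L).red_eq_iff _ _).1 (hat.symm.trans h2) a
      simp only [pos5, Pi.add_apply, Pi.zero_apply, zero_add, sub_add_cancel_right,
        dvd_neg] at h3
      obtain ⟨m, hm⟩ := h3
      refine ⟨m, ?_⟩
      simp only [Level.cell, Level.scale, Pi.add_apply, hm]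
      push_cast
      ring

/-- The events of what the level of parents reads. -/
lemma same_up (v : Z5) (P : A5.Win (Common.St C) → Prop) :
    Same ((upLevel hL hl hM hs).win v P) (upQev Λ hL v fun r => ∃ q, r = some q ∧ P q) := by
  refine same_of_agree (ctx_upArea hL hl hM hs v) subset_rfl (Obs.thru_id _ _) subset_rfl
    (Obs.thru_id _ _) fun a _ => ?_
  rw [Bool.eq_iff_iff, Level.win_val_iff]
  simp [upQev, readObs, upLevel]

/-- A component of what is read is one of the bits. -/
lemma same_up_read (v : Z5) (G : Guest) (P : Common.St C → Prop) :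
    Same ((upLevel hL hl hM hs).win v fun q => P (q G))
      (readEv Λ hL v fun b => P (decT L fun k => b k G)) :=
  (same_up hL hl hM hs v _).trans (same_qev hL hl hM hs v (by simp) fun b _ => by simp [decW])

/-- Parents form a level. -/
theorem up_isUp : IsUp Λ (upLevel hL hl hM hs) where
  linked v d P := by
    have e : v - (upLevel hL hl hM hs).scale (A5.dir d) = Λ.cell v (parShift C L (-A5.dir d)) := by
      funext a
      simp only [upLevel, Level.scale, Level.cell, parShift, Pi.sub_apply, Pi.add_apply,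
        Pi.neg_apply, Nat.cast_mul]
      ring
    refine (same_up_read hL hl hM hs v d P).trans (Same.trans ?_
      (same_up_read hL hl hM hs _ self P).symm)
    rw [e]
    exact same_single hL hl hM hs v d fun β => P (decT L β)
  span a := up_span hL hs a
  scale _ := rfl
  bit o g P k hk c := by
    have e : (upLevel hL hl hM hs).cell (Λ.cell o (-g)) P = Λ.cell o (parShift C L P - g) := by
      funext a
      simp only [upLevel, Level.scale, Level.cell, parShift, Pi.sub_apply, Pi.add_apply,
        Pi.neg_apply, Nat.cast_mul]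
      ring
    rw [atomObs, here_parent, cross_slot, Level.T, e]
    refine (same_bit_read hL hl hM hs _ self hk c).trans
      (Same.trans (Same.symm (same_qev hL hl hM hs _
        (P := fun r => ∃ q, r = some q ∧ enc (L + 1) (q d₀) k = c) (by simp) fun b hb => ?_))
        (same_up hL hl hM hs _ fun q => enc (L + 1) (q d₀) k = c).symm)
    simp only [Option.some.injEq, exists_eq_left']
    rw [show decW L b d₀ = decW L b self from rfl, hb.2 self k hk]
  pf o g i c := by
    have step : ∀ a ∈ (univ : Finset (Fin 5)), ∀ j, 0 < px C L g j a →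
        Same (here Λ o g j fun t => t.fin.pf = c)
          (here Λ o g (j - A5.dir (A5.axis a)) fun t => t.fin.pf = c) := fun a _ j h0 =>
      same_here hl j (A5.axis a) fun q hq hat => by
        have hat' : (pos5 C L).At g j (q self) := hat
        have h := ((shape_facts hq.1.2.2.1).e self a rfl).pf (by
          show (claims L (q self)).firstAt a = false
          rw [firstAt_at hat', decide_eq_false_iff_not]
          omega)
        rw [back_self] at h
        exact iff_of_eq (congrArg (· = c) h)
    obtain ⟨-, s2, s3, s4, s5, s6⟩ := slice_sizes (C := C) hL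
    have hm : ∀ a ∈ (univ : Finset (Fin 5)), posA (3 * M L) 1 a < sizeOf' C L a :=
      fun a _ => posA_lt hL (by omega) (by omega) a
    refine ((move_induction (P := fun j => Same (here Λ o g i fun t => t.fin.pf = c)
      (here Λ o g j fun t => t.fin.pf = c)) (fun _ _ => True)
      (fun _ _ _ _ _ _ _ _ => trivial) univ
      (fun a ha j h0 _ _ => ⟨fun h => h.trans (step a ha j h0), fun h => h.trans (step a ha j h0).symm⟩)
      (fun a ha => ⟨hm a ha, trivial⟩) fun _ _ => trivial).1 (Λ.refl_T o i _)).trans ?_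
    have e : (upLevel hL hl hM hs).cell (Λ.cell o (-g)) (par C L g i) =
        Λ.cell o (parShift C L (par C L g i) - g) := by
      funext a
      simp only [upLevel, Level.scale, Level.cell, parShift, Pi.sub_apply, Pi.add_apply,
        Pi.neg_apply, Nat.cast_mul]
      ring
    rw [moveTo_parent, here_parent, slot_eq, Level.T, e]
    exact (same_pf_read hL hl hM hs _ c).trans
      (same_up_read hL hl hM hs _ self fun t => handed (L + 1) t = c).symm

omit hL hl hM hs

/-- Parents form a level, at every level. -/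
theorem upStatement (C : Cfg) : UpStatement C := fun _ hL _ _ hl hM hs =>
  ⟨_, up_isUp hL hl hM hs⟩

end Vale.Agent.P193.W4.A5
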