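import Vale.Agent.P193.W4.A5.Main
import Vale.Agent.P193.W4.A5.Meet
import Vale.Agent.P193.W4.A5.Patch
import Vale.Agent.P193.W4.A5.Parent
import Vale.Agent.P193.W4.A5.Tile

/-!
P193, module W4 (A5): reading the parents.

A parent is read at a cell if the grid puts that cell at its first position and the bits at the
crossings of the slice show a valid window. A grid without such a window is null, as each family of
bits is the own family of a parent behind, where it is good by the corner.
-/

noncomputable section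

namespace Vale.Agent.P193.W4.A5

open BH BH.SFT Finset Common
open scoped Classical

variable {C : Cfg} {L : ℕ} {S : SFT Lat}

/-- Two events equal outside finitely many null ones are equal. -/
lemma same_outside {ι : Type} [Fintype ι] (Ns : ι → S.Obs) (hN : ∀ i, Null (Ns i))
    {U : Finset Lat} (hU : Ctx (whole S) U) {o o' : S.Obs} (ho : o.supp ⊆ U) (ho' : o'.supp ⊆ U)
    (hNs : ∀ i, (Ns i).supp ⊆ U)
    (h : ∀ p, S.AdmissibleClass (whole S) U p → (∀ i, (Ns i).val p = false) →
      o.val p = o'.val p) : Same o o' := by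
  let N : S.Obs :=
    { supp := U
      val := fun x => decide (∃ i, (Ns i).val x = true)
      dep := fun x y e => decide_eq_decide.2 (exists_congr fun i => by
        rw [(Ns i).dep x y fun u hu => e u (hNs i hu)]) }
  have hn : Null N := null_of_le Ns hU subset_rfl N.thru_id hNs (fun i => (Ns i).thru_id) hN
    fun p _ hp => of_decide_eq_true hp
  refine hn.same_of_eq hU ho o.thru_id ho' o'.thru_id subset_rfl N.thru_id fun p hp hv => h p hp
    fun i => ?_
  rw [Bool.eq_false_iff]
  exact fun hi => (of_decide_eq_false hv) ⟨i, hi⟩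

/-! ### Cells of the slice -/

/-- Moving by whole parents. -/
def parShift (C : Cfg) (L : ℕ) (P : Z5) : Z5 := fun a => (sizeOf' C L a : ℤ) * P a

lemma slot_eq (x y : ℕ) : parCell C L 0 0 (posA x y) = cornerAt 0 x y := by
  funext a
  simp only [parCell, cornerAt, posA, Pi.zero_apply, Pi.add_apply, mul_zero, sub_zero, zero_add]
  fin_cases a <;> rfl

lemma cross_slot (k : ℕ) :
    parCell C L 0 0 (crossPos L k) = cornerAt 0 (crossX L k) (crossY L k) :=
  slot_eq _ _

lemma slot_px (hL : L₀ C ≤ L) {x y : ℕ} (hx : x < H L) (hy : y < H L) (a : Fin 5) :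
    px C L 0 (cornerAt 0 x y) a = posA x y a := by
  rw [← slot_eq (C := C) (L := L)]
  exact px_parCell 0 (fun b => posA_lt hL hx hy b) a

lemma cross_mem (hL : L₀ C ≤ L) {k : ℕ} (hk : k ≤ lastK C L) :
    cornerAt 0 (crossX L k) (crossY L k) ∈ sliceCells C L 0 :=
  mem_sliceCells (crossX_range hL hk).1 (crossX_range hL hk).2 (one_le_crossY L k)
    (crossY_le (by omega))

lemma slice_sizes (hL : L₀ C ≤ L) :
    1 ≤ 7 * M L ∧ 1 ≤ cornerH C L ∧ 7 * M L < H L ∧ cornerH C L < H L ∧ 3 * M L ≤ 7 * M L ∧
      1 ≤ 3 * M L := by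
  obtain ⟨h1, h2, h3, -⟩ := slice_bounds (C := C) hL
  have := M_pos L
  exact ⟨by omega, h3, h2, h1, by omega, by omega⟩

lemma one_mem (hL : L₀ C ≤ L) : cornerAt 0 1 1 ∈ sliceCells C L 0 :=
  mem_sliceCells le_rfl (slice_sizes (C := C) hL).1 le_rfl (slice_sizes (C := C) hL).2.1

lemma scan_mem (hL : L₀ C ≤ L) : cornerAt 0 (3 * M L) 1 ∈ sliceCells C L 0 :=
  mem_sliceCells (slice_sizes (C := C) hL).2.2.2.2.2 (slice_sizes (C := C) hL).2.2.2.2.1 le_rfl
    (slice_sizes (C := C) hL).2.1

lemma slice_fits (hL : L₀ C ≤ L) :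
    7 * M L - 1 + 2 ≤ H L - cutX L - 1 ∧ cornerH C L - 1 + 2 ≤ H L - halfY L - 1 := by
  have hk : 4 * lastK C L + 16 < M L := (bounds_M hL).2.1
  have hM9 := nine_le_M hL
  have e : H L = M L * M L ^ 2 := by rw [H, ← pow_succ']
  have h1 : (lastK C L + 1 + M L / 2 + 2) * M L ^ 2 ≤ M L * M L ^ 2 :=
    Nat.mul_le_mul_right _ (by omega)
  have h3 : 9 * M L ≤ M L ^ 2 := by
    rw [sq]; exact Nat.mul_le_mul_right _ hM9
  rw [Nat.add_mul, Nat.add_mul] at h1
  unfold cutX cornerH halfY
  generalize lastK C L = K at h1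
  generalize H L = h at e ⊢
  generalize M L ^ 2 = q at h1 h3 e ⊢
  generalize M L = m at h1 h3 hM9 e ⊢
  constructor <;> omega

/-! ### Reading -/

section Defs

variable (Λ : Lv S C L)

/-- The ground cells read for a parent. -/
def upArea (v : Z5) : Finset Lat := Λ.areaU v (sliceCells C L 0)

/-- The grid puts the cell at the first position of a parent. -/
def headAt (v : Z5) : S.Obs := here Λ v 0 (cornerAt 0 1 1) fun _ => True

/-- A shown bit in the slice. -/
def crossObs (v : Z5) (k : ℕ) (gu : Guest) : S.Obs :=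
  here Λ v 0 (cornerAt 0 (crossX L k) (crossY L k)) fun t => t.fin.h gu = true

/-- The bits shown at the crossings. -/
def bitsAt (v : Z5) (a : Lat → S.A) : ℕ → Bits := fun k gu =>
  if k ≤ lastK C L then (crossObs Λ v k gu).val a else false

variable (C) in
/-- The bits show a valid window. -/
def Good (L : ℕ) (b : ℕ → Bits) : Prop :=
  Valid (C := C) (L + 1) (decW L b) ∧
    ∀ g, ∀ k ≤ lastK C L, enc (L + 1) (decW (C := C) L b g) k = b k g

/-- The window of parents read at a cell. -/
def upRd (v : Z5) (a : Lat → S.A) : Option (A5.Win (Common.St C)) :=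
  if (headAt Λ v).val a = true ∧ Good C L (bitsAt Λ v a) then some (decW L (bitsAt Λ v a)) else none

variable (hL : L₀ C ≤ L)
include hL

lemma headAt_sub (v : Z5) : (headAt Λ v).supp ⊆ upArea Λ v := Level.area_sub (one_mem hL)

lemma crossObs_sub (v : Z5) {k : ℕ} (hk : k ≤ lastK C L) (gu : Guest) :
    (crossObs Λ v k gu).supp ⊆ upArea Λ v := Level.area_sub (cross_mem hL hk)

lemma bitsAt_dep (v : Z5) {a b : Lat → S.A} (h : ∀ u ∈ upArea Λ v, a u = b u) :
    bitsAt Λ v a = bitsAt Λ v b := by
  funext k gu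
  unfold bitsAt
  split_ifs with hk
  · exact (crossObs Λ v k gu).dep a b fun u hu => h u (crossObs_sub Λ hL v hk gu hu)
  · rfl

lemma upRd_dep (v : Z5) (a b : Lat → S.A) (h : ∀ u ∈ upArea Λ v, a u = b u) :
    upRd Λ v a = upRd Λ v b := by
  rw [upRd, upRd, bitsAt_dep Λ hL v h,
    (headAt Λ v).dep a b fun u hu => h u (headAt_sub Λ hL v hu)]

/-- A parent stands at `v` and the bits have the property `Φ`. -/
def readEv (v : Z5) (Φ : (ℕ → Bits) → Prop) : S.Obs where
  supp := upArea Λ v
  val a := decide ((headAt Λ v).val a = true ∧ Φ (bitsAt Λ v a))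
  dep a b h := by
    rw [bitsAt_dep Λ hL v h, (headAt Λ v).dep a b fun u hu => h u (headAt_sub Λ hL v hu)]

lemma readEv_iff (v : Z5) (Φ : (ℕ → Bits) → Prop) (a : Lat → S.A) :
    (readEv Λ hL v Φ).val a = true ↔ (headAt Λ v).val a = true ∧ Φ (bitsAt Λ v a) := by
  simp [readEv]

lemma readEv_false (v : Z5) (Φ : (ℕ → Bits) → Prop) (a : Lat → S.A) :
    (readEv Λ hL v Φ).val a = false ↔ ¬ ((headAt Λ v).val a = true ∧ Φ (bitsAt Λ v a)) := by
  rw [Bool.eq_false_iff, Ne, readEv_iff]

/-- An event of what is read at `v`. -/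
def upQev (v : Z5) (P : Option (A5.Win (Common.St C)) → Prop) : S.Obs :=
  readObs (upArea Λ) (upRd Λ) (upRd_dep Λ hL) v P

end Defs

lemma upRd_some {Λ : Lv S C L} {v : Z5} {a : Lat → S.A} {q : A5.Win (Common.St C)} :
    upRd Λ v a = some q ↔
      ((headAt Λ v).val a = true ∧ Good C L (bitsAt Λ v a)) ∧ decW L (bitsAt Λ v a) = q := by
  unfold upRd
  split_ifs with h <;> simp [h]

variable {Λ : Lv S C L}

lemma headAt_val {v : Z5} {a : Lat → S.A} (h : (headAt Λ v).val a = true) :
    ∃ q, Λ.rd (Λ.cell v (cornerAt 0 1 1)) a = some q ∧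
      (pos5 C L).At 0 (cornerAt 0 1 1) (q d₀) := by
  obtain ⟨q, hq, hat, -⟩ := (Λ.win_val_iff _ _ a).1 h
  exact ⟨q, hq, hat⟩

/-- A shift of the origin. -/
lemma here_cell (o g h g' i : Z5) (hr : (pos5 C L).red g' = (pos5 C L).red (g + h))
    (P : Common.St C → Prop) : here Λ (Λ.cell o h) g' i P = here Λ o g (h + i) P := by
  rw [here, here, Level.T_shift]
  refine Λ.T_congr o (h + i) fun t => and_congr_left fun _ => ?_
  simp only [Pos.At]
  rw [(pos5 C L).red_add hr i, add_assoc]

lemma parShift_red (g : Z5) (P : Z5) :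
    (pos5 C L).red (g + parShift C L P) = (pos5 C L).red g := by
  rw [Pos.red_eq_iff]
  intro a
  exact ⟨P a, by simp [parShift, pos5]⟩

/-- An event in the parent `P` is an event in the parent `0` at its corner. -/
lemma here_parent (o g P : Z5) (m : Fin 5 → ℕ) (X : Common.St C → Prop) :
    here Λ o g (parCell C L g P m) X =
      here Λ (Λ.cell o (parShift C L P - g)) 0 (parCell C L 0 0 m) X := by
  rw [here_cell o g (parShift C L P - g) 0]
  · congr 1
    funext a
    simp [parCell, parShift]
    ring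
  · rw [add_sub_cancel, ← zero_add (parShift C L P), parShift_red]

variable (hL : L₀ C ≤ L) (hl : Λ.Linked)

include hl

/-- Being at a place of one grid is one event. -/
lemma same_here_true (o g i i' : Z5) :
    Same (here Λ o g i fun _ => True) (here Λ o g i' fun _ => True) := by
  rw [here, here, Λ.T_congr o i (P' := (pos5 C L).At g i) fun t => and_iff_left trivial,
    Λ.T_congr o i' (P' := (pos5 C L).At g i') fun t => and_iff_left trivial]
  exact (Level.same_at (pos5 C L) hl o g i).trans (Level.same_at (pos5 C L) hl o g i').symm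

variable (hM : Λ.Meets (radius C L 1)) (hs : SpanOK Λ)

omit hl in
include hL hs in
lemma slice_room (a : Fin 5) :
    Λ.span a + (![7 * M L - 1, cornerH C L - 1, 0, 0, 0] : Fin 5 → ℕ) a * Λ.Q a ≤
      radius C L 1 a * Λ.Q a := by
  have gen : ∀ (u v p q : ℕ) (x : Fin 5), u + 2 ≤ p → v + 2 ≤ q →
      Λ.span x ≤ (if x.val < 2 then 2 else 1) * Λ.Q x →
      Λ.span x + (![u, v, 0, 0, 0] : Fin 5 → ℕ) x * Λ.Q x ≤
        (if x = 0 then p else if x = 1 then q else 1) * Λ.Q x := by
    intro u v p q x hu hv hsa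
    have two : ∀ s D : ℕ, s + 2 ≤ D → Λ.span x ≤ 2 * Λ.Q x →
        Λ.span x + s * Λ.Q x ≤ D * Λ.Q x := fun s D h h' =>
      le_trans (by rw [Nat.add_mul]; omega) (Nat.mul_le_mul_right _ h)
    fin_cases x
    · exact two u p hu (by simpa using hsa)
    · exact two v q hv (by simpa using hsa)
    all_goals simpa using hsa
  obtain ⟨r0, r1⟩ := slice_fits (C := C) hL
  exact gen _ _ _ _ a r0 r1 (hs a)

include hL hM hs

lemma ctx_upArea (v : Z5) : Ctx (whole S) (upArea Λ v) :=
  Level.ctx_areaU hl hM v (fun _ hx _ hy a => sliceCells_span hx hy a) (slice_room hL hs)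

/-- Outside bad events a parent shows a corner. -/
lemma corner_read {v : Z5} {a : Lat → S.A} (ha : S.AdmissibleClass (whole S) (upArea Λ v) a)
    (hb : (bad Λ v (sliceCells C L 0)).val a = false) (hh : (headAt Λ v).val a = true) :
    AllSome Λ v (sliceCells C L 0) a ∧ Corner L (pat Λ v (sliceCells C L 0) a) 0 ∧
      bitsAt Λ v a = cornerBits L (pat Λ v (sliceCells C L 0) a) 0 := by
  obtain ⟨q, hq, hat⟩ := headAt_val hh
  have hsome : AllSome Λ v (sliceCells C L 0) a := fun i hi => by
    by_contra hn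
    exact (of_decide_eq_false hb) ⟨_, one_mem hL, q, hq, Or.inl ⟨i, hi, by simpa using hn⟩⟩
  have hp := patch_of_good ha hb hsome
  have hqv : Valid L q :=
    Λ.valid _ a q (ha.coarsen (Level.area_sub (one_mem hL)) fun c _ _ _ h => h) hq
  have e0 : pat Λ v (sliceCells C L 0) a 0 = q fun _ => true := by
    have := pat_of_good hb hsome (one_mem hL) hq fun _ => true
    rwa [origin_eq] at this
  have hpos := at_all hqv hat fun _ => true
  rw [origin_eq, at_iff, ← e0] at hpos
  have hz : ∀ b, px C L 0 0 b = 0 := fun b => by simp [px, Pos.red]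
  simp only [hz] at hpos
  have hc : Corner L (pat Λ v (sliceCells C L 0) a) 0 := by
    refine hp.corner (hpos 0) (hpos 1) fun i => ?_
    have := hpos (zAx i)
    fin_cases i <;> exact this
  refine ⟨hsome, hc, funext fun k => funext fun gu => ?_⟩
  by_cases hk : k ≤ lastK C L
  swap
  · simp [bitsAt, cornerBits, hk]
  have hm := cross_mem (C := C) hL hk
  obtain ⟨q', hq'⟩ := Option.isSome_iff_exists.1 (hsome _ hm)
  have ec : pat Λ v (sliceCells C L 0) a (cornerAt 0 (crossX L k) (crossY L k)) = q' d₀ := by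
    simpa using pat_of_good hb hsome hm hq' d₀
  obtain ⟨hx1, hx7⟩ := crossX_range hL hk
  obtain ⟨p1, p2, p3⟩ := hc.pos hL hx1 hx7 (crossY_le (show k ≤ lastK C L + 1 by omega))
  obtain ⟨-, -, s3, s4, -⟩ := slice_sizes (C := C) hL
  have hy := crossY_le (C := C) (L := L) (show k ≤ lastK C L + 1 by omega)
  have hat' : (pos5 C L).At 0 (cornerAt 0 (crossX L k) (crossY L k)) (q' d₀) := by
    rw [at_iff, ← ec]
    intro b
    rw [slot_px hL (by omega) (by omega), p1, p2, p3]
    fin_cases b <;> rfl
  rw [bitsAt, if_pos hk, cornerBits, if_pos hk, ec, Bool.eq_iff_iff, crossObs, here, Level.T,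
    Level.win_val_some Λ hq']
  exact and_iff_right hat'

/-- What fails in all corners is null. -/
lemma null_read (v : Z5) {Φ : (ℕ → Bits) → Prop}
    (h : ∀ c : Z5 → Common.St C, Corner L c 0 → ¬ Φ (cornerBits L c 0)) : Null (readEv Λ hL v Φ) := by
  refine null_of_le (fun _ : Unit => bad Λ v (sliceCells C L 0)) (ctx_upArea hL hl hM hs v)
    subset_rfl (Obs.thru_id _ _) (fun _ => subset_rfl) (fun _ => thru_bad _ _ _)
    (fun _ => bad_null hl (ctx_upArea hL hl hM hs v)) fun a ha hv => ⟨(), ?_⟩
  by_contra hb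
  rw [Bool.not_eq_true] at hb
  obtain ⟨hh, hΦ⟩ := (readEv_iff Λ hL v _ a).1 hv
  obtain ⟨-, hc, e⟩ := corner_read hL hl hM hs ha hb hh
  exact h _ hc (e ▸ hΦ)

/-- The grids at two parents of one lattice are one event. -/
lemma same_head (v P : Z5) :
    Same (headAt Λ v) (headAt Λ (Λ.cell v (parShift C L P))) := by
  rw [headAt, headAt, here_cell v 0 (parShift C L P) 0 _ (parShift_red 0 P).symm]
  exact same_here_true hl v 0 _ _

omit hM hs in
/-- A component is the own component of the parent behind. -/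
lemma same_comp (v : Z5) (G : Guest) {k : ℕ} (hk : k ≤ lastK C L) :
    Same (crossObs Λ v k G) (crossObs Λ (Λ.cell v (parShift C L (-A5.dir G))) k self) := by
  have h := linkStatement Λ hL hl v 0 0 G k hk true
  rw [atomObs, here_parent v 0 (0 - A5.dir G), zero_sub, sub_zero, cross_slot] at h
  exact h

/-- The same property of components that are one event is one event. -/
lemma same_read {ι : Type} [Fintype ι] (v v' : Z5) (σ τ : ι → Guest)
    (hh : Same (headAt Λ v) (headAt Λ v'))
    (hb : ∀ i, ∀ k ≤ lastK C L, Same (crossObs Λ v k (σ i)) (crossObs Λ v' k (τ i)))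
    (F : (ι → ℕ → Bool) → Prop) :
    Same (readEv Λ hL v fun b => F fun i k => b k (σ i))
      (readEv Λ hL v' fun b => F fun i k => b k (τ i)) := by
  let ms : Z5 → (ι → Guest) → Option (ι × Fin (lastK C L + 1)) → S.Obs := fun w ρ m =>
    m.elim (headAt Λ w) fun p => crossObs Λ w p.2 (ρ p.1)
  let G : (Option (ι × Fin (lastK C L + 1)) → Bool) → Bool := fun f =>
    decide (f none = true ∧ F fun i k => if hk : k ≤ lastK C L then f (some (i, ⟨k, by omega⟩))
      else false)
  have hsub : ∀ w ρ m, (ms w ρ m).supp ⊆ upArea Λ w := fun w ρ m => by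
    cases m with
    | none => exact headAt_sub Λ hL w
    | some p => exact crossObs_sub Λ hL w (Nat.le_of_lt_succ p.2.2) _
  have hval : ∀ w ρ a, (readEv Λ hL w fun b => F fun i k => b k (ρ i)).val a =
      G fun m => (ms w ρ m).val a := fun w ρ a => by
    simp only [readEv, G, ms, Option.elim]
    refine decide_eq_decide.2 (and_congr_right fun _ => iff_of_eq (congrArg F ?_))
    funext i k
    unfold bitsAt
    by_cases hk : k ≤ lastK C L
    · rw [if_pos hk, dif_pos hk]
    · rw [if_neg hk, dif_neg hk]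
  refine same_of_fun (ms v σ) (ms v' τ) G (ctx_upArea hL hl hM hs v) (ctx_upArea hL hl hM hs v')
    subset_rfl (Obs.thru_id _ _) subset_rfl (Obs.thru_id _ _) (hsub v σ)
    (fun m => Obs.thru_id _ _) (hsub v' τ) (fun m => Obs.thru_id _ _)
    (fun a _ => hval v σ a) (fun a _ => hval v' τ a) fun m => ?_
  cases m with
  | none => exact hh
  | some p => exact hb p.1 p.2 (Nat.le_of_lt_succ p.2.2)

/-- A property of one component is that of the own component of the parent behind. -/
lemma same_single (v : Z5) (G : Guest) (F : (ℕ → Bool) → Prop) :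
    Same (readEv Λ hL v fun b => F fun k => b k G)
      (readEv Λ hL (Λ.cell v (parShift C L (-A5.dir G))) fun b => F fun k => b k self) :=
  same_read hL hl hM hs v _ (ι := Unit) (fun _ => G) (fun _ => self) (same_head hL hl hM hs v _)
    (fun _ _ hk => same_comp hL hl v G hk) fun f => F (f ())

omit hl hL hM hs in
lemma dir_back {G : Guest} {a : Fin 5} (ha : G a = false) :
    A5.dir (back G a) = A5.dir G + A5.dir (Common.axis a) := by
  funext b
  simp only [A5.dir, back, Common.axis, Pi.add_apply]
  by_cases hb : b = a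
  · subst hb
    simp [ha]
  · simp [hb]

/-- A grid without a valid window is null. -/
lemma null_invalid (v : Z5) : Null (readEv Λ hL v fun b => ¬ Good C L b) := by
  have single : ∀ G, Null (readEv Λ hL v fun b => ¬ Single (C := C) L fun k => b k G) := fun G =>
    Null.of_same (same_single hL hl hM hs v G fun β => ¬ Single (C := C) L β)
      (null_read hL hl hM hs _ fun c hc hn => hn (cornerParentStatement hL c 0 hc).2.1)
  have pair : ∀ G a, Null (readEv Λ hL v fun b => G a = false ∧
      ¬ Pair (C := C) L a (fun k => b k G) fun k => b k (back G a)) := fun G a => by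
    by_cases ha : G a = false
    swap
    · exact null_of_false (ctx_upArea hL hl hM hs v) subset_rfl (Obs.thru_id _ _) fun p _ =>
        (readEv_false Λ hL v _ p).2 fun h => ha h.2.1
    refine Null.of_same (same_read hL hl hM hs v (Λ.cell v (parShift C L (-A5.dir G)))
      (ι := Bool) (fun i => cond i G (back G a)) (fun i => cond i self (Common.axis a))
      (same_head hL hl hM hs v _) (fun i k hk => ?_)
      fun f => G a = false ∧ ¬ Pair (C := C) L a (f true) (f false)) ?_
    · cases i
      swap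
      · exact same_comp hL hl v G hk
      refine (same_comp hL hl v (back G a) hk).trans (Same.symm ?_)
      have h := same_comp hL hl (Λ.cell v (parShift C L (-A5.dir G))) (Common.axis a) hk
      rwa [Level.cell_cell, show parShift C L (-A5.dir G) + parShift C L (-A5.dir (Common.axis a)) =
        parShift C L (-A5.dir (back G a)) by
          funext b; simp only [parShift, dir_back ha, Pi.add_apply, Pi.neg_apply]; ring] at h
    · exact null_read hL hl hM hs _ fun c hc hn => hn.2 ((cornerParentStatement hL c 0 hc).2.2.1 a)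
  refine null_of_le (ι := Option (Guest ⊕ Guest × Fin 5)) (fun m => m.elim
      (bad Λ v (sliceCells C L 0)) (Sum.elim
        (fun G => readEv Λ hL v fun b => ¬ Single (C := C) L fun k => b k G)
        fun p => readEv Λ hL v fun b => p.1 p.2 = false ∧
          ¬ Pair (C := C) L p.2 (fun k => b k p.1) fun k => b k (back p.1 p.2)))
    (ctx_upArea hL hl hM hs v) subset_rfl (Obs.thru_id _ _)
    (fun m => by rcases m with _ | G | p <;> exact subset_rfl)
    (fun m => Obs.thru_id _ _)
    (fun m => by
      rcases m with _ | G | p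
      exacts [bad_null hl (ctx_upArea hL hl hM hs v), single G, pair p.1 p.2])
    fun a ha hv => ?_
  obtain ⟨hh, hn⟩ := (readEv_iff Λ hL v _ a).1 hv
  cases hb : (bad Λ v (sliceCells C L 0)).val a
  swap
  · exact ⟨none, hb⟩
  obtain ⟨-, hc, e⟩ := corner_read hL hl hM hs ha hb hh
  by_cases h1 : ∀ G, Single (C := C) L fun k => bitsAt Λ v a k G
  swap
  · obtain ⟨G, hG⟩ := not_forall.1 h1
    exact ⟨some (Sum.inl G),
      (readEv_iff Λ hL v (fun b => ¬ Single (C := C) L fun k => b k G) a).2 ⟨hh, hG⟩⟩
  by_cases h2 : ∀ p : Guest × Fin 5, p.1 p.2 = false →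
      Pair (C := C) L p.2 (fun k => bitsAt Λ v a k p.1) fun k => bitsAt Λ v a k (back p.1 p.2)
  swap
  · obtain ⟨p, hp⟩ := not_forall.1 h2
    obtain ⟨hp, hP⟩ := Classical.not_imp.1 hp
    exact ⟨some (Sum.inr p), (readEv_iff Λ hL v (fun b => p.1 p.2 = false ∧
      ¬ Pair (C := C) L p.2 (fun k => b k p.1) fun k => b k (back p.1 p.2)) a).2 ⟨hh, hp, hP⟩⟩
  refine absurd ⟨decodeValidStatement _ ?_ h1 fun G b hb' => h2 (G, b) hb', fun G k hk =>
    (h1 G).enc_eq k hk⟩ hn
  rw [e]
  exact (cornerParentStatement hL _ 0 hc).1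

/-- Outside the null grids, a property of what is read is one of the bits. -/
theorem same_qev (v : Z5) {P : Option (A5.Win (Common.St C)) → Prop} {Φ : (ℕ → Bits) → Prop}
    (hn : ¬ P none) (h : ∀ b, Good C L b → (P (some (decW L b)) ↔ Φ b)) :
    Same (upQev Λ hL v P) (readEv Λ hL v Φ) := by
  refine (null_invalid hL hl hM hs v).same_of_eq (ctx_upArea hL hl hM hs v) subset_rfl
    (Obs.thru_id _ _) subset_rfl (Obs.thru_id _ _) subset_rfl (Obs.thru_id _ _) fun a _ hN => ?_
  have hN' := (readEv_false Λ hL v _ a).1 hN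
  rw [Bool.eq_iff_iff, readEv_iff, upQev, readObs, decide_eq_true_iff]
  cases hr : upRd Λ v a with
  | none =>
    refine ⟨fun h' => absurd h' hn, fun ⟨h1, _⟩ => absurd ⟨h1, fun hg => ?_⟩ hN'⟩
    rw [upRd, if_pos ⟨h1, hg⟩] at hr
    exact Option.some_ne_none _ hr
  | some q =>
    obtain ⟨⟨h1, h2⟩, rfl⟩ := upRd_some.1 hr
    exact ⟨fun h' => ⟨h1, (h _ h2).1 h'⟩, fun h' => (h _ h2).2 h'.2⟩

omit hM hs in
/-- A shown bit of the parent is read at its grid. -/
lemma cross_grid (v : Z5) (k : ℕ) :
    Same (here Λ v 0 (cornerAt 0 (crossX L k) (crossY L k)) fun _ => True) (headAt Λ v) :=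
  same_here_true hl v 0 _ _

/-- The event of a shown bit is one of the bits read. -/
lemma same_bit_read (v : Z5) (G : Guest) {k : ℕ} (hk : k ≤ lastK C L) (c : Bool) :
    Same (here Λ v 0 (cornerAt 0 (crossX L k) (crossY L k)) fun t => t.fin.h G = c)
      (readEv Λ hL v fun b => b k G = c) := by
  set x := cornerAt 0 (crossX L k) (crossY L k) with hx
  have hU := ctx_upArea hL hl hM hs v
  have hsub : Λ.area (Λ.cell v x) ⊆ upArea Λ v := Level.area_sub (cross_mem hL hk)
  refine same_outside (ι := Bool)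
    (fun i => if i then Obs.diff (here Λ v 0 x fun _ => True) (headAt Λ v)
      else Obs.diff (headAt Λ v) (here Λ v 0 x fun _ => True)) ?_ hU hsub subset_rfl ?_
    fun a _ hn => ?_
  · intro i
    cases i
    · exact null_diff (cross_grid hL hl v k).symm hU (headAt_sub Λ hL v) (Obs.thru_id _ _) hsub
        (Obs.thru_id _ _)
    · exact null_diff (cross_grid hL hl v k) hU hsub (Obs.thru_id _ _) (headAt_sub Λ hL v)
        (Obs.thru_id _ _)
  · intro i
    cases i
    · simpa [union_subset_iff, here, Level.T, Level.win] using And.intro (headAt_sub Λ hL v) hsub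
    · simpa [union_subset_iff, here, Level.T, Level.win] using And.intro hsub (headAt_sub Λ hL v)
  have n1 := hn true
  have n2 := hn false
  simp only [if_true, Bool.false_eq_true, if_false, Obs.diff_val] at n1 n2
  have hiff : (here Λ v 0 x fun _ => True).val a = (headAt Λ v).val a := by
    revert n1 n2
    cases (here Λ v 0 x fun _ => True).val a <;> cases (headAt Λ v).val a <;> simp
  rw [Bool.eq_iff_iff, readEv_iff, ← hiff]
  cases hr : Λ.rd (Λ.cell v x) a with
  | none =>
    simp [here, Level.T, Level.win_val_none Λ hr]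
  | some q =>
    simp only [bitsAt, if_pos hk, crossObs, ← hx]
    simp only [here, Level.T, Level.win_val_some Λ hr]
    by_cases hq : (pos5 C L).At 0 x (q d₀)
    · cases hh : (q d₀).fin.h G <;> cases c <;>
        simp [Bool.eq_false_iff, Level.win_val_some Λ hr, hq, hh]
    · simp [hq]

/-- What is handed down at the scanning column is that of the parent read. -/
lemma same_pf_read (v : Z5) (c : PF C) :
    Same (here Λ v 0 (cornerAt 0 (3 * M L) 1) fun t => t.fin.pf = c)
      (readEv Λ hL v fun b => handed (L + 1) (decW L b self) = c) := by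
  set x := cornerAt 0 (3 * M L) 1 with hx
  have hU := ctx_upArea hL hl hM hs v
  have hxm := scan_mem (C := C) hL
  refine same_outside (ι := Option Unit)
    (fun i => i.elim (bad Λ v (sliceCells C L 0))
      fun _ => Obs.diff (here Λ v 0 x fun _ => True) (headAt Λ v)) ?_ hU (Level.area_sub hxm)
    subset_rfl ?_ fun a ha hn => ?_
  · rintro (_ | i)
    · exact bad_null hl hU
    · exact null_diff (same_here_true hl v 0 _ _) hU (Level.area_sub hxm) (Obs.thru_id _ _)
        (headAt_sub Λ hL v) (Obs.thru_id _ _)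
  · rintro (_ | i)
    · exact subset_rfl
    · simpa [union_subset_iff, here, Level.T, Level.win] using
        And.intro (show Λ.area (Λ.cell v x) ⊆ upArea Λ v from Level.area_sub hxm)
          (headAt_sub Λ hL v)
  have hb : (bad Λ v (sliceCells C L 0)).val a = false := hn none
  have hd := hn (some ())
  simp only [Option.elim_some, Obs.diff_val] at hd
  have main : (headAt Λ v).val a = true → ∃ q, Λ.rd (Λ.cell v x) a = some q ∧
      (pos5 C L).At 0 x (q d₀) ∧
        (q d₀).fin.pf = handed (L + 1) (decW L (bitsAt Λ v a) self) := fun hh => by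
    obtain ⟨hsome, hc, e⟩ := corner_read hL hl hM hs ha hb hh
    obtain ⟨q, hq⟩ := Option.isSome_iff_exists.1 (hsome _ hxm)
    have ec : pat Λ v (sliceCells C L 0) a x = q d₀ := by
      simpa using pat_of_good hb hsome hxm hq d₀
    obtain ⟨-, s2, s3, s4, s5, s6⟩ := slice_sizes (C := C) hL
    obtain ⟨p1, p2, p3⟩ := hc.pos hL s6 s5 s2
    refine ⟨q, hq, ?_, ?_⟩
    · rw [at_iff, ← ec, hx]
      intro b
      rw [slot_px hL (by omega) (by omega), p1, p2, p3]
      fin_cases b <;> rfl
    · rw [e, ← ec]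
      exact (cornerParentStatement hL _ 0 hc).2.2.2 1 le_rfl s2
  show (here Λ v 0 x fun t => t.fin.pf = c).val a = _
  rw [Bool.eq_iff_iff]
  constructor
  · intro hv
    obtain ⟨q, hq, hat, hpf⟩ := (Λ.win_val_iff _ _ a).1 hv
    have hh : (headAt Λ v).val a = true := by
      rw [show (here Λ v 0 x fun _ => True).val a = true from
        (Λ.win_val_iff _ _ a).2 ⟨q, hq, hat, trivial⟩] at hd
      simpa using hd
    obtain ⟨q', hq', -, e⟩ := main hh
    obtain rfl := Option.some.inj (hq.symm.trans hq')
    exact (readEv_iff Λ hL v _ a).2 ⟨hh, e.symm.trans hpf⟩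
  · intro hv
    obtain ⟨hh, e⟩ := (readEv_iff Λ hL v _ a).1 hv
    obtain ⟨q, hq, hat, e'⟩ := main hh
    exact (Λ.win_val_iff _ _ a).2 ⟨q, hq, hat, e'.trans e⟩

end Vale.Agent.P193.W4.A5
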