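import Vale.Agent.P193.BH.Calc
import Vale.Agent.P193.W4.A5.Lattice

/-!
P193, module W4 (A5): virtual levels of the common layer.

A virtual level reads, in a fixed finite area next to every cell, the window of tiles of some level
with its upper corner in the tile at that cell, and what is read near a cell determines its letter.
The states and the allowed windows are arbitrary here.
-/

noncomputable section

namespace Vale.Agent.P193.W4.A5

open BH BH.SFT Finset
open scoped Classical

/-- The places of a window: the axes gone back along from the upper corner. -/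
abbrev Dir : Type := Fin 5 → Bool

/-- The offset of a place, counted backwards from the corner. -/
def dir (d : Dir) : Z5 := fun a => if d a then 1 else 0

/-- The corner. -/
def d₀ : Dir := fun _ => false

/-- The place one step back along an axis. -/
def axis (a : Fin 5) : Dir := fun c => decide (c = a)

@[simp] lemma dir_d₀ : dir d₀ = 0 := by
  ext i; simp [dir, d₀]

/-- A window of states. -/
abbrev Win (τ : Type) : Type := Dir → τ

/-- The classes of whole letters. -/
abbrev whole (S : SFT Lat) : Lat → S.A → S.A := fun _ l => l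

/-- In the box of side `r` with upper corner `u`. -/
def InBox (r : Fin 5 → ℕ) (u v : Z5) : Prop := ∀ a, 0 ≤ u a - v a ∧ u a - v a < r a

/-- The event that what is read at `v` has the property `P`. -/
def readObs {S : SFT Lat} {α : Type} (area : Z5 → Finset Lat) (rd : Z5 → (Lat → S.A) → α)
    (hd : ∀ v a b, (∀ u ∈ area v, a u = b u) → rd v a = rd v b) (v : Z5) (P : α → Prop) : S.Obs where
  supp := area v
  val x := decide (P (rd v x))
  dep x y h := by rw [hd v x y h]

/-- A virtual level of tiles with states `τ` and allowed windows `ok`.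

The letter of a ground cell is determined by the windows in one box of side `Q` below it. For the
cells read at `v` such boxes lie inside one box of side `span` placed at `v + off`. -/
structure Level (S : SFT Lat) (τ : Type) (ok : Win τ → Prop) where
  /-- The distances of neighbouring virtual cells. -/
  Q : Fin 5 → ℕ
  Q_pos : ∀ i, 0 < Q i
  area : Z5 → Finset Lat
  area_ctx : ∀ v, Ctx (whole S) (area v)
  rd : Z5 → (Lat → S.A) → Option (Win τ)
  rd_dep : ∀ v a b, (∀ u ∈ area v, a u = b u) → rd v a = rd v b
  valid : ∀ v a q, S.AdmissibleClass (whole S) (area v) a → rd v a = some q → ok q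
  cover : ∀ (u : Lat) (o' : S.Obs), Ctx (whole S) o'.supp →
    (∀ v, InBox Q (coords u) v → ∀ P, Com (readObs area rd rd_dep v P) o') →
      ∀ l, Com (S.cellObs u l) o'
  /-- The corner of the box covering what is read. -/
  off : Z5
  /-- The side of that box. -/
  span : Fin 5 → ℕ
  acover : ∀ (v : Z5) (u : Lat), u ∈ area v → ∀ o' : S.Obs, Ctx (whole S) o'.supp →
    (∀ v', InBox span (v + off) v' → ∀ P, Com (readObs area rd rd_dep v' P) o') →
      ∀ l, Com (S.cellObs u l) o'
  /-- Virtual cells off one lattice exclude each other. -/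
  excl : ∀ v v' : Z5, ¬ (∀ a, (Q a : ℤ) ∣ v' a - v a) →
    ∃ c c' : S.Obs, c.supp ⊆ area v ∧ c'.supp ⊆ area v' ∧ Same c c' ∧
      (∀ a, S.AdmissibleClass (whole S) (area v) a → (rd v a).isSome = true → c.val a = true) ∧
      (∀ a, S.AdmissibleClass (whole S) (area v') a → (rd v' a).isSome = true → c'.val a = false)

namespace Level

variable {S : SFT Lat} {τ : Type} {ok : Win τ → Prop} (Λ : Level S τ ok)

/-- Scaling by the distances. -/
def scale (i : Z5) : Z5 := fun a => (Λ.Q a : ℤ) * i a

lemma scale_add (i j : Z5) : Λ.scale (i + j) = Λ.scale i + Λ.scale j := by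
  ext a; simp [scale, mul_add]

lemma scale_sub (i j : Z5) : Λ.scale (i - j) = Λ.scale i - Λ.scale j := by
  ext a; simp [scale, mul_sub]

@[simp] lemma scale_zero : Λ.scale 0 = 0 := by
  ext a; simp [scale]

/-- The cell `i` of the lattice through `o`. -/
def cell (o i : Z5) : Z5 := o + Λ.scale i

@[simp] lemma cell_zero (o : Z5) : Λ.cell o 0 = o := by simp [cell]

lemma cell_cell (o h i : Z5) : Λ.cell (Λ.cell o h) i = Λ.cell o (h + i) := by
  simp [cell, scale_add, add_assoc]

lemma cell_sub (o i j : Z5) : Λ.cell o i - Λ.scale j = Λ.cell o (i - j) := by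
  simp [cell, scale_sub, add_sub_assoc]

/-- The event that the window read at `v` has the property `P`. -/
def win (v : Z5) (P : Win τ → Prop) : S.Obs where
  supp := Λ.area v
  val x := decide (∃ q, Λ.rd v x = some q ∧ P q)
  dep x y h := by rw [Λ.rd_dep v x y h]

@[simp] lemma win_supp (v : Z5) (P : Win τ → Prop) : (Λ.win v P).supp = Λ.area v := rfl

lemma thru_win (v : Z5) (P : Win τ → Prop) : (Λ.win v P).Thru S (whole S) := fun x y h => by
  show decide (∃ q, Λ.rd v x = some q ∧ P q) = decide (∃ q, Λ.rd v y = some q ∧ P q)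
  rw [Λ.rd_dep v x y h]

lemma win_val_iff (v : Z5) (P : Win τ → Prop) (x : Lat → S.A) :
    (Λ.win v P).val x = true ↔ ∃ q, Λ.rd v x = some q ∧ P q := by
  simp only [win, decide_eq_true_eq]

lemma win_val_some {v : Z5} {P : Win τ → Prop} {x : Lat → S.A} {q : Win τ}
    (h : Λ.rd v x = some q) : (Λ.win v P).val x = true ↔ P q := by
  rw [win_val_iff, h]
  simp

lemma win_val_none {v : Z5} {P : Win τ → Prop} {x : Lat → S.A} (h : Λ.rd v x = none) :
    (Λ.win v P).val x = false := by
  simp [win, h]

/-- The event that what is read at `v` has the property `P`. -/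
def qev (v : Z5) (P : Option (Win τ) → Prop) : S.Obs := readObs Λ.area Λ.rd Λ.rd_dep v P

@[simp] lemma qev_supp (v : Z5) (P : Option (Win τ) → Prop) : (Λ.qev v P).supp = Λ.area v := rfl

@[simp] lemma qev_val (v : Z5) (P : Option (Win τ) → Prop) (x : Lat → S.A) :
    (Λ.qev v P).val x = decide (P (Λ.rd v x)) := rfl

lemma thru_qev (v : Z5) (P : Option (Win τ) → Prop) : (Λ.qev v P).Thru S (whole S) :=
  (Λ.qev v P).thru_id

/-- What is read at a cell has finitely many values. -/
lemma finite_range (v : Z5) : (Set.range (Λ.rd v)).Finite := by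
  rcases isEmpty_or_nonempty (Lat → S.A) with he | ⟨⟨a₀⟩⟩
  · exact Set.finite_range _
  refine (Set.finite_range fun p : Λ.area v → S.A =>
    Λ.rd v fun u => if h : u ∈ Λ.area v then p ⟨u, h⟩ else a₀ u).subset ?_
  rintro _ ⟨a, rfl⟩
  exact ⟨fun u => a u.1, Λ.rd_dep v _ _ fun u hu => by simp [hu]⟩

/-- The tiles of a window are the tiles of its neighbours. -/
def Linked : Prop :=
  ∀ (v : Z5) (d : Dir) (P : τ → Prop),
    Same (Λ.win v fun q => P (q d)) (Λ.win (v - Λ.scale (dir d)) fun q => P (q d₀))

/-- The event that the tile at the cell `i` of the lattice through `o` has the property `P`. -/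
def T (o i : Z5) (P : τ → Prop) : S.Obs := Λ.win (Λ.cell o i) fun q => P (q d₀)

@[simp] lemma T_supp (o i : Z5) (P : τ → Prop) : (Λ.T o i P).supp = Λ.area (Λ.cell o i) := rfl

lemma thru_T (o i : Z5) (P : τ → Prop) : (Λ.T o i P).Thru S (whole S) := Λ.thru_win _ _

lemma ctx_T (o i : Z5) : Ctx (whole S) (Λ.area (Λ.cell o i)) := Λ.area_ctx _

lemma T_shift (o h i : Z5) (P : τ → Prop) : Λ.T (Λ.cell o h) i P = Λ.T o (h + i) P := by
  rw [T, T, cell_cell]

lemma T_congr (o i : Z5) {P P' : τ → Prop} (h : ∀ t, P t ↔ P' t) : Λ.T o i P = Λ.T o i P' := by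
  rw [show P = P' from funext fun t => propext (h t)]

lemma refl_T (o i : Z5) (P : τ → Prop) : Same (Λ.T o i P) (Λ.T o i P) :=
  same_refl (Λ.ctx_T o i) (Λ.thru_T o i P)

lemma com_win (v : Z5) (P P' : Win τ → Prop) : Com (Λ.win v P) (Λ.win v P') :=
  (Λ.area_ctx v).com subset_rfl (Λ.thru_win v P) subset_rfl (Λ.thru_win v P')

/-- Events of the tile of one cell commute. -/
lemma com_tile (o i : Z5) (P P' : τ → Prop) : Com (Λ.T o i P) (Λ.T o i P') :=
  Λ.com_win _ _ _

variable {Λ}

lemma Linked.tile (hl : Λ.Linked) (o i : Z5) (d : Dir) (P : τ → Prop) :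
    Same (Λ.win (Λ.cell o i) fun q => P (q d)) (Λ.T o (i - dir d) P) := by
  have h := hl (Λ.cell o i) d P
  rwa [Λ.cell_sub] at h

/-- Tiles of one window commute. -/
lemma Linked.com_window (hl : Λ.Linked) (o i : Z5) (d d' : Dir) (P P' : τ → Prop) :
    Com (Λ.T o (i - dir d) P) (Λ.T o (i - dir d') P') :=
  Same.com_both (hl.tile o i d P).symm (hl.tile o i d' P').symm (Λ.com_win _ _ _)

/-- A property holding on all tiles read, outside null events. -/
def Invariant (Λ : Level S τ ok) (o : Z5) (Inv : τ → Prop) : Prop :=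
  ∀ i, Null (Λ.T o i fun t => ¬ Inv t)

variable (Λ) in
lemma invariant_of_ok (o : Z5) {Inv : τ → Prop} (h : ∀ q, ok q → Inv (q d₀)) :
    Λ.Invariant o Inv := fun i =>
  null_of_false (Λ.ctx_T o i) subset_rfl (Λ.thru_T _ _ _) fun a ha => by
    rw [Bool.eq_false_iff]
    intro hv
    obtain ⟨q, hq, hn⟩ := (Λ.win_val_iff _ _ a).1 hv
    exact hn (h q (Λ.valid _ a q ha hq))

/-- An equivalence on allowed windows links two tiles of a window. -/
lemma link_step (hl : Λ.Linked) {o : Z5} (i : Z5) (d d' : Dir) (P P' : τ → Prop)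
    (h : ∀ q, ok q → (P (q d) ↔ P' (q d'))) :
    Same (Λ.T o (i - dir d) P) (Λ.T o (i - dir d') P') := by
  refine (hl.tile o i d P).symm.trans (Same.trans ?_ (hl.tile o i d' P'))
  refine same_of_agree (Λ.area_ctx _) subset_rfl (Λ.thru_win _ _) subset_rfl (Λ.thru_win _ _)
    fun a ha => ?_
  cases hr : Λ.rd (Λ.cell o i) a with
  | none => rw [win_val_none Λ hr, win_val_none Λ hr]
  | some q =>
    rw [Bool.eq_iff_iff, win_val_some Λ hr, win_val_some Λ hr]
    exact h q (Λ.valid _ a q ha hr)

/-- An equivalence on allowed windows that may use an event linked between the two tiles. -/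
lemma link_step_given (hl : Λ.Linked) {o : Z5} (i : Z5) (d d' : Dir) {A A' : τ → Prop}
    (hA : Same (Λ.T o (i - dir d) A) (Λ.T o (i - dir d') A')) (P P' : τ → Prop)
    (h : ∀ q, ok q → (A (q d) ↔ A' (q d')) → (P (q d) ↔ P' (q d'))) :
    Same (Λ.T o (i - dir d) P) (Λ.T o (i - dir d') P') := by
  refine (hl.tile o i d P).symm.trans (Same.trans ?_ (hl.tile o i d' P'))
  set v := Λ.cell o i
  have hlA : Same (Λ.win v fun q => A (q d)) (Λ.win v fun q => A' (q d')) :=
    (hl.tile o i d A).trans (hA.trans (hl.tile o i d' A').symm)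
  have hN : Null (Λ.win v fun q => ¬ (A (q d) ↔ A' (q d'))) := by
    refine same_of_fun (ι := Bool)
      (fun b => if b then Λ.win v fun q => A (q d) else Λ.win v fun q => A' (q d'))
      (fun _ => Λ.win v fun q => A' (q d')) (fun f => f true != f false) (Λ.area_ctx v)
      (Λ.area_ctx v) subset_rfl (Λ.thru_win _ _) (by simp) (thru_bot _)
      (fun b => by cases b <;> exact subset_rfl) (fun b => by cases b <;> exact Λ.thru_win _ _)
      (fun _ => subset_rfl) (fun _ => Λ.thru_win _ _) (fun a _ => ?_) (fun a _ => by simp)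
      fun b => ?_
    · simp only [if_true, Bool.false_eq_true, if_false]
      cases hr : Λ.rd v a with
      | none => simp [win, hr]
      | some q => by_cases h1 : A (q d) <;> by_cases h2 : A' (q d') <;> simp [win, hr, h1, h2]
    · cases b
      · exact same_refl (Λ.area_ctx v) (Λ.thru_win _ _)
      · exact hlA
  refine hN.same_of_eq (Λ.area_ctx v) subset_rfl (Λ.thru_win _ _) subset_rfl (Λ.thru_win _ _)
    subset_rfl (Λ.thru_win _ _) fun a ha hNa => ?_
  cases hr : Λ.rd v a with
  | none => rw [win_val_none Λ hr, win_val_none Λ hr]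
  | some q =>
    have hgood : A (q d) ↔ A' (q d') := by
      by_contra hc
      exact Bool.false_ne_true (hNa.symm.trans ((win_val_some Λ hr).2 hc))
    rw [Bool.eq_iff_iff, win_val_some Λ hr, win_val_some Λ hr]
    exact h q (Λ.valid _ a q ha hr) hgood

/-- The origins of one lattice are one event. -/
lemma Linked.origin_step (hl : Λ.Linked) (o i : Z5) (d : Dir) :
    Same (Λ.T o i fun _ => True) (Λ.T o (i - dir d) fun _ => True) := by
  simpa using link_step hl (o := o) i d₀ d (fun _ => True) (fun _ => True) fun _ _ => Iff.rfl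

variable (Λ) in
/-- The tile at the cell `i` with the property `P` commutes with `o'`. -/
def Ok (o : Z5) (o' : S.Obs) (i : Z5) (P : τ → Prop) : Prop := Com (Λ.T o i P) o'

lemma Ok.of_same {o : Z5} {o' : S.Obs} {i i' : Z5} {P P' : τ → Prop}
    (h : Same (Λ.T o i P) (Λ.T o i' P')) (h' : Λ.Ok o o' i' P') : Λ.Ok o o' i P :=
  Same.com h h'

/-- An impossible property commutes with everything. -/
lemma Ok.never {o : Z5} {o' : S.Obs} {h : Lat → S.A → S.A} (ho' : Ctx h o'.supp)
    (hto' : o'.Thru S h) {i : Z5} {P : τ → Prop} (hP : ∀ q, ok q → ¬ P (q d₀)) :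
    Λ.Ok o o' i P := by
  refine Null.com (null_of_false (Λ.ctx_T o i) subset_rfl (Λ.thru_T _ _ _) fun a ha => ?_) ho' hto'
  rw [Bool.eq_false_iff]
  intro hv
  obtain ⟨q, hq, hp⟩ := (Λ.win_val_iff _ _ a).1 hv
  exact hP q (Λ.valid _ a q ha hq) hp

/-- A property determined, on allowed windows, by commuting properties of tiles of the window
commutes. The window being present is one more commuting property. -/
lemma Ok.step (hl : Λ.Linked) {o : Z5} {o' : S.Obs} {h : Lat → S.A → S.A} (ho' : Ctx h o'.supp)
    (hto' : o'.Thru S h) {ι : Type} [Fintype ι] (i : Z5) (d : Dir) (P : τ → Prop) (ds : ι → Dir)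
    (Ps : ι → τ → Prop)
    (hdet : ∀ q q', ok q → ok q' → (∀ m, Ps m (q (ds m)) ↔ Ps m (q' (ds m))) →
      (P (q d) ↔ P (q' d)))
    (hg : Λ.Ok o o' i fun _ => True) (hm : ∀ m, Λ.Ok o o' (i - dir (ds m)) (Ps m)) :
    Λ.Ok o o' (i - dir d) P := by
  refine Same.com (hl.tile o i d P).symm ?_
  refine com_of_determined
    (fun m : Option ι => Λ.win (Λ.cell o i) fun q => m.elim True fun m => Ps m (q (ds m)))
    (Λ.area_ctx _) subset_rfl (Λ.thru_win _ _) (fun _ => subset_rfl) (fun _ => Λ.thru_win _ _)
    ho' hto' (fun a b ha hb hab => ?_) fun m => ?_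
  · have h0 := hab none
    rw [Bool.eq_iff_iff]
    cases hra : Λ.rd (Λ.cell o i) a with
    | none =>
      cases hrb : Λ.rd (Λ.cell o i) b with
      | none => rw [win_val_none Λ hra, win_val_none Λ hrb]
      | some q' =>
        rw [win_val_none Λ hra] at h0
        exact absurd (h0.trans ((win_val_some Λ hrb).2 trivial)) Bool.false_ne_true
    | some q =>
      cases hrb : Λ.rd (Λ.cell o i) b with
      | none =>
        rw [win_val_none Λ hrb] at h0
        exact absurd (h0.symm.trans ((win_val_some Λ hra).2 trivial)) Bool.false_ne_true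
      | some q' =>
        rw [win_val_some Λ hra, win_val_some Λ hrb]
        refine hdet q q' (Λ.valid _ a q ha hra) (Λ.valid _ b q' hb hrb) fun m => ?_
        have := hab (some m)
        rwa [Bool.eq_iff_iff, win_val_some Λ hra, win_val_some Λ hrb] at this
  · cases m with
    | none =>
      refine Same.com (hl.tile o i d₀ fun _ => True) ?_
      simpa [Ok] using hg
    | some m => exact Same.com (hl.tile o i (ds m) (Ps m)) (hm m)

/-! ### Lines -/

/-- The unit vector of a place. -/
abbrev unit (d : Dir) : Z5 := dir d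

/-- Events linked at each step of a segment are linked at its ends. -/
lemma same_seg (F : ℕ → S.Obs) (g : ℕ → Lat → S.A → S.A) (hc : ∀ n, Ctx (g n) (F n).supp)
    (ht : ∀ n, (F n).Thru S (g n)) {b : ℕ} (h : ∀ n, n < b → Same (F (n + 1)) (F n)) {m n : ℕ}
    (hm : m ≤ b) (hn : n ≤ b) : Same (F m) (F n) := by
  have main : ∀ n, n ≤ b → Same (F n) (F 0) := by
    intro n
    induction n with
    | zero => exact fun _ => same_refl (hc 0) (ht 0)
    | succ n ih => exact fun hb => (h n (by omega)).trans (ih (by omega))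
  exact (main m hm).trans (main n hn).symm

/-- A family of tile events linked along every step of a window is one event. -/
lemma same_lattice (hl : Λ.Linked) {o : Z5} (A : Z5 → τ → Prop)
    (h : ∀ (i : Z5) (d : Dir) q, ok q → (A i (q d₀) ↔ A (i - dir d) (q d))) (i i' : Z5) :
    Same (Λ.T o i (A i)) (Λ.T o i' (A i')) := by
  have step : ∀ (i : Z5) (d : Dir), Same (Λ.T o i (A i)) (Λ.T o (i - dir d) (A (i - dir d))) := by
    intro i d
    simpa using link_step hl (o := o) i d₀ d (A i) (A (i - dir d)) (h i d)
  have line : ∀ (d : Dir) (i : Z5) (n : ℤ),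
      Same (Λ.T o i (A i)) (Λ.T o (i + n • dir d) (A (i + n • dir d))) := by
    intro d i n
    induction n using Int.induction_on with
    | zero => simpa using Λ.refl_T o i (A i)
    | succ n ih =>
      have := (step (i + ((n : ℤ) + 1) • dir d) d).symm
      rw [show i + ((n : ℤ) + 1) • dir d - dir d = i + (n : ℤ) • dir d by rw [add_smul]; simp; abel]
        at this
      exact ih.trans this
    | pred n ih =>
      have := step (i + (-(n : ℤ)) • dir d) d
      rw [show i + (-(n : ℤ)) • dir d - dir d = i + (-(n : ℤ) - 1) • dir d by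
        rw [sub_smul]; simp; abel] at this
      exact ih.trans this
  have key : ∀ (s : Finset (Fin 5)) (i i' : Z5), (∀ a, a ∉ s → i a = i' a) →
      Same (Λ.T o i (A i)) (Λ.T o i' (A i')) := by
    intro s
    induction s using Finset.induction_on with
    | empty =>
      intro i i' h1
      rw [show i' = i from funext fun a => (h1 a (by simp)).symm]
      exact Λ.refl_T o i (A i)
    | @insert x s hx ih =>
      intro i i' h1
      refine (line (axis x) i (i' x - i x)).trans (ih _ _ fun b hb => ?_)
      by_cases hab : b = x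
      · subst hab; simp [dir, axis]
      · simpa [dir, axis, hab] using h1 b (by simp [hb, hab])
  exact key Finset.univ i i' (by simp)

/-- Origins commute with the events of their lattice. -/
lemma ok_origin (hl : Λ.Linked) (o i i' : Z5) (P : τ → Prop) :
    Λ.Ok o (Λ.T o i' P) i fun _ => True :=
  Same.com (same_lattice hl (fun _ _ => True) (fun _ _ _ _ => Iff.rfl) i i') (Λ.com_tile o i' _ P)

end Level

end Vale.Agent.P193.W4.A5
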